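import Vale.Agent.P281.H125.D.Econ4

/-!
# P281, T-Delta (helper125): the canonical second logarithmic derivative on a fibre
-/

open Set Filter Metric Topology
open scoped ContDiff ComplexConjugate

noncomputable section

namespace Vale.Agent.P281.H125.D

variable {n : ℕ} {V : Type*} [NormedAddCommGroup V] [NormedSpace ℂ V]
variable {P : Type*} [NormedAddCommGroup P] [NormedSpace ℂ P]

/-- The logarithmic derivative. -/
def dlg (h : V → ℂ) (z : V) : V →L[ℂ] ℂ := (h z)⁻¹ • fderiv ℂ h z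

/-- `w` is the second logarithmic derivative of the divisor, up to a constant. -/
structure IsCan (e : (Fin n → ℝ) ≃L[ℝ] V) (D : Set V) (Le : V → (V → ℂ) → Prop)
    (w : V → V →L[ℂ] V →L[ℂ] ℂ) : Prop where
  per : ∀ v k, v ∉ D → w (v + e (zr k)) = w v
  loc : ∀ v h, Le v h → ∃ A : V → V →L[ℂ] V →L[ℂ] ℂ, AnalyticAt ℂ A v ∧
    ∀ᶠ v' in 𝓝 v, v' ∉ D → w v' = fderiv ℂ (fun z => (h z)⁻¹ • fderiv ℂ h z) v' + A v'

instance : Nonempty (V → V →L[ℂ] V →L[ℂ] ℂ) := ⟨0⟩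

/-- The canonical second logarithmic derivative. -/
def canW (e : (Fin n → ℝ) ≃L[ℝ] V) (D : Set V) (Le : V → (V → ℂ) → Prop) :
    V → V →L[ℂ] V →L[ℂ] ℂ := Classical.epsilon (IsCan e D Le)

theorem canW_spec {e : (Fin n → ℝ) ≃L[ℝ] V} {D : Set V} {Le : V → (V → ℂ) → Prop}
    (h : ∃ w, IsCan e D Le w) : IsCan e D Le (canW e D Le) := Classical.epsilon_spec h

/-- Uniqueness. -/
theorem IsCan.unique [FiniteDimensional ℂ V] {e : (Fin n → ℝ) ≃L[ℝ] V} {D : Set V}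
    {Le : V → (V → ℂ) → Prop} {w w' : V → V →L[ℂ] V →L[ℂ] ℂ} (hw : IsCan e D Le w)
    (hw' : IsCan e D Le w') (hex : ∀ v, ∃ h, Le v h) (hDn : ∀ z, ¬ ∀ᶠ z' in 𝓝 z, z' ∈ D)
    (hDp : ∀ z k, z ∉ D → z + e (zr k) ∉ D) : ∃ c, ∀ z, z ∉ D → w z = w' z + c := by
  have : CompleteSpace (V →L[ℂ] V →L[ℂ] ℂ) := FiniteDimensional.complete ℂ _
  obtain ⟨c, hc⟩ := const_of_periodic (e := e) hDn hDp (F := fun z => w z - w' z)
    (fun z => by
      obtain ⟨h, hh⟩ := hex z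
      obtain ⟨A, hA, hA'⟩ := hw.loc z h hh
      obtain ⟨A₁, hA₁, hA₁'⟩ := hw'.loc z h hh
      refine ⟨fun z => A z - A₁ z, hA.sub hA₁, ?_⟩
      filter_upwards [hA', hA₁'] with z' h1 h2 h3
      rw [h1 h3, h2 h3]
      abel)
    (fun z k hz => by rw [hw.per z k hz, hw'.per z k hz])
  refine ⟨c, fun z hz => ?_⟩
  rw [← hc z hz]
  abel

/-- The derivatives agree. -/
theorem IsCan.fderiv_eq [FiniteDimensional ℂ V] {e : (Fin n → ℝ) ≃L[ℝ] V} {D : Set V}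
    {Le : V → (V → ℂ) → Prop} {w w' : V → V →L[ℂ] V →L[ℂ] ℂ} (hw : IsCan e D Le w)
    (hw' : IsCan e D Le w') (hex : ∀ v, ∃ h, Le v h) (hDn : ∀ z, ¬ ∀ᶠ z' in 𝓝 z, z' ∈ D)
    (hDp : ∀ z k, z ∉ D → z + e (zr k) ∉ D) (hDc : IsClosed D) {z : V} (hz : z ∉ D) :
    fderiv ℂ w z = fderiv ℂ w' z := by
  obtain ⟨c, hc⟩ := hw.unique hw' hex hDn hDp
  have h1 : w =ᶠ[𝓝 z] fun z => w' z + c := by
    filter_upwards [hDc.isOpen_compl.mem_nhds hz] with z' hz' using hc z' hz'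
  rw [h1.fderiv_eq]
  exact fderiv_add_const (𝕜 := ℂ) (f := w') (x := z) c

/-- The restriction of the family to a fibre. -/
theorem IsW.isCan [FiniteDimensional ℂ P] [FiniteDimensional ℂ V]
    {π : P → ((Fin n → ℝ) ≃L[ℝ] V)} {T : Set P} {Z : Set (P × V)}
    {Le : P × V → (P × V → ℂ) → Prop} (hD : DivDatum π T Z Le) {B : Set P} (hBT : B ⊆ T)
    {w : P × V → (V →L[ℂ] V →L[ℂ] ℂ)} (h : IsW π Z Le B w) {y : P} (hy : y ∈ B)
    {D : Set V} (hDZ : ∀ v, v ∈ D ↔ (y, v) ∈ Z) {Le₁ : V → (V → ℂ) → Prop}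
    (hLe : ∀ v g, Le₁ v g → ∃ H, Le (y, v) H ∧ g =ᶠ[𝓝 v] fun v' => H (y, v')) :
    IsCan (π y) D Le₁ (fun v => w (y, v)) where
  per v k hv := by
    have := h.per (y, v) hy k
    exact this
  loc v g hg := by
    obtain ⟨H, hH, hgH⟩ := hLe v g hg
    obtain ⟨A, hA, hA'⟩ := h.loc (y, v) hy H hH
    refine ⟨fun v' => A (y, v'), ?_, ?_⟩
    · exact AnalyticAt.fun_comp (f := fun v' : V => (y, v')) hA
        (analyticAt_const.prod analyticAt_id)
    · have hp := prod_tendsto y v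
      filter_upwards [hp.eventually hA', hp.eventually (hD.zero _ _ hH),
        hp.eventually (hD.an _ _ hH).eventually_analyticAt,
        eventually_eventually_nhds.2 hgH] with v' h1 h2 h3 h4 h5
      have hZ : (y, v') ∉ Z := fun hZ => h5 ((hDZ v').2 hZ)
      have g0 : H (y, v') ≠ 0 := fun h0 => hZ (h2.1 h0)
      rw [h1 hZ]
      congr 1
      have g1 := dl_analytic h3 g0
      rw [dV_slice g1.differentiableAt]
      have g2 : (fun z => (g z)⁻¹ • fderiv ℂ g z) =ᶠ[𝓝 v'] fun z => dl H (y, z) := by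
        have e1 : ∀ᶠ z in 𝓝 v', AnalyticAt ℂ H (y, z) :=
          (prod_tendsto y v').eventually h3.eventually_analyticAt
        filter_upwards [e1, eventually_eventually_nhds.2 h4] with z f1 f2
        have f2' : g =ᶠ[𝓝 z] fun v' => H (y, v') := f2
        rw [f2'.fderiv_eq, f2'.self_of_nhds]
        unfold dl
        congr 1
        exact (dV_slice f1.differentiableAt).symm
      exact g2.fderiv_eq.symm

/-- Naturality under affine maps. -/
theorem IsCan.comp [FiniteDimensional ℂ V] {e e' : (Fin n → ℝ) ≃L[ℝ] V} {D D' : Set V}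
    {Le Le' : V → (V → ℂ) → Prop} {w' : V → V →L[ℂ] V →L[ℂ] ℂ} (hw' : IsCan e' D' Le' w')
    (G : V ≃L[ℂ] V) (c : V) (hD : ∀ v, v ∈ D ↔ G v + c ∈ D')
    (hG : ∀ k : Fin n → ℤ, ∃ k' : Fin n → ℤ, G (e (zr k)) = e' (zr k'))
    (han : ∀ v h, Le' v h → AnalyticAt ℂ h v)
    (hzero : ∀ v h, Le' v h → ∀ᶠ v' in 𝓝 v, h v' = 0 → v' ∈ D')
    (hLe : ∀ v g, Le v g → ∃ g', Le' (G v + c) g' ∧ g =ᶠ[𝓝 v] fun v' => g' (G v' + c)) :
    IsCan e D Le (fun v => ((ContinuousLinearMap.compL ℂ V V ℂ).flip (G : V →L[ℂ] V)).comp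
      ((w' (G v + c)).comp (G : V →L[ℂ] V))) where
  per v k hv := by
    obtain ⟨k', hk'⟩ := hG k
    have h1 : G (v + e (zr k)) + c = (G v + c) + e' (zr k') := by
      rw [map_add, hk']
      abel
    rw [h1, hw'.per _ _ fun h => hv ((hD v).2 h)]
  loc v g hg := by
    obtain ⟨g', hg', hgg⟩ := hLe v g hg
    obtain ⟨A, hA, hA'⟩ := hw'.loc _ _ hg'
    let g₀ : V → V := fun v => G v + c
    have hg₀ : ∀ v, HasFDerivAt g₀ (G : V →L[ℂ] V) v := fun v =>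
      (G : V →L[ℂ] V).hasFDerivAt.add_const c
    have hg₀a : AnalyticAt ℂ g₀ v := (G : V →L[ℂ] V).analyticAt v |>.add analyticAt_const
    have hcont : Tendsto g₀ (𝓝 v) (𝓝 (G v + c)) := (hg₀ v).continuousAt
    refine ⟨fun v => ((ContinuousLinearMap.compL ℂ V V ℂ).flip (G : V →L[ℂ] V)).comp
      ((A (G v + c)).comp (G : V →L[ℂ] V)), ?_, ?_⟩
    · have h1 : AnalyticAt ℂ (fun v => A (g₀ v)) v := AnalyticAt.fun_comp (f := g₀) hA hg₀a
      have h2 := ContinuousLinearMap.analyticAt (𝕜 := ℂ) (E := V →L[ℂ] V →L[ℂ] ℂ)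
        (F := V →L[ℂ] V →L[ℂ] ℂ) ((ContinuousLinearMap.compL ℂ V (V →L[ℂ] ℂ) (V →L[ℂ] ℂ)
          ((ContinuousLinearMap.compL ℂ V V ℂ).flip (G : V →L[ℂ] V))) ∘L
            ((ContinuousLinearMap.compL ℂ V V (V →L[ℂ] ℂ)).flip (G : V →L[ℂ] V))) (A (g₀ v))
      exact AnalyticAt.fun_comp (f := fun v => A (g₀ v)) h2 h1
    · filter_upwards [hcont.eventually hA', hcont.eventually (hzero _ _ hg'),
        hcont.eventually (han _ _ hg').eventually_analyticAt,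
        eventually_eventually_nhds.2 hgg] with v' h1 h2 h3 h4 h5
      have hZ : G v' + c ∉ D' := fun hZ => h5 ((hD v').2 hZ)
      have g0 : g' (g₀ v') ≠ 0 := fun h0 => hZ (h2 h0)
      rw [h1 hZ]
      -- the logarithmic derivative
      have e1 : ∀ᶠ z in 𝓝 v', AnalyticAt ℂ g' (g₀ z) :=
        (hg₀ v').continuousAt.eventually h3.eventually_analyticAt
      have g2 : (fun z => (g z)⁻¹ • fderiv ℂ g z) =ᶠ[𝓝 v'] fun z =>
          (dlg g' (g₀ z)).comp (G : V →L[ℂ] V) := by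
        filter_upwards [e1, eventually_eventually_nhds.2 h4] with z f1 f2
        have f2' : g =ᶠ[𝓝 z] fun v' => g' (g₀ v') := f2
        rw [f2'.fderiv_eq, f2'.self_of_nhds]
        have f3 : HasFDerivAt (fun v' => g' (g₀ v')) ((fderiv ℂ g' (g₀ z)).comp (G : V →L[ℂ] V)) z :=
          f1.differentiableAt.hasFDerivAt.comp z (hg₀ z)
        rw [f3.fderiv]
        rfl
      have h3' : AnalyticAt ℂ (dlg g') (g₀ v') := (AnalyticAt.inv h3 g0).smul h3.fderiv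
      have g3 : HasFDerivAt (fun z => (dlg g' (g₀ z)).comp (G : V →L[ℂ] V))
          (((ContinuousLinearMap.compL ℂ V V ℂ).flip (G : V →L[ℂ] V)).comp
            ((fderiv ℂ (dlg g') (g₀ v')).comp (G : V →L[ℂ] V))) v' := by
        have f4 : HasFDerivAt (fun z => dlg g' (g₀ z))
            ((fderiv ℂ (dlg g') (g₀ v')).comp (G : V →L[ℂ] V)) v' :=
          h3'.differentiableAt.hasFDerivAt.comp v' (hg₀ v')
        exact ((ContinuousLinearMap.compL ℂ V V ℂ).flip (G : V →L[ℂ] V)).hasFDerivAt.comp v' f4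
      rw [g2.fderiv_eq, g3.fderiv]
      ext a b
      rfl

end Vale.Agent.P281.H125.D
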