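import Vale.Agent.P281.H125.D.Nice

/-!
# P281, T-Delta, block D2 (helper125): real coordinates and the holomorphy criterion
-/

open Set Filter Metric Topology
open scoped ContDiff

noncomputable section

namespace Vale.Agent.P281.H125.D

variable {n : ℕ} {V : Type*} [NormedAddCommGroup V] [NormedSpace ℂ V]
variable {P : Type*} [NormedAddCommGroup P] [NormedSpace ℂ P]
variable {E : Type*} [NormedAddCommGroup E] [NormedSpace ℂ E]

/-- From the real coordinates `(y, x)` to `(y, z)`, `z = π_y x`. -/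
def th (π : P → ((Fin n → ℝ) ≃L[ℝ] V)) (q : P × (Fin n → ℝ)) : P × V := (q.1, π q.1 q.2)

/-- From `(y, z)` to the real coordinates. -/
def ti (π : P → ((Fin n → ℝ) ≃L[ℝ] V)) (w : P × V) : P × (Fin n → ℝ) :=
  (w.1, (π w.1).symm w.2)

omit [NormedAddCommGroup P] [NormedSpace ℂ P] in
@[simp] theorem th_fst (π : P → ((Fin n → ℝ) ≃L[ℝ] V)) (q : P × (Fin n → ℝ)) :
    (th π q).1 = q.1 := rfl

omit [NormedAddCommGroup P] [NormedSpace ℂ P] in
@[simp] theorem ti_fst (π : P → ((Fin n → ℝ) ≃L[ℝ] V)) (w : P × V) :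
    (ti π w).1 = w.1 := rfl

omit [NormedAddCommGroup P] [NormedSpace ℂ P] in
@[simp] theorem th_ti (π : P → ((Fin n → ℝ) ≃L[ℝ] V)) (w : P × V) : th π (ti π w) = w := by
  simp [th, ti]

omit [NormedAddCommGroup P] [NormedSpace ℂ P] in
@[simp] theorem ti_th (π : P → ((Fin n → ℝ) ≃L[ℝ] V)) (q : P × (Fin n → ℝ)) :
    ti π (th π q) = q := by
  simp [th, ti]

/-- The periods as a function with values in linear maps. -/
def pA (π : P → ((Fin n → ℝ) ≃L[ℝ] V)) (y : P) : (Fin n → ℝ) →L[ℝ] V := π y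

omit [NormedAddCommGroup P] [NormedSpace ℂ P] in
theorem pA_eq (π : P → ((Fin n → ℝ) ≃L[ℝ] V)) : pA π = fun y => ∑ m : Fin n,
    (ContinuousLinearMap.smulRightL ℝ (Fin n → ℝ) V
      (ContinuousLinearMap.proj m : (Fin n → ℝ) →L[ℝ] ℝ)) (π y (Pi.single m 1)) := by
  funext y
  ext x
  rw [sum_apply]
  change π y x = _
  have := apply_eq_sum (π y : (Fin n → ℝ) →L[ℝ] V) x
  refine this.trans (Finset.sum_congr rfl fun m _ => ?_)
  rw [Complex.coe_smul]
  rfl

variable [FiniteDimensional ℂ P] [FiniteDimensional ℂ V]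

theorem pA_contDiffAt {π : P → ((Fin n → ℝ) ≃L[ℝ] V)} {T : Set P} (hT : IsOpen T)
    (hπ : HolPer π T) {y : P} (hy : y ∈ T) {k : WithTop ℕ∞} : ContDiffAt ℝ k (pA π) y := by
  have : CompleteSpace V := FiniteDimensional.complete ℂ V
  rw [pA_eq]
  refine ContDiffAt.sum fun m _ => ?_
  refine ContDiffAt.continuousLinearMap_comp _ ?_
  exact ((MF.analyticAt_of_differentiableOn hT (hπ (Pi.single m 1)) hy).restrictScalars
    (𝕜 := ℝ)).contDiffAt

theorem contDiffAt_th {π : P → ((Fin n → ℝ) ≃L[ℝ] V)} {T : Set P} (hT : IsOpen T)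
    (hπ : HolPer π T) {q : P × (Fin n → ℝ)} (hq : q.1 ∈ T) {k : WithTop ℕ∞} :
    ContDiffAt ℝ k (th π) q := by
  refine contDiffAt_fst.prodMk ?_
  have h1 : ContDiffAt ℝ k (fun q : P × (Fin n → ℝ) => pA π q.1) q :=
    (pA_contDiffAt hT hπ hq).comp q contDiffAt_fst
  exact h1.clm_apply contDiffAt_snd

theorem contDiffAt_ti {π : P → ((Fin n → ℝ) ≃L[ℝ] V)} {T : Set P} (hT : IsOpen T)
    (hπ : HolPer π T) {w : P × V} (hw : w.1 ∈ T) {k : WithTop ℕ∞} :
    ContDiffAt ℝ k (ti π) w := by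
  refine contDiffAt_fst.prodMk ?_
  have h1 : ContDiffAt ℝ k (fun w : P × V => pA π w.1) w :=
    (pA_contDiffAt hT hπ hw).comp w contDiffAt_fst
  have h0 : ContDiffAt ℝ k (ContinuousLinearMap.inverse : ((Fin n → ℝ) →L[ℝ] V) → _)
      (pA π w.1) := contDiffAt_map_inverse (π w.1)
  have h2 : ContDiffAt ℝ k (fun w : P × V => ContinuousLinearMap.inverse (pA π w.1)) w :=
    ContDiffAt.comp (g := ContinuousLinearMap.inverse) (f := fun w : P × V => pA π w.1) w h0 h1
  have h3 : ∀ w : P × V, (π w.1).symm w.2 = ContinuousLinearMap.inverse (pA π w.1) w.2 := by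
    intro w
    unfold pA
    rw [ContinuousLinearMap.inverse_equiv]
    rfl
  exact (h2.clm_apply contDiffAt_snd).congr_of_eventuallyEq (Eventually.of_forall h3)

theorem continuousAt_th {π : P → ((Fin n → ℝ) ≃L[ℝ] V)} {T : Set P} (hT : IsOpen T)
    (hπ : HolPer π T) {q : P × (Fin n → ℝ)} (hq : q.1 ∈ T) : ContinuousAt (th π) q :=
  (contDiffAt_th (k := 1) hT hπ hq).continuousAt

theorem continuousAt_ti {π : P → ((Fin n → ℝ) ≃L[ℝ] V)} {T : Set P} (hT : IsOpen T)
    (hπ : HolPer π T) {w : P × V} (hw : w.1 ∈ T) : ContinuousAt (ti π) w :=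
  (contDiffAt_ti (k := 1) hT hπ hw).continuousAt

/-- The derivative of the change of coordinates. -/
theorem hasFDerivAt_th {π : P → ((Fin n → ℝ) ≃L[ℝ] V)} {T : Set P} (hT : IsOpen T)
    (hπ : HolPer π T) {q : P × (Fin n → ℝ)} (hq : q.1 ∈ T) :
    ∃ (L : P →L[ℂ] V) (M : (P × (Fin n → ℝ)) →L[ℝ] (P × V)), HasFDerivAt (th π) M q ∧
      ∀ η ξ, M (η, ξ) = (η, L η + π q.1 ξ) := by
  refine ⟨fderiv ℂ (fun y => π y q.2) q.1, fderiv ℝ (th π) q,
    ((contDiffAt_th (k := 1) hT hπ hq).differentiableAt one_ne_zero).hasFDerivAt, ?_⟩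
  intro η ξ
  have h0 : DifferentiableAt ℝ (pA π) q.1 :=
    (pA_contDiffAt (k := 1) hT hπ hq).differentiableAt one_ne_zero
  have h1 : HasFDerivAt (fun q : P × (Fin n → ℝ) => pA π q.1)
      ((fderiv ℝ (pA π) q.1).comp (ContinuousLinearMap.fst ℝ P (Fin n → ℝ))) q :=
    h0.hasFDerivAt.comp q hasFDerivAt_fst
  have h2 := h1.clm_apply (hasFDerivAt_snd (𝕜 := ℝ) (p := q))
  have h3 : HasFDerivAt (th π) _ q := hasFDerivAt_fst.prodMk h2
  rw [h3.fderiv]
  have h4 : HasFDerivAt (fun y => π y q.2)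
      ((ContinuousLinearMap.apply ℝ V q.2).comp (fderiv ℝ (pA π) q.1)) q.1 :=
    (ContinuousLinearMap.apply ℝ V q.2).hasFDerivAt.comp q.1 h0.hasFDerivAt
  have h5 : HasFDerivAt (fun y => π y q.2)
      ((fderiv ℂ (fun y => π y q.2) q.1).restrictScalars ℝ) q.1 :=
    (((hπ q.2).differentiableAt (hT.mem_nhds hq)).hasFDerivAt).restrictScalars ℝ
  have h6 : (fderiv ℝ (pA π) q.1 η) q.2 = fderiv ℂ (fun y => π y q.2) q.1 η := by
    have := congrArg (fun A : P →L[ℝ] V => A η) (h4.unique h5)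
    simpa using this
  rw [← h6]
  simp only [ContinuousLinearMap.prod_apply, add_apply, ContinuousLinearMap.comp_apply,
    ContinuousLinearMap.flip_apply, ContinuousLinearMap.coe_fst', ContinuousLinearMap.coe_snd']
  rw [add_comm]
  rfl

/-- The directional derivatives of a holomorphic function in the real coordinates. -/
theorem dx_pull {π : P → ((Fin n → ℝ) ≃L[ℝ] V)} {T : Set P} (hT : IsOpen T)
    (hπ : HolPer π T) {q : P × (Fin n → ℝ)} (hq : q.1 ∈ T) {G : P × V → E}
    (hG : DifferentiableAt ℂ G (th π q)) (c : Fin n → ℂ) :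
    dx c (fun q => G (th π q)) q = fderiv ℂ G (th π q) (0, pcE (π q.1) c) := by
  obtain ⟨L, M, hM, hLM⟩ := hasFDerivAt_th hT hπ hq
  have h1 : HasFDerivAt (fun q => G (th π q))
      (((fderiv ℂ G (th π q)).restrictScalars ℝ).comp M) q :=
    (hG.hasFDerivAt.restrictScalars ℝ).comp q hM
  unfold dx
  rw [h1.fderiv]
  have h2 : ∀ m : Fin n, (((fderiv ℂ G (th π q)).restrictScalars ℝ).comp M) (0, Pi.single m 1)
      = fderiv ℂ G (th π q) (0, π q.1 (Pi.single m 1)) := by
    intro m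
    rw [ContinuousLinearMap.comp_apply, hLM, map_zero, zero_add]
    rfl
  rw [Finset.sum_congr rfl fun m _ => by rw [h2 m]]
  have h3 : ((0 : P), pcE (π q.1) c) = ∑ m, c m • ((0 : P), π q.1 (Pi.single m 1)) := by
    rw [pcE_apply]
    refine Prod.ext ?_ ?_
    · rw [Prod.fst_sum]
      simp
    · rw [Prod.snd_sum]
      rfl
  rw [h3, map_sum]
  refine Finset.sum_congr rfl fun m _ => ?_
  rw [map_smul]

/-- Holomorphic functions are nice. -/
theorem nice_pull [CompleteSpace E] {π : P → ((Fin n → ℝ) ≃L[ℝ] V)} {T : Set P} (hT : IsOpen T)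
    (hπ : HolPer π T) {q : P × (Fin n → ℝ)} (hq : q.1 ∈ T) {G : P × V → E}
    (hG : AnalyticAt ℂ G (th π q)) {k : WithTop ℕ∞} : Nice k (fun q => G (th π q)) q := by
  have h1 : ∀ᶠ q' in 𝓝 q, AnalyticAt ℂ G (th π q') :=
    (continuousAt_th hT hπ hq).eventually hG.eventually_analyticAt
  have h2 : ∀ᶠ q' : P × (Fin n → ℝ) in 𝓝 q, q'.1 ∈ T :=
    continuous_fst.continuousAt.eventually (hT.mem_nhds hq)
  filter_upwards [h1, h2] with q' hG' hq'
  refine ⟨(hG'.restrictScalars (𝕜 := ℝ)).contDiffAt.comp q' (contDiffAt_th hT hπ hq'),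
    fun η => ?_⟩
  obtain ⟨L, M, hM, hLM⟩ := hasFDerivAt_th hT hπ hq'
  have h3 : HasFDerivAt (fun q => G (th π q))
      (((fderiv ℂ G (th π q')).restrictScalars ℝ).comp M) q' :=
    (hG'.differentiableAt.hasFDerivAt.restrictScalars ℝ).comp q' hM
  rw [h3.fderiv]
  simp only [ContinuousLinearMap.comp_apply, ContinuousLinearMap.coe_restrictScalars', hLM,
    map_zero, add_zero, map_smul]
  rw [← Prod.smul_mk, map_smul]

/-- **Criterion**: nice functions which are annihilated by the anti-holomorphic directions are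
holomorphic functions of `(y, z)`. -/
theorem analyticAt_of_nice [CompleteSpace E] {π : P → ((Fin n → ℝ) ≃L[ℝ] V)} {T : Set P}
    (hT : IsOpen T) (hπ : HolPer π T) {k : WithTop ℕ∞} (hk : 1 ≤ k)
    {F : P × (Fin n → ℝ) → E} {w : P × V} (hw : w.1 ∈ T)
    (hF : Nice k F (ti π w))
    (hdx : ∀ᶠ q in 𝓝 (ti π w), ∀ c, pcE (π q.1) c = 0 → dx c F q = 0) :
    AnalyticAt ℂ (fun w => F (ti π w)) w := by
  have hev : ∀ᶠ w' in 𝓝 w, DifferentiableAt ℂ (fun w => F (ti π w)) w' := by
    have h1 : ∀ᶠ w' in 𝓝 w, Nice k F (ti π w') :=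
      (continuousAt_ti hT hπ hw).eventually hF.eventually
    have h2 : ∀ᶠ w' : P × V in 𝓝 w, w'.1 ∈ T :=
      continuous_fst.continuousAt.eventually (hT.mem_nhds hw)
    have h3 := (continuousAt_ti hT hπ hw).eventually hdx
    filter_upwards [h1, h2, h3] with w' hF' hw' hdx'
    obtain ⟨L, M, hM, hLM⟩ := hasFDerivAt_th hT hπ (q := ti π w') hw'
    have hti : HasFDerivAt (ti π) (fderiv ℝ (ti π) w') w' :=
      ((contDiffAt_ti (k := 1) hT hπ hw').differentiableAt one_ne_zero).hasFDerivAt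
    have hFd : DifferentiableAt ℝ F (ti π w') := ContDiffAt.diffOne hF'.contDiffAt hk
    have hcomp : HasFDerivAt (fun w => F (ti π w))
        ((fderiv ℝ F (ti π w')).comp (fderiv ℝ (ti π) w')) w' := hFd.hasFDerivAt.comp w' hti
    have hid : M.comp (fderiv ℝ (ti π) w') = ContinuousLinearMap.id ℝ (P × V) := by
      have h4 : HasFDerivAt (fun w => th π (ti π w)) (M.comp (fderiv ℝ (ti π) w')) w' :=
        hM.comp w' hti
      have h5 : (fun w : P × V => th π (ti π w)) = id := by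
        funext w
        exact th_ti π w
      rw [h5] at h4
      exact h4.unique (hasFDerivAt_id w')
    refine hasFDerivAt_of_real hcomp.differentiableAt fun v => ?_
    rw [hcomp.fderiv]
    simp only [ContinuousLinearMap.comp_apply]
    -- the components
    have h6 : ∀ v, M (fderiv ℝ (ti π) w' v) = v := fun v => by
      have := congrArg (fun A : (P × V) →L[ℝ] (P × V) => A v) hid
      simpa using this
    set a := fderiv ℝ (ti π) w' v with ha
    set b := fderiv ℝ (ti π) w' (Complex.I • v) with hb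
    have h7 := h6 v
    have h8 := h6 (Complex.I • v)
    rw [← ha] at h7
    rw [← hb] at h8
    have h9 : (a.1, L a.1 + π (ti π w').1 a.2) = v := by rw [← hLM]; exact h7
    have h10 : (b.1, L b.1 + π (ti π w').1 b.2) = Complex.I • v := by rw [← hLM]; exact h8
    have h11 : b.1 = Complex.I • a.1 := by
      have e1 := congrArg Prod.fst h9
      have e2 := congrArg Prod.fst h10
      simp only [Prod.smul_fst] at e1 e2
      rw [e2, ← e1]
    have h12 : π (ti π w').1 b.2 = Complex.I • π (ti π w').1 a.2 := by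
      have e1 := congrArg Prod.snd h9
      have e2 := congrArg Prod.snd h10
      simp only [Prod.smul_snd] at e1 e2
      rw [← e1, h11, map_smul, smul_add] at e2
      exact add_left_cancel e2
    have h13 : pcE (π (ti π w').1) (fun m => (b.2 m : ℂ) - Complex.I * (a.2 m : ℂ)) = 0 := by
      have e1 : (fun m => (b.2 m : ℂ) - Complex.I * (a.2 m : ℂ)) =
          (fun m => (b.2 m : ℂ)) - Complex.I • (fun m => (a.2 m : ℂ)) := by
        funext m
        simp
      rw [e1, map_sub, map_smul, pcE_real, pcE_real, h12, sub_self]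
    have h14 := hdx' _ h13
    have h15 : ∀ ξ : Fin n → ℝ, fderiv ℝ F (ti π w') (0, ξ) =
        ∑ m, (ξ m : ℂ) • fderiv ℝ F (ti π w') (0, Pi.single m 1) := by
      intro ξ
      exact apply_eq_sum ((fderiv ℝ F (ti π w')).comp (ContinuousLinearMap.inr ℝ P (Fin n → ℝ))) ξ
    have h16 : fderiv ℝ F (ti π w') (0, b.2) = Complex.I • fderiv ℝ F (ti π w') (0, a.2) := by
      rw [h15, h15, ← sub_eq_zero, Finset.smul_sum, ← Finset.sum_sub_distrib]
      unfold dx at h14
      rw [← h14]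
      refine Finset.sum_congr rfl fun m _ => ?_
      rw [sub_smul, smul_smul]
    have h17 : ∀ a : P × (Fin n → ℝ), fderiv ℝ F (ti π w') a =
        fderiv ℝ F (ti π w') (a.1, 0) + fderiv ℝ F (ti π w') (0, a.2) := by
      intro a
      rw [← map_add]
      congr 1
      simp
    rw [h17 b, h17 a, h11, hF'.cr, h16, smul_add]
  obtain ⟨U, hUs, hUo, hwU⟩ := _root_.mem_nhds_iff.1 hev
  exact MF.analyticAt_of_differentiableOn hUo
    (fun w' hw' => (hUs hw').differentiableWithinAt) hwU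

end Vale.Agent.P281.H125.D
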