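import Vale.Agent.P281.H125.D.Phi

/-!
# P281, T-Delta (helper125): the class of the divisor is locally constant
-/

open Set Filter Metric Topology
open scoped ContDiff

noncomputable section

namespace Vale.Agent.P281.H125.D

variable {n : ℕ} {V : Type*} [NormedAddCommGroup V] [NormedSpace ℂ V]
variable {P : Type*} [NormedAddCommGroup P] [NormedSpace ℂ P]
variable {W : Type*} [NormedAddCommGroup W] [NormedSpace ℂ W]

omit [NormedSpace ℂ V] [NormedSpace ℂ W] in
/-- Extension of functions defined off a nowhere dense set, by continuity. -/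
theorem exists_ext {D : Set V} (hDn : ∀ z, ¬ ∀ᶠ z' in 𝓝 z, z' ∈ D) {F : V → W}
    (hloc : ∀ z, ∃ A : V → W, (∀ᶠ z' in 𝓝 z, ContinuousAt A z') ∧
      ∀ᶠ z' in 𝓝 z, z' ∉ D → F z' = A z') :
    ∃ G : V → W, (∀ z, z ∉ D → G z = F z) ∧ ∀ z A, (∀ᶠ z' in 𝓝 z, ContinuousAt A z') →
      (∀ᶠ z' in 𝓝 z, z' ∉ D → F z' = A z') → G =ᶠ[𝓝 z] A := by
  choose A hA hAF using hloc
  have huniq : ∀ (f g : V → W) (z : V), ContinuousAt f z → ContinuousAt g z →
      (∀ᶠ z' in 𝓝 z, z' ∉ D → f z' = g z') → f z = g z := by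
    intro f g z hf hg h
    by_contra hne
    have h1 : ∀ᶠ z' in 𝓝 z, f z' - g z' ≠ 0 := (hf.sub hg).eventually_ne (sub_ne_zero.2 hne)
    refine hDn z ?_
    filter_upwards [h, h1] with z' h2 h3
    by_contra h4
    exact h3 (sub_eq_zero.2 (h2 h4))
  refine ⟨fun z => A z z, fun z hz => ((hAF z).self_of_nhds hz).symm, fun z A' h1 h2 => ?_⟩
  filter_upwards [h1, eventually_eventually_nhds.2 h2] with z' h3 h4
  refine huniq (A z') A' z' (hA z').self_of_nhds h3 ?_
  filter_upwards [h4, hAF z'] with z'' h5 h6 h7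
  rw [← h5 h7, ← h6 h7]

section dbar

variable [FiniteDimensional ℂ V]

/-- A periodic function with constant `∂̄` is constant. -/
theorem const_of_dbar [CompleteSpace W] {e : (Fin n → ℝ) ≃L[ℝ] V} {θ : V → W}
    (hθ : Differentiable ℝ θ) (hper : ∀ z k, θ (z + e (zr k)) = θ z) {C : V → W}
    (hC : ∀ z v, fderiv ℝ θ z (Complex.I • v) - Complex.I • fderiv ℝ θ z v = C v) (z : V) :
    θ z = θ 0 := by
  -- the antilinear part
  let L := fderiv ℝ θ 0
  let J : V →L[ℝ] V := ((Complex.I • ContinuousLinearMap.id ℂ V : V →L[ℂ] V)).restrictScalars ℝ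
  have hJ : ∀ v, J v = Complex.I • v := fun v => by simp [J]
  let IW : W →L[ℝ] W := ((Complex.I • ContinuousLinearMap.id ℂ W : W →L[ℂ] W)).restrictScalars ℝ
  have hIW : ∀ w, IW w = Complex.I • w := fun v => by simp [IW]
  let A : V →L[ℝ] W := (1 / 2 : ℝ) • (L + IW.comp (L.comp J))
  have hA : ∀ v, A v = (1 / 2 : ℂ) • (L v + Complex.I • L (Complex.I • v)) := by
    intro v
    have h1 : A v = (1 / 2 : ℝ) • (L v + IW (L (J v))) := rfl
    rw [h1, hIW, hJ, ← Complex.coe_smul]
    norm_num
  have hAI : ∀ v, A (Complex.I • v) = -(Complex.I • A v) := by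
    intro v
    rw [hA, hA, smul_smul Complex.I Complex.I v, Complex.I_mul_I, neg_one_smul, map_neg]
    rw [smul_comm Complex.I (1 / 2 : ℂ), ← smul_neg]
    congr 1
    rw [smul_add, smul_smul, Complex.I_mul_I, neg_one_smul, smul_neg]
    abel
  have hAC : ∀ v, C v = -((2 : ℂ) • (Complex.I • A v)) := by
    intro v
    rw [← hC 0 v, hA, smul_comm Complex.I (1 / 2 : ℂ), smul_smul, smul_add Complex.I, smul_smul,
      Complex.I_mul_I]
    norm_num
    change L (Complex.I • v) - Complex.I • L v = L (Complex.I • v) + -(Complex.I • L v)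
    abel
  let f : V → W := fun z => θ z - A z
  have hfd : Differentiable ℂ f := by
    intro z
    have h1 : HasFDerivAt f (fderiv ℝ θ z - A) z := (hθ z).hasFDerivAt.sub A.hasFDerivAt
    refine hasFDerivAt_of_real h1.differentiableAt fun v => ?_
    rw [h1.fderiv]
    simp only [sub_apply]
    rw [hAI, sub_neg_eq_add, smul_sub]
    have h2 := hC z v
    rw [hAC] at h2
    rw [sub_eq_iff_eq_add.1 h2, two_smul]
    abel
  have hfa : ∀ z, AnalyticAt ℂ f z := fun z =>
    MF.analyticAt_of_differentiableOn isOpen_univ hfd.differentiableOn (mem_univ z)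
  have hfp : ∀ z k, fderiv ℂ f (z + e (zr k)) = fderiv ℂ f z := by
    intro z k
    rw [← fderiv_comp_add_right]
    have h1 : (fun z => f (z + e (zr k))) = fun z => f z - A (e (zr k)) := by
      funext z
      simp only [f]
      rw [hper, map_add]
      abel
    rw [h1, fderiv_sub_const]
  obtain ⟨M, hM⟩ := const_of_periodic (e := e) (D := (∅ : Set V)) (F := fderiv ℂ f)
    (fun z h => by
      have := h.self_of_nhds
      exact this)
    (fun z k _ => id) (fun z => ⟨fderiv ℂ f, (hfa z).fderiv, Eventually.of_forall fun _ _ => rfl⟩)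
    (fun z k _ => hfp z k)
  have hM' : ∀ z, fderiv ℂ f z = M := fun z => hM z (by simp)
  have hlin : ∀ z, f z = f 0 + M z := by
    intro z
    have h1 : ∀ z, HasFDerivAt (fun z => f z - M z) (0 : V →L[ℂ] W) z := by
      intro z
      have := (hfd z).hasFDerivAt.sub M.hasFDerivAt
      rwa [hM', sub_self] at this
    have h2 := is_const_of_fderiv_eq_zero (𝕜 := ℂ) (f := fun z => f z - M z)
      (fun z => (h1 z).differentiableAt) (fun z => (h1 z).fderiv) z 0
    simp only [map_zero, sub_zero] at h2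
    rw [← h2]
    abel
  have hθlin : ∀ z, θ z = θ 0 + (M z + A z) := by
    intro z
    have h1 := hlin z
    simp only [f, map_zero, sub_zero] at h1
    rw [sub_eq_iff_eq_add] at h1
    rw [h1]
    abel
  -- the linear part vanishes
  have hN : ∀ k, M (e (zr k)) + A (e (zr k)) = 0 := by
    intro k
    have h1 := hper 0 k
    rw [zero_add, hθlin (e (zr k))] at h1
    exact add_eq_left.1 h1
  let N : (Fin n → ℝ) →L[ℝ] W :=
    ((M.restrictScalars ℝ) + A).comp (e : (Fin n → ℝ) →L[ℝ] V)
  have hN0 : ∀ x, N x = 0 := by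
    intro x
    have h1 : x = ∑ m, x m • (Pi.single m 1 : Fin n → ℝ) := by rw [← pi_eq_sum_univ' x]
    rw [h1, map_sum]
    refine Finset.sum_eq_zero fun m _ => ?_
    rw [map_smul]
    have h2 : (Pi.single m 1 : Fin n → ℝ) = zr (Pi.single m 1) := by
      funext j
      rw [zr_apply]
      rcases eq_or_ne j m with h | h
      · subst h; simp
      · simp [h]
    rw [h2]
    have h3 : N (zr (Pi.single m 1)) = 0 := hN _
    rw [h3, smul_zero]
  rw [hθlin z]
  have h2 := hN0 (e.symm z)
  have h3 : N (e.symm z) = M z + A z := by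
    change M (e (e.symm z)) + A (e (e.symm z)) = _
    rw [e.apply_symm_apply]
  rw [← h3, h2, add_zero]

end dbar

/-! ### The metric -/

/-- The complex linear part of a real linear form. -/
def CL (L : V →L[ℝ] ℝ) : V →L[ℂ] ℂ :=
  { toFun := fun v => (1 / 2 : ℂ) * ((L v : ℂ) - Complex.I * (L (Complex.I • v) : ℂ))
    map_add' := fun v w => by
      rw [smul_add, map_add, map_add]
      push_cast
      ring
    map_smul' := fun c v => by
      have h1 : c • v = (c.re : ℝ) • v + (c.im : ℝ) • (Complex.I • v) := by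
        rw [← Complex.coe_smul c.re, ← Complex.coe_smul c.im, smul_smul, ← add_smul]
        congr 1
        exact (Complex.re_add_im c).symm
      have h2 : Complex.I • c • v = (c.re : ℝ) • (Complex.I • v) - (c.im : ℝ) • v := by
        rw [h1, smul_add, smul_comm Complex.I, smul_comm Complex.I, smul_smul Complex.I Complex.I,
          Complex.I_mul_I, neg_one_smul, smul_neg, sub_eq_add_neg]
      have e1 : L (c • v) = c.re * L v + c.im * L (Complex.I • v) := by
        rw [h1, L.map_add, L.map_smul, L.map_smul, smul_eq_mul, smul_eq_mul]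
      have e2 : L (Complex.I • c • v) = c.re * L (Complex.I • v) - c.im * L v := by
        rw [h2, L.map_sub, L.map_smul, L.map_smul, smul_eq_mul, smul_eq_mul]
      simp only [e1, e2, smul_eq_mul, RingHom.id_apply]
      have h3 : c = (c.re : ℂ) + (c.im : ℂ) * Complex.I := (Complex.re_add_im c).symm
      push_cast
      conv_rhs => rw [h3]
      linear_combination ((c.im : ℂ) * (L (Complex.I • v) : ℂ) / 2) * Complex.I_sq
    cont := by
      have h1 : Continuous fun v : V => Complex.I • v := continuous_const_smul _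
      have h2 := L.continuous
      have h3 : Continuous fun v : V => L (Complex.I • v) := h2.comp h1
      exact continuous_const.mul ((Complex.continuous_ofReal.comp h2).sub
        (continuous_const.mul (Complex.continuous_ofReal.comp h3))) }

theorem CL_apply (L : V →L[ℝ] ℝ) (v : V) :
    CL L v = (1 / 2 : ℂ) * ((L v : ℂ) - Complex.I * (L (Complex.I • v) : ℂ)) := rfl

/-- A Hermitian form given by its imaginary part. -/
structure IsAlt (E : V →L[ℝ] V →L[ℝ] ℝ) : Prop where
  alt : ∀ v, E v v = 0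
  inv : ∀ v w, E (Complex.I • v) (Complex.I • w) = E v w

theorem IsAlt.neg {E : V →L[ℝ] V →L[ℝ] ℝ} (h : IsAlt E) (v w : V) : E v w = -E w v := by
  have h1 := h.alt (v + w)
  rw [map_add, map_add, add_apply, add_apply, h.alt, h.alt] at h1
  linarith

theorem IsAlt.symm {E : V →L[ℝ] V →L[ℝ] ℝ} (h : IsAlt E) (v w : V) :
    E (Complex.I • v) w = E (Complex.I • w) v := by
  have h1 := h.inv (Complex.I • v) w
  rw [smul_smul, Complex.I_mul_I, neg_one_smul, map_neg, neg_apply, h.neg v] at h1
  rw [← h1, neg_neg]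

/-- `v ↦ H(v, w)`, where `H(v, w) = E(i v, w) + i E(v, w)`. -/
def Hl (E : V →L[ℝ] V →L[ℝ] ℝ) (w : V) : V →L[ℂ] ℂ := (2 : ℂ) • CL (E.flip w ∘L
  ((Complex.I • ContinuousLinearMap.id ℂ V : V →L[ℂ] V)).restrictScalars ℝ)

theorem Hl_apply (E : V →L[ℝ] V →L[ℝ] ℝ) (v w : V) :
    Hl E w v = (E (Complex.I • v) w : ℂ) + Complex.I * (E v w : ℂ) := by
  unfold Hl
  rw [smul_apply, CL_apply]
  simp only [ContinuousLinearMap.comp_apply, ContinuousLinearMap.flip_apply,
    ContinuousLinearMap.coe_restrictScalars', smul_apply, ContinuousLinearMap.id_apply]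
  rw [smul_smul Complex.I Complex.I v, Complex.I_mul_I, neg_one_smul, map_neg, neg_apply]
  simp only [smul_eq_mul]
  push_cast
  ring

end Vale.Agent.P281.H125.D
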