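import Vale.Agent.P281.H125.D.Econ

/-!
# P281, T-Delta (helper125): the class of the divisor is locally constant, second part
-/

open Set Filter Metric Topology
open scoped ContDiff ComplexConjugate

noncomputable section

namespace Vale.Agent.P281.H125.D

variable {n : ℕ} {V : Type*} [NormedAddCommGroup V] [NormedSpace ℂ V]
variable {P : Type*} [NormedAddCommGroup P] [NormedSpace ℂ P]
variable {W : Type*} [NormedAddCommGroup W] [NormedSpace ℂ W]

/-- The metric on one fibre (block D2b, helper383). -/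
structure IsLam (e : (Fin n → ℝ) ≃L[ℝ] V) (Le : V → (V → ℂ) → Prop)
    (E : V →L[ℝ] V →L[ℝ] ℝ) (lam : V → ℝ) : Prop extends IsAlt E where
  per : ∀ z k, lam (z + e (zr k)) = lam z
  loc : ∀ z h, Le z h → ∃ s : V → ℂ, AnalyticAt ℂ s z ∧
    ∀ᶠ w in 𝓝 z, lam w = ‖Complex.exp (s w) * h w‖ ^ 2 * Real.exp (-(E (Complex.I • w) w))

/-- The holomorphic part of `D log lam`. -/
def Gl (lam : V → ℝ) (z : V) : V →L[ℂ] ℂ := ((lam z : ℂ))⁻¹ • CL (fderiv ℝ lam z)

theorem Gl_congr {lam lam' : V → ℝ} {z : V} (h : lam =ᶠ[𝓝 z] lam') : Gl lam z = Gl lam' z := by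
  unfold Gl
  rw [h.fderiv_eq, h.self_of_nhds]

theorem Gl_eq {E : V →L[ℝ] V →L[ℝ] ℝ} (hE : IsAlt E) {F : V → ℂ} {z : V}
    (hF : DifferentiableAt ℂ F z) (hF0 : F z ≠ 0) :
    Gl (fun w => ‖F w‖ ^ 2 * Real.exp (-(E (Complex.I • w) w))) z =
      (F z)⁻¹ • fderiv ℂ F z - Hl E z := by
  -- the derivative of the norm
  have hF' : HasFDerivAt F ((fderiv ℂ F z).restrictScalars ℝ) z :=
    hF.hasFDerivAt.restrictScalars ℝ
  have h1 : HasFDerivAt (fun w => ‖F w‖ ^ 2)
      (2 • (innerSL ℝ (F z)).comp ((fderiv ℂ F z).restrictScalars ℝ)) z := hF'.norm_sq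
  let J : V →L[ℝ] V := ((Complex.I • ContinuousLinearMap.id ℂ V : V →L[ℂ] V)).restrictScalars ℝ
  have hJ : ∀ v, J v = Complex.I • v := fun v => by simp [J]
  have h2 : HasFDerivAt (fun w => E (Complex.I • w) w)
      ((E (Complex.I • z)).comp (ContinuousLinearMap.id ℝ V) + (E.comp J).flip z) z := by
    have h3 : HasFDerivAt (fun w => E (Complex.I • w)) (E.comp J) z := (E.comp J).hasFDerivAt
    exact h3.clm_apply (hasFDerivAt_id z)
  have h4 : HasFDerivAt (fun w => ‖F w‖ ^ 2 * Real.exp (-(E (Complex.I • w) w))) _ z :=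
    h1.mul (h2.neg.exp)
  unfold Gl
  rw [h4.fderiv]
  ext v
  simp only [smul_apply, sub_apply, smul_eq_mul, CL_apply, Hl_apply]
  simp only [add_apply, smul_apply, neg_apply, ContinuousLinearMap.comp_apply,
    ContinuousLinearMap.id_apply, ContinuousLinearMap.flip_apply, hJ,
    ContinuousLinearMap.coe_restrictScalars', innerSL_apply_apply, nsmul_eq_mul, smul_eq_mul,
    Complex.inner, map_smul]
  have e1 : E (Complex.I • Complex.I • v) z = -E v z := by
    rw [smul_smul, Complex.I_mul_I, neg_one_smul, map_neg, neg_apply]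
  have e2 : E (Complex.I • z) v = E (Complex.I • v) z := hE.symm z v
  have e3 : E (Complex.I • z) (Complex.I • v) = -E v z := by
    rw [hE.inv, hE.neg]
  rw [e1, e2, e3]
  set q : ℝ := E (Complex.I • z) z with hq
  have hexp : (Real.exp (-q) : ℂ) ≠ 0 := by
    exact_mod_cast (Real.exp_pos _).ne'
  have hn : ((‖F z‖ ^ 2 : ℝ) : ℂ) = F z * conj (F z) := by
    rw [Complex.mul_conj, Complex.normSq_eq_norm_sq]
  have hc0 : conj (F z) ≠ 0 := by
    rw [Ne, map_eq_zero]
    exact hF0
  set c := conj (F z) * fderiv ℂ F z v with hc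
  have hre : ((fderiv ℂ F z v * conj (F z)).re) = c.re := by rw [hc, mul_comm]
  have hre2 : ((Complex.I * fderiv ℂ F z v * conj (F z)).re) = -c.im := by
    have : Complex.I * fderiv ℂ F z v * conj (F z) = Complex.I * c := by rw [hc]; ring
    rw [this]
    simp
  have hcc : (c.re : ℂ) + (c.im : ℂ) * Complex.I = c := Complex.re_add_im c
  have hx : Real.exp ((-fun w => (E (Complex.I • w)) w) z) = Real.exp (-q) := rfl
  rw [hx, hre, hre2]
  have h5 : (c.re : ℂ) = conj (F z) * fderiv ℂ F z v - (c.im : ℂ) * Complex.I := by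
    rw [← hc]
    linear_combination hcc
  have hn' : (‖F z‖ : ℂ) ^ 2 = F z * conj (F z) := by
    rw [← hn]
    push_cast
    rfl
  push_cast at hexp ⊢
  rw [hn', h5]
  generalize (c.im : ℂ) = t
  generalize Complex.exp (-(q : ℂ)) = x at hexp ⊢
  field_simp
  linear_combination (F z * conj (F z) * 0) * Complex.I_sq

end Vale.Agent.P281.H125.D
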