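import Vale.Agent.P281.H125.D.Econ2

/-!
# P281, T-Delta (helper125): the class of the divisor is locally constant, third part
-/

open Set Filter Metric Topology
open scoped ContDiff ComplexConjugate

noncomputable section

namespace Vale.Agent.P281.H125.D

variable {n : ℕ} {V : Type*} [NormedAddCommGroup V] [NormedSpace ℂ V]
variable {P : Type*} [NormedAddCommGroup P] [NormedSpace ℂ P]

/-- The local equations on the fibre over `y`. -/
def LeS (Le : P × V → (P × V → ℂ) → Prop) (y : P) (z : V) (g : V → ℂ) : Prop :=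
  ∃ h, Le (y, z) h ∧ g = fun z' => h (y, z')

/-- `Hl` as a real linear function of the second variable. -/
theorem Hl_hasFDerivAt [FiniteDimensional ℂ V] (E : V →L[ℝ] V →L[ℝ] ℝ) (z : V) :
    ∃ M : V →L[ℝ] (V →L[ℂ] ℂ), (∀ v, M v = Hl E v) ∧ HasFDerivAt (Hl E) M z := by
  have : FiniteDimensional ℝ V := FiniteDimensional.complexToReal V
  let M₀ : V →ₗ[ℝ] (V →L[ℂ] ℂ) :=
    { toFun := Hl E
      map_add' := fun v w => by
        ext x
        rw [Hl_apply, add_apply, Hl_apply, Hl_apply, map_add, map_add]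
        push_cast
        ring
      map_smul' := fun c v => by
        ext x
        have e1 : E (Complex.I • x) (c • v) = c * E (Complex.I • x) v :=
          (E (Complex.I • x)).map_smul c v
        have e2 : E x (c • v) = c * E x v := (E x).map_smul c v
        rw [Hl_apply, smul_apply, Hl_apply, e1, e2]
        simp only [Complex.real_smul, RingHom.id_apply]
        push_cast
        ring }
  let M : V →L[ℝ] (V →L[ℂ] ℂ) := LinearMap.toContinuousLinearMap M₀
  exact ⟨M, fun v => rfl, M.hasFDerivAt⟩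

variable [FiniteDimensional ℂ P] [FiniteDimensional ℂ V]
variable {π : P → ((Fin n → ℝ) ≃L[ℝ] V)} {T : Set P} {Z : Set (P × V)}
    {Le : P × V → (P × V → ℂ) → Prop}

omit [FiniteDimensional ℂ P] [FiniteDimensional ℂ V] in
/-- Local form of the difference `τ - Gl lam` on a fibre. -/
theorem tau_loc (hD : DivDatum π T Z Le) {B : Set P}
    (hBT : B ⊆ T) {J : Type} [Fintype J]
    {a : P → J → Fin n → ℂ} {R : P → (V →L[ℂ] (Fin n → ℂ))}
    {τ : P × (Fin n → ℝ) → (V →L[ℂ] ℂ)} {κ : P → J → (V →L[ℂ] ℂ)}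
    (h : IsTau π Z Le B a R τ κ) {y : P} (hy : y ∈ B) {E : V →L[ℝ] V →L[ℝ] ℝ} {lam : V → ℝ}
    (hlam : IsLam (π y) (LeS Le y) E lam) (z : V) :
    ∃ (h₀ : P × V → ℂ) (ρ : P × (Fin n → ℝ) → (V →L[ℂ] ℂ)) (s : V → ℂ),
      Le (y, z) h₀ ∧ Nice ∞ ρ (y, (π y).symm z) ∧ AnalyticAt ℂ s z ∧
      (∀ᶠ q' in 𝓝 (y, (π y).symm z), ∀ j, dx (a q'.1 j) ρ q' = κ q'.1 j) ∧
      (∀ᶠ z' in 𝓝 z, (y, z') ∉ Z → τ (y, (π y).symm z') = dl h₀ (y, z') +
        ρ (y, (π y).symm z')) ∧
      ∀ᶠ z' in 𝓝 z, (y, z') ∉ Z → Gl lam z' = dl h₀ (y, z') + (fderiv ℂ s z' - Hl E z') := by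
  obtain ⟨h₀, hh₀⟩ := hD.ex (y, z) (hBT hy)
  have hq : th π (y, (π y).symm z) = (y, z) := by simp [th]
  obtain ⟨ρ, hρ1, hρ2, hρ3⟩ := h.loc (y, (π y).symm z) hy h₀ (by rwa [hq])
  obtain ⟨s, hs1, hs2⟩ := hlam.loc z (fun z' => h₀ (y, z')) ⟨h₀, hh₀, rfl⟩
  refine ⟨h₀, ρ, s, hh₀, hρ1, hs1, hρ3, ?_, ?_⟩
  · have h1 : Tendsto (fun z' : V => (y, (π y).symm z')) (𝓝 z) (𝓝 (y, (π y).symm z)) :=
      (by fun_prop : Continuous fun z' : V => (y, (π y).symm z')).tendsto z
    filter_upwards [h1.eventually hρ2] with z' h2 h3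
    have h4 : th π (y, (π y).symm z') = (y, z') := by simp [th]
    have h5 := h2 (by rwa [h4])
    rw [h4] at h5
    exact h5
  · have h1 := prod_tendsto y z
    filter_upwards [eventually_eventually_nhds.2 hs2, h1.eventually (hD.zero _ _ hh₀),
      h1.eventually (hD.an _ _ hh₀).eventually_analyticAt, hs1.eventually_analyticAt] with z' f1 f2
        f3 f4 hZ
    have g0 : h₀ (y, z') ≠ 0 := fun h0 => hZ (f2.1 h0)
    have g1 : HasFDerivAt (fun z' => h₀ (y, z')) (dV h₀ (y, z')) z' :=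
      f3.differentiableAt.hasFDerivAt.comp z' (hasFDerivAt_prodMk_right y z')
    have g2 : HasFDerivAt (fun z' => Complex.exp (s z') * h₀ (y, z'))
        (Complex.exp (s z') • dV h₀ (y, z') + h₀ (y, z') • (Complex.exp (s z') •
          fderiv ℂ s z')) z' :=
      (f4.differentiableAt.hasFDerivAt.cexp).mul g1
    have f1' : lam =ᶠ[𝓝 z'] fun w => ‖Complex.exp (s w) * h₀ (y, w)‖ ^ 2 *
        Real.exp (-(E (Complex.I • w) w)) := f1
    have g3 : Complex.exp (s z') * h₀ (y, z') ≠ 0 := mul_ne_zero (Complex.exp_ne_zero _) g0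
    rw [Gl_congr f1', Gl_eq hlam.toIsAlt (F := fun z' => Complex.exp (s z') * h₀ (y, z'))
      g2.differentiableAt g3, g2.fderiv]
    ext v
    have g4 : dl h₀ (y, z') v = (h₀ (y, z'))⁻¹ * dV h₀ (y, z') v := rfl
    simp only [sub_apply, add_apply, smul_apply, smul_eq_mul, g4]
    field_simp
    ring

/-- On a fibre, `τ` and `Gl lam` differ by a constant. -/
theorem tau_eq (hD : DivDatum π T Z Le) (hT : IsOpen T) (hπ : HolPer π T) {B : Set P}
    (hBT : B ⊆ T) {J : Type} [Fintype J]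
    {a : P → J → Fin n → ℂ} {R : P → (V →L[ℂ] (Fin n → ℂ))}
    {τ : P × (Fin n → ℝ) → (V →L[ℂ] ℂ)} {κ : P → J → (V →L[ℂ] ℂ)}
    (h : IsTau π Z Le B a R τ κ) {y : P} (hy : y ∈ B) {z₀ : V} (hz₀ : (y, z₀) ∉ Z)
    {E : V →L[ℝ] V →L[ℝ] ℝ} {lam : V → ℝ}
    (hlam : IsLam (π y) (LeS Le y) E lam) :
    ∃ c, ∀ z, (y, z) ∉ Z → τ (y, (π y).symm z) = Gl lam z + c := by
  have : CompleteSpace (V →L[ℂ] ℂ) := FiniteDimensional.complete ℂ _
  have hyT := hBT hy
  have hDn := hD.slice_dense hyT hz₀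
  let D : Set V := {z | (y, z) ∈ Z}
  -- local data
  have hdat := tau_loc hD hBT h hy hlam
  choose h₀ ρ s hh₀ hρ hs hρa hτ hG using hdat
  let A : V → V → (V →L[ℂ] ℂ) := fun z₁ z => ρ z₁ (y, (π y).symm z) - (fderiv ℂ (s z₁) z - Hl E z)
  have hsymm : ∀ z : V, HasFDerivAt (fun z' : V => ((y, (π y).symm z') : P × (Fin n → ℝ)))
      ((ContinuousLinearMap.inr ℝ P (Fin n → ℝ)).comp
        ((π y).symm : V →L[ℝ] (Fin n → ℝ))) z := fun z =>
    (hasFDerivAt_prodMk_right y ((π y).symm z)).comp z (π y).symm.hasFDerivAt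
  have hten : ∀ z : V, Tendsto (fun z' : V => (y, (π y).symm z')) (𝓝 z)
      (𝓝 (y, (π y).symm z)) := fun z => (hsymm z).continuousAt
  -- the derivative of `A z₁` near `z₁`
  have hAd : ∀ z₁, ∀ᶠ z in 𝓝 z₁, ∃ M : V →L[ℝ] (V →L[ℂ] ℂ), HasFDerivAt (A z₁) M z ∧
      ∀ v, M v = fderiv ℝ (ρ z₁) (y, (π y).symm z) (0, (π y).symm v) -
        (fderiv ℂ (fderiv ℂ (s z₁)) z v - Hl E v) := by
    intro z₁
    filter_upwards [(hten z₁).eventually (hρ z₁), (hs z₁).eventually_analyticAt] with z f1 f2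
    obtain ⟨MH, hMH, hMH'⟩ := Hl_hasFDerivAt E z
    have g1 : HasFDerivAt (ρ z₁) (fderiv ℝ (ρ z₁) (y, (π y).symm z)) (y, (π y).symm z) :=
      (ContDiffAt.diffOne f1.1 (by simp)).hasFDerivAt
    have g2 := g1.comp z (hsymm z)
    have g3 := (f2.fderiv.differentiableAt.hasFDerivAt).restrictScalars ℝ
    refine ⟨_, g2.sub (g3.sub hMH'), fun v => ?_⟩
    simp only [sub_apply, ContinuousLinearMap.comp_apply, ContinuousLinearMap.inr_apply,
      ContinuousLinearMap.coe_restrictScalars', hMH]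
    rfl
  have hAc : ∀ z₁, ∀ᶠ z in 𝓝 z₁, ContinuousAt (A z₁) z := fun z₁ => by
    filter_upwards [hAd z₁] with z ⟨M, hM, _⟩ using hM.continuousAt
  have hAF : ∀ z₁, ∀ᶠ z in 𝓝 z₁, z ∉ D → τ (y, (π y).symm z) - Gl lam z = A z₁ z := by
    intro z₁
    filter_upwards [hτ z₁, hG z₁] with z f1 f2 hZ
    rw [f1 hZ, f2 hZ]
    simp only [A]
    abel
  obtain ⟨θ, hθ1, hθ2⟩ := exists_ext (D := D) hDn
    (F := fun z => τ (y, (π y).symm z) - Gl lam z) (fun z₁ => ⟨A z₁, hAc z₁, hAF z₁⟩)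
  have hθA : ∀ z₁, θ =ᶠ[𝓝 z₁] A z₁ := fun z₁ => hθ2 z₁ (A z₁) (hAc z₁) (hAF z₁)
  have hθd : Differentiable ℝ θ := by
    intro z
    obtain ⟨M, hM, _⟩ := (hAd z).self_of_nhds
    exact (hM.congr_of_eventuallyEq (hθA z)).differentiableAt
  -- the anti-holomorphic derivative
  have hker : ∀ v : V, pcE (π y) (fun m => (((π y).symm (Complex.I • v)) m : ℂ) -
      Complex.I * (((π y).symm v) m : ℂ)) = 0 := by
    intro v
    have e1 : (fun m => (((π y).symm (Complex.I • v)) m : ℂ) -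
        Complex.I * (((π y).symm v) m : ℂ)) =
        (fun m => (((π y).symm (Complex.I • v)) m : ℂ)) -
          Complex.I • (fun m => (((π y).symm v) m : ℂ)) := by
      funext m
      simp
    rw [e1, map_sub, (pcE (π y)).map_smul, pcE_real, pcE_real]
    simp
  have hspan := fun v => h.frame.span y hy _ (hker v)
  choose sp hsp using hspan
  have hdbar : ∀ z v, fderiv ℝ θ z (Complex.I • v) - Complex.I • fderiv ℝ θ z v =
      (∑ j, sp v j • κ y j) + (Hl E (Complex.I • v) - Complex.I • Hl E v) := by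
    intro z v
    obtain ⟨M, hM, hMv⟩ := (hAd z).self_of_nhds
    rw [(hM.congr_of_eventuallyEq (hθA z)).fderiv, hMv, hMv]
    have e1 : fderiv ℝ (ρ z) (y, (π y).symm z) (0, (π y).symm (Complex.I • v)) -
        Complex.I • fderiv ℝ (ρ z) (y, (π y).symm z) (0, (π y).symm v) = ∑ j, sp v j • κ y j := by
      have e2 := (hρa z).self_of_nhds
      have e3 : ∑ j, sp v j • κ y j = dx (∑ j, sp v j • a y j) (ρ z) (y, (π y).symm z) := by
        rw [dx_sum_left]
        refine Finset.sum_congr rfl fun j _ => ?_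
        rw [dx_smul_left, e2 j]
      rw [e3, ← hsp v]
      have e4 : ∀ ξ : Fin n → ℝ, fderiv ℝ (ρ z) (y, (π y).symm z) (0, ξ) =
          ∑ m, (ξ m : ℂ) • fderiv ℝ (ρ z) (y, (π y).symm z) (0, Pi.single m 1) := fun ξ =>
        apply_eq_sum ((fderiv ℝ (ρ z) (y, (π y).symm z)).comp
          (ContinuousLinearMap.inr ℝ P (Fin n → ℝ))) ξ
      rw [e4, e4, Finset.smul_sum, ← Finset.sum_sub_distrib]
      unfold dx
      refine Finset.sum_congr rfl fun m _ => ?_
      have e5 := sub_smul (((π y).symm (Complex.I • v)) m : ℂ)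
        (Complex.I * (((π y).symm v) m : ℂ))
        (fderiv ℝ (ρ z) (y, (π y).symm z) (0, Pi.single m 1))
      rw [e5, mul_smul]
    rw [← e1, (fderiv ℂ (fderiv ℂ (s z)) z).map_smul]
    have e6 := smul_sub Complex.I (fderiv ℝ (ρ z) (y, (π y).symm z) (0, (π y).symm v))
      (fderiv ℂ (fderiv ℂ (s z)) z v - Hl E v)
    have e7 := smul_sub Complex.I (fderiv ℂ (fderiv ℂ (s z)) z v) (Hl E v)
    rw [e6, e7]
    abel
  have hper : ∀ z k, θ (z + (π y) (zr k)) = θ z := by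
    intro z k
    by_contra hne
    have c1 : ContinuousAt (fun z => θ (z + (π y) (zr k))) z :=
      ContinuousAt.comp (g := θ) (f := fun z => z + (π y) (zr k)) (hθd.continuous.continuousAt)
        (by fun_prop)
    have h1 : ∀ᶠ z' in 𝓝 z, θ (z' + (π y) (zr k)) - θ z' ≠ 0 :=
      (c1.sub hθd.continuous.continuousAt).eventually_ne (sub_ne_zero.2 hne)
    refine hDn z ?_
    filter_upwards [h1] with z' h3
    by_contra h4
    apply h3
    have h5 : (y, z' + (π y) (zr k)) ∉ Z := hD.perZ (p := (y, z')) hyT k h4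
    rw [hθ1 _ h5, hθ1 _ h4, map_add, (π y).symm_apply_apply, h.per y hy]
    have h6 : Gl lam (z' + (π y) (zr k)) = Gl lam z' := by
      unfold Gl
      have h7 : (fun z => lam (z + (π y) (zr k))) = lam := by
        funext z
        exact hlam.per z k
      rw [← fderiv_comp_add_right, h7, hlam.per]
    rw [h6, sub_self]
  have hconst := const_of_dbar (e := π y) hθd hper hdbar
  refine ⟨θ 0, fun z hz => ?_⟩
  have h1 := hθ1 z hz
  rw [hconst z] at h1
  rw [h1]
  abel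

end Vale.Agent.P281.H125.D
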