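import Vale.Agent.P281.H125.D.Econ3

/-!
# P281, T-Delta (helper125): the class of the divisor is locally constant, last part
-/

open Set Filter Metric Topology
open scoped ContDiff ComplexConjugate

noncomputable section

namespace Vale.Agent.P281.H125.D

variable {n : ℕ} {V : Type*} [NormedAddCommGroup V] [NormedSpace ℂ V]
variable {P : Type*} [NormedAddCommGroup P] [NormedSpace ℂ P]

/-- A holomorphic function with purely imaginary values is constant. -/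
theorem const_of_re_zero {f : P → ℂ} {y₀ : P} {r : ℝ} (hf : DifferentiableOn ℂ f (ball y₀ r))
    (hre : ∀ y ∈ ball y₀ r, (f y).re = 0) {y : P} (hy : y ∈ ball y₀ r) : f y = f y₀ := by
  have hr : 0 < r := dist_nonneg.trans_lt (mem_ball.1 hy)
  refine isOpen_ball.is_const_of_fderiv_eq_zero (𝕜 := ℂ)
    (convex_ball y₀ r).isPreconnected hf ?_ hy (mem_ball_self hr)
  intro z hz
  have h1 : HasFDerivAt f (fderiv ℂ f z) z :=
    (hf.differentiableAt (isOpen_ball.mem_nhds hz)).hasFDerivAt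
  have h2 : HasFDerivAt (fun z => (f z).re)
      (Complex.reCLM.comp ((fderiv ℂ f z).restrictScalars ℝ)) z :=
    Complex.reCLM.hasFDerivAt.comp z (h1.restrictScalars ℝ)
  have h3 : (fun z => (f z).re) =ᶠ[𝓝 z] fun _ => 0 := by
    filter_upwards [isOpen_ball.mem_nhds hz] with z' hz' using hre z' hz'
  have h4 : Complex.reCLM.comp ((fderiv ℂ f z).restrictScalars ℝ) = 0 :=
    h2.unique ((hasFDerivAt_const (0 : ℝ) z).congr_of_eventuallyEq h3)
  have h5 : ∀ v, (fderiv ℂ f z v).re = 0 := fun v => by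
    have := congrArg (fun A : P →L[ℝ] ℝ => A v) h4
    simpa using this
  ext v
  refine Complex.ext (h5 v) ?_
  have h6 := h5 (Complex.I • v)
  rw [(fderiv ℂ f z).map_smul, smul_eq_mul] at h6
  simp at h6
  simpa using h6

/-- The second logarithmic derivative is symmetric. -/
theorem dlog_symm [FiniteDimensional ℂ V] {F : V → ℂ} {z : V} (hF : AnalyticAt ℂ F z)
    (hF0 : F z ≠ 0) (a b : V) :
    fderiv ℂ (fun z' => (F z')⁻¹ • fderiv ℂ F z') z a b =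
      fderiv ℂ (fun z' => (F z')⁻¹ • fderiv ℂ F z') z b a := by
  have h1 : HasFDerivAt (fderiv ℂ F) (fderiv ℂ (fderiv ℂ F) z) z :=
    hF.fderiv.differentiableAt.hasFDerivAt
  have h2 : HasFDerivAt (fun z' => (F z')⁻¹) (-(F z ^ 2)⁻¹ • fderiv ℂ F z) z :=
    (hasFDerivAt_inv hF0).comp z hF.differentiableAt.hasFDerivAt |>.congr_fderiv (by
      ext v
      simp [mul_comm])
  have h3 : HasFDerivAt (fun z' => (F z')⁻¹ • fderiv ℂ F z') _ z := h2.smul h1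
  rw [h3.fderiv]
  have hs : IsSymmSndFDerivAt ℂ F z := by
    refine (hF.contDiffAt (n := 2)).isSymmSndFDerivAt ?_
    simp
  simp only [add_apply, smul_apply, ContinuousLinearMap.smulRight_apply, smul_eq_mul]
  rw [hs.eq a b]
  ring

variable [FiniteDimensional ℂ P] [FiniteDimensional ℂ V]
variable {π : P → ((Fin n → ℝ) ≃L[ℝ] V)} {T : Set P} {Z : Set (P × V)}
    {Le : P × V → (P × V → ℂ) → Prop}

/-- `τ` is nice off `Z`. -/
theorem tau_nice (hD : DivDatum π T Z Le) (hT : IsOpen T) (hπ : HolPer π T) {B : Set P}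
    (hBT : B ⊆ T) {J : Type} [Fintype J]
    {a : P → J → Fin n → ℂ} {R : P → (V →L[ℂ] (Fin n → ℂ))}
    {τ : P × (Fin n → ℝ) → (V →L[ℂ] ℂ)} {κ : P → J → (V →L[ℂ] ℂ)}
    (h : IsTau π Z Le B a R τ κ) {q : P × (Fin n → ℝ)} (hq : q.1 ∈ B) (hZ : th π q ∉ Z) :
    Nice ∞ τ q := by
  have : CompleteSpace (V →L[ℂ] ℂ) := FiniteDimensional.complete ℂ _
  obtain ⟨h₀, hh₀⟩ := hD.ex (th π q) (hBT hq)
  obtain ⟨ρ, hρ1, hρ2, -⟩ := h.loc q hq h₀ hh₀
  have h1 : ∀ᶠ q' in 𝓝 q, th π q' ∉ Z :=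
    (continuousAt_th hT hπ (hBT hq)).eventually (off_nhds hD (hBT hq) hZ)
  have h0 : h₀ (th π q) ≠ 0 := fun h0 => hZ ((hD.zero _ _ hh₀).self_of_nhds.1 h0)
  have h3 := dl_analytic (hD.an _ _ hh₀) h0
  refine ((nice_pull (k := ∞) hT hπ (hBT hq) h3).add (by simp) hρ1).congr ?_
  filter_upwards [h1, hρ2] with q' h3 h4 using h4 h3

/-- **The class of the divisor** from `τ`. -/
theorem tau_comm (hD : DivDatum π T Z Le) (hT : IsOpen T) (hπ : HolPer π T) {B : Set P}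
    (hBT : B ⊆ T) {J : Type} [Fintype J]
    {a : P → J → Fin n → ℂ} {R : P → (V →L[ℂ] (Fin n → ℂ))}
    {τ : P × (Fin n → ℝ) → (V →L[ℂ] ℂ)} {κ : P → J → (V →L[ℂ] ℂ)}
    (h : IsTau π Z Le B a R τ κ) {y : P} {x : Fin n → ℝ} (hy : y ∈ B) (hZ : (y, π y x) ∉ Z)
    {E : V →L[ℝ] V →L[ℝ] ℝ} {lam : V → ℝ}
    (hlam : IsLam (π y) (LeS Le y) E lam) (ξ η : Fin n → ℝ) :
    fderiv ℝ τ (y, x) (0, ξ) (π y η) - fderiv ℝ τ (y, x) (0, η) (π y ξ) =
      2 * Complex.I * (E (π y ξ) (π y η) : ℂ) := by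
  obtain ⟨c, hc⟩ := tau_eq hD hT hπ hBT h hy hZ hlam
  set z := π y x with hz
  obtain ⟨h₀, hh₀⟩ := hD.ex (y, z) (hBT hy)
  obtain ⟨s, hs1, hs2⟩ := hlam.loc z (fun z' => h₀ (y, z')) ⟨h₀, hh₀, rfl⟩
  have hp := prod_tendsto y z
  let F : V → ℂ := fun z' => Complex.exp (s z') * h₀ (y, z')
  have hFa : ∀ᶠ z' in 𝓝 z, AnalyticAt ℂ F z' := by
    filter_upwards [hp.eventually (hD.an _ _ hh₀).eventually_analyticAt,
      hs1.eventually_analyticAt] with z' f3 f4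
    refine f4.cexp.mul ?_
    exact AnalyticAt.fun_comp (f := fun z' : V => (y, z')) f3 (analyticAt_const.prod analyticAt_id)
  have hoff : ∀ᶠ z' in 𝓝 z, (y, z') ∉ Z := hp.eventually (off_nhds hD (hBT hy) hZ)
  have hF0 : ∀ᶠ z' in 𝓝 z, F z' ≠ 0 := by
    filter_upwards [hoff, hp.eventually (hD.zero _ _ hh₀)] with z' f1 f2
    exact mul_ne_zero (Complex.exp_ne_zero _) fun h0 => f1 (f2.1 h0)
  have hGl : ∀ᶠ z' in 𝓝 z, Gl lam z' = (F z')⁻¹ • fderiv ℂ F z' - Hl E z' := by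
    filter_upwards [eventually_eventually_nhds.2 hs2, hFa, hF0] with z' f1 f2 f3
    have f1' : lam =ᶠ[𝓝 z'] fun w => ‖F w‖ ^ 2 * Real.exp (-(E (Complex.I • w) w)) := f1
    rw [Gl_congr f1', Gl_eq hlam.toIsAlt f2.differentiableAt f3]
  -- the restriction of `τ` to the fibre
  have hcont : Tendsto (fun x' => π y x') (𝓝 x) (𝓝 z) := (π y).continuous.tendsto x
  have hτ : (fun x' => τ (y, x')) =ᶠ[𝓝 x] fun x' =>
      ((F (π y x'))⁻¹ • fderiv ℂ F (π y x') - Hl E (π y x')) + c := by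
    filter_upwards [hcont.eventually hoff, hcont.eventually hGl] with x' f1 f2
    rw [← f2, ← hc _ f1, (π y).symm_apply_apply]
  have hFz := hFa.self_of_nhds
  have hFz0 := hF0.self_of_nhds
  let K : V → (V →L[ℂ] ℂ) := fun z' => (F z')⁻¹ • fderiv ℂ F z'
  have hK : HasFDerivAt K (fderiv ℂ K z) z := by
    have h1 : AnalyticAt ℂ K z := (hFz.inv hFz0).smul hFz.fderiv
    exact h1.differentiableAt.hasFDerivAt
  obtain ⟨MH, hMH, hMH'⟩ := Hl_hasFDerivAt E z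
  have hd : HasFDerivAt (fun x' => ((F (π y x'))⁻¹ • fderiv ℂ F (π y x') - Hl E (π y x')) + c)
      ((((fderiv ℂ K z).restrictScalars ℝ) - MH).comp (π y : (Fin n → ℝ) →L[ℝ] V)) x := by
    have h1 : HasFDerivAt (fun z' => K z' - Hl E z') (((fderiv ℂ K z).restrictScalars ℝ) - MH) z :=
      (hK.restrictScalars ℝ).sub hMH'
    exact (h1.comp x (π y : (Fin n → ℝ) →L[ℝ] V).hasFDerivAt).add_const c
  have hτd : DifferentiableAt ℝ τ (y, x) := ContDiffAt.diffOne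
    (tau_nice hD hT hπ hBT h (q := (y, x)) hy hZ).contDiffAt (by simp)
  have hval : ∀ ξ, fderiv ℝ τ (y, x) (0, ξ) = fderiv ℂ K z (π y ξ) - Hl E (π y ξ) := by
    intro ξ
    rw [← fderiv_snd hτd, (hd.congr_of_eventuallyEq hτ).fderiv]
    simp only [ContinuousLinearMap.comp_apply, sub_apply, hMH]
    rfl
  rw [hval, hval, sub_apply, sub_apply]
  have hsy := dlog_symm hFz hFz0 (π y ξ) (π y η)
  change fderiv ℂ K z (π y ξ) (π y η) = fderiv ℂ K z (π y η) (π y ξ) at hsy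
  rw [hsy, Hl_apply, Hl_apply]
  have e1 := hlam.toIsAlt.symm (π y ξ) (π y η)
  have e2 := hlam.toIsAlt.neg (π y η) (π y ξ)
  rw [e1, e2]
  push_cast
  ring

/-- **The class of the divisor is locally constant.** -/
theorem E_locconst (hD : DivDatum π T Z Le) (hT : IsOpen T) (hπ : HolPer π T) {y₁ : P}
    (hy₁ : y₁ ∈ T) {z₁ : V} (hz₁ : (y₁, z₁) ∉ Z) :
    ∀ᶠ y in 𝓝 y₁, (∃ z, (y, z) ∉ Z) ∧ ∀ (E E₁ : V →L[ℝ] V →L[ℝ] ℝ) (lam lam₁ : V → ℝ),
      IsLam (π y) (LeS Le y) E lam → IsLam (π y₁) (LeS Le y₁) E₁ lam₁ →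
      (∀ y' ∈ T, (∃ z, (y', z) ∉ Z) → ∃ E' lam', IsLam (π y') (LeS Le y') E' lam') →
      ∀ ξ η, E (π y ξ) (π y η) = E₁ (π y₁ ξ) (π y₁ η) := by
  obtain ⟨B, J, iJ, a, R, τ, κ, hB, hyB, hBT, h4, h5, h6, h7⟩ := exists_tau hD hT hπ hy₁
  have h : IsTau π Z Le B a R τ κ := ⟨hB, h4, h5, h6, h7⟩
  set x₁ := (π y₁).symm z₁ with hx₁
  have hth : th π (y₁, x₁) = (y₁, z₁) := by simp [th, hx₁]
  -- the ball
  have hev : ∀ᶠ y in 𝓝 y₁, y ∈ B ∧ th π (y, x₁) ∉ Z := by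
    have h1 : Tendsto (fun y => th π (y, x₁)) (𝓝 y₁) (𝓝 (th π (y₁, x₁))) := by
      have h2 := continuousAt_th hT hπ (q := (y₁, x₁)) hy₁
      have h3 : Tendsto (fun y : P => (y, x₁)) (𝓝 y₁) (𝓝 (y₁, x₁)) :=
        (by fun_prop : Continuous fun y : P => (y, x₁)).tendsto y₁
      exact h2.tendsto.comp h3
    have h2 : ∀ᶠ w in 𝓝 (th π (y₁, x₁)), w ∉ Z := off_nhds hD hy₁ (by rwa [hth])
    exact (hB.eventually_mem hyB).and (h1.eventually h2)
  obtain ⟨r, hr, hball⟩ := Metric.eventually_nhds_iff_ball.1 hev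
  filter_upwards [ball_mem_nhds y₁ hr] with y hy
  refine ⟨⟨π y x₁, (hball y hy).2⟩, ?_⟩
  intro E E₁ lam lam₁ hE hE₁ hall ξ η
  -- the holomorphic function
  let f : P → ℂ := fun y => fderiv ℝ τ (y, x₁) (0, ξ) (π y η) -
    fderiv ℝ τ (y, x₁) (0, η) (π y ξ)
  have hfd : DifferentiableOn ℂ f (ball y₁ r) := by
    intro y hy
    obtain ⟨hyB', hZ'⟩ := hball y hy
    have g1 : ∀ ξ : Fin n → ℝ, DifferentiableAt ℂ (fun y => fderiv ℝ τ (y, x₁) (0, ξ)) y := by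
      intro ξ
      have g2 : Nice ∞ (fun q => dx (fun m => (ξ m : ℂ)) τ q) (y, x₁) :=
        Nice.dx (k := ∞) (c := fun _ m => (ξ m : ℂ)) (tau_nice hD hT hπ hBT h hyB' hZ') (by simp)
          h.isOpen (fun m => differentiableOn_const _) hyB'
      have g3 := CR.differentiableAt (ContDiffAt.diffOne g2.contDiffAt (by simp)) g2.cr
      have g4 : (fun y : P => dx (fun m => (ξ m : ℂ)) τ (y, x₁)) =
          fun y => fderiv ℝ τ (y, x₁) (0, ξ) := by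
        funext y
        exact (apply_eq_sum ((fderiv ℝ τ (y, x₁)).comp
          (ContinuousLinearMap.inr ℝ P (Fin n → ℝ))) ξ).symm
      rw [← g4]
      exact g3
    have g5 : ∀ ξ : Fin n → ℝ, DifferentiableAt ℂ (fun y => π y ξ) y := fun ξ =>
      (hπ ξ).differentiableAt (hT.mem_nhds (hBT hyB'))
    exact (((g1 ξ).clm_apply (g5 η)).sub ((g1 η).clm_apply (g5 ξ))).differentiableWithinAt
  have hre : ∀ y ∈ ball y₁ r, (f y).re = 0 := by
    intro y hy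
    obtain ⟨hyB', hZ'⟩ := hball y hy
    obtain ⟨E', lam', hlam'⟩ := hall y (hBT hyB') ⟨π y x₁, hZ'⟩
    have g1 := tau_comm hD hT hπ hBT h hyB' hZ' hlam' ξ η
    change (fderiv ℝ τ (y, x₁) (0, ξ) (π y η) - fderiv ℝ τ (y, x₁) (0, η) (π y ξ)).re = 0
    rw [g1]
    simp
  have hconst := const_of_re_zero hfd hre hy
  obtain ⟨hyB', hZ'⟩ := hball y hy
  obtain ⟨hyB₁, hZ₁⟩ := hball y₁ (mem_ball_self hr)
  have g1 := tau_comm hD hT hπ hBT h hyB' hZ' hE ξ η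
  have g2 := tau_comm hD hT hπ hBT h hyB₁ hZ₁ hE₁ ξ η
  have g3 : 2 * Complex.I * (E (π y ξ) (π y η) : ℂ) = 2 * Complex.I *
      (E₁ (π y₁ ξ) (π y₁ η) : ℂ) := by
    rw [← g1, ← g2]
    exact hconst
  have g4 := mul_left_cancel₀ (mul_ne_zero two_ne_zero Complex.I_ne_zero) g3
  exact_mod_cast g4

end Vale.Agent.P281.H125.D
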