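import Vale.Agent.P281.H125.D.Pole

/-!
# P281, T-Delta (helper125): the third logarithmic derivatives on a fibre
-/

open Set Filter Metric Topology
open scoped ContDiff ComplexConjugate

noncomputable section

namespace Vale.Agent.P281.H125.D

variable {n : ℕ} {V : Type*} [NormedAddCommGroup V] [NormedSpace ℂ V]
variable {P : Type*} [NormedAddCommGroup P] [NormedSpace ℂ P]

section fibre

variable [FiniteDimensional ℂ V] {e : (Fin n → ℝ) ≃L[ℝ] V} {D : Set V}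
  {Le : V → (V → ℂ) → Prop} {w : V → V →L[ℂ] V →L[ℂ] ℂ}

theorem dlg_an {h : V → ℂ} {v : V} (ha : AnalyticAt ℂ h v) (h0 : h v ≠ 0) :
    AnalyticAt ℂ (fun z => (h z)⁻¹ • fderiv ℂ h z) v := (ha.inv h0).smul ha.fderiv

/-- The canonical function is analytic off `D`. -/
theorem IsCan.an (hw : IsCan e D Le w) (hDc : IsClosed D) (hex : ∀ v, ∃ h, Le v h)
    (han : ∀ v h, Le v h → AnalyticAt ℂ h v)
    (hzero : ∀ v h, Le v h → ∀ᶠ v' in 𝓝 v, (v' ∈ D ↔ h v' = 0)) {v : V} (hv : v ∉ D) :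
    AnalyticAt ℂ w v := by
  obtain ⟨h, hh⟩ := hex v
  obtain ⟨A, hA, hA'⟩ := hw.loc v h hh
  have h0 : h v ≠ 0 := fun h0 => hv ((hzero _ _ hh).self_of_nhds.2 h0)
  have h1 := (dlg_an (han _ _ hh) h0).fderiv
  refine (h1.add hA).congr ?_
  filter_upwards [hA', hDc.isOpen_compl.mem_nhds hv] with v' h2 h3
  exact (h2 h3).symm

set_option synthInstance.maxHeartbeats 200000 in
/-- **The third logarithmic derivatives** in the sense of helper349. -/
theorem IsCan.isThird (hw : IsCan e D Le w) (hDc : IsClosed D) (hex : ∀ v, ∃ h, Le v h)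
    (han : ∀ v h, Le v h → AnalyticAt ℂ h v)
    (hzero : ∀ v h, Le v h → ∀ᶠ v' in 𝓝 v, (v' ∈ D ↔ h v' = 0)) :
    H349.D.IsThird D (fderiv ℂ w) where
  closed := hDc
  an z hz := (hw.an hDc hex han hzero hz).fderiv
  sym z hz a b := by
    have h1 := hw.an hDc hex han hzero hz
    have hs : IsSymmSndFDerivAt ℂ w z := by
      refine (h1.contDiffAt (n := 2)).isSymmSndFDerivAt ?_
      simp
    exact hs.eq a b
  pole z _ := by
    obtain ⟨h, hh⟩ := hex z
    obtain ⟨A, hA, hA'⟩ := hw.loc z h hh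
    refine ⟨h, fderiv ℂ A, han _ _ hh, hA.fderiv, hzero _ _ hh, ?_⟩
    filter_upwards [eventually_eventually_nhds.2 hA', hzero _ _ hh, (han _ _ hh).eventually_analyticAt,
      hA.eventually_analyticAt] with u f1 f2 f3 f4 hu
    have h0 : h u ≠ 0 := fun h0 => hu (f2.2 h0)
    have e1 : w =ᶠ[𝓝 u] fun v => fderiv ℂ (fun z => (h z)⁻¹ • fderiv ℂ h z) v + A v := by
      filter_upwards [f1, hDc.isOpen_compl.mem_nhds hu] with v g1 g2 using g1 g2
    rw [e1.fderiv_eq]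
    have e2 := (dlg_an f3 h0).fderiv.differentiableAt
    exact fderiv_fun_add e2 f4.differentiableAt

end fibre

set_option synthInstance.maxHeartbeats 200000 in
/-- The derivative of the transformed function. -/
theorem fderiv_comp [FiniteDimensional ℂ V] {w' : V → V →L[ℂ] V →L[ℂ] ℂ} (G : V ≃L[ℂ] V) (c : V)
    {v : V} (hw : DifferentiableAt ℂ w' (G v + c)) (a b d : V) :
    fderiv ℂ (fun v => ((ContinuousLinearMap.compL ℂ V V ℂ).flip (G : V →L[ℂ] V)).comp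
      ((w' (G v + c)).comp (G : V →L[ℂ] V))) v a b d =
      fderiv ℂ w' (G v + c) (G a) (G b) (G d) := by
  have hg₀ : HasFDerivAt (fun v => G v + c) (G : V →L[ℂ] V) v :=
    (G : V →L[ℂ] V).hasFDerivAt.add_const c
  have h1 : HasFDerivAt (fun v => w' (G v + c)) ((fderiv ℂ w' (G v + c)).comp (G : V →L[ℂ] V)) v :=
    hw.hasFDerivAt.comp v hg₀
  let L : (V →L[ℂ] V →L[ℂ] ℂ) →L[ℂ] (V →L[ℂ] V →L[ℂ] ℂ) :=
    (ContinuousLinearMap.compL ℂ V (V →L[ℂ] ℂ) (V →L[ℂ] ℂ)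
      ((ContinuousLinearMap.compL ℂ V V ℂ).flip (G : V →L[ℂ] V))) ∘L
        ((ContinuousLinearMap.compL ℂ V V (V →L[ℂ] ℂ)).flip (G : V →L[ℂ] V))
  have hL : ∀ T a b, L T a b = T (G a) (G b) := fun T a b => rfl
  have h2 : HasFDerivAt (fun v => L (w' (G v + c)))
      (L.comp ((fderiv ℂ w' (G v + c)).comp (G : V →L[ℂ] V))) v := L.hasFDerivAt.comp v h1
  have h3 : (fun v => ((ContinuousLinearMap.compL ℂ V V ℂ).flip (G : V →L[ℂ] V)).comp
      ((w' (G v + c)).comp (G : V →L[ℂ] V))) = fun v => L (w' (G v + c)) := rfl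
  rw [h3, h2.fderiv]
  rfl

variable [FiniteDimensional ℂ P] [FiniteDimensional ℂ V]

set_option synthInstance.maxHeartbeats 200000 in
/-- The canonical third derivative on the fibre is the joint one. -/
theorem fderiv_canW {π : P → ((Fin n → ℝ) ≃L[ℝ] V)} {T : Set P} {Z : Set (P × V)}
    {Le : P × V → (P × V → ℂ) → Prop} (hD : DivDatum π T Z Le) {B : Set P} (hBT : B ⊆ T)
    {w : P × V → (V →L[ℂ] V →L[ℂ] ℂ)} (h : IsW π Z Le B w) {y : P} (hy : y ∈ B)
    {D : Set V} (hDZ : ∀ v, v ∈ D ↔ (y, v) ∈ Z) {Le₁ : V → (V → ℂ) → Prop}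
    (hLe : ∀ v g, Le₁ v g → ∃ H, Le (y, v) H ∧ g =ᶠ[𝓝 v] fun v' => H (y, v'))
    (hex : ∀ v, ∃ g, Le₁ v g) {v : V} (hv : v ∉ D) :
    fderiv ℂ (canW (π y) D Le₁) v = dV w (y, v) := by
  have hyT := hBT hy
  have h1 := h.isCan hD hBT hy hDZ hLe
  have h2 := canW_spec ⟨_, h1⟩
  have hvZ : (y, v) ∉ Z := fun hZ => hv ((hDZ v).2 hZ)
  have hDn : ∀ z, ¬ ∀ᶠ z' in 𝓝 z, z' ∈ D := by
    intro z hz
    refine hD.slice_dense hyT hvZ z ?_
    filter_upwards [hz] with z' hz' using (hDZ z').1 hz'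
  have hDp : ∀ z k, z ∉ D → z + (π y) (zr k) ∉ D := by
    intro z k hz hz'
    exact hD.perZ (p := (y, z)) hyT k (fun h => hz ((hDZ z).2 h)) ((hDZ _).1 hz')
  have hDc : IsClosed D := by
    rw [← isOpen_compl_iff, isOpen_iff_mem_nhds]
    intro z hz
    have hzZ : (y, z) ∉ Z := fun hZ => hz ((hDZ z).2 hZ)
    filter_upwards [(prod_tendsto y z).eventually (off_nhds hD hyT hzZ)] with z' h3 h4
    exact h3 ((hDZ z').1 h4)
  rw [h2.fderiv_eq h1 hex hDn hDp hDc hv]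
  exact (dV_slice (h.an hD hBT hy hvZ).differentiableAt).symm

end Vale.Agent.P281.H125.D
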