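import Vale.Agent.P281.H125.D.Lin

/-!
# P281, T-Delta, block D2 (helper125): holomorphic frames of the anti-holomorphic directions
-/

open Set Filter Metric Topology

noncomputable section

namespace Vale.Agent.P281.H125.D

variable {n : ℕ} {V : Type*} [NormedAddCommGroup V] [NormedSpace ℂ V]
variable {P : Type*} [NormedAddCommGroup P] [NormedSpace ℂ P]

/-- The periods depend holomorphically on the parameter. -/
def HolPer (π : P → ((Fin n → ℝ) ≃L[ℝ] V)) (T : Set P) : Prop :=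
  ∀ x, DifferentiableOn ℂ (fun y => π y x) T

/-- `pc` of an isomorphism. -/
def pcE (A : (Fin n → ℝ) ≃L[ℝ] V) : (Fin n → ℂ) →L[ℂ] V := pc (A : (Fin n → ℝ) →L[ℝ] V)

theorem pcE_apply (A : (Fin n → ℝ) ≃L[ℝ] V) (c : Fin n → ℂ) :
    pcE A c = ∑ m, c m • A (Pi.single m 1) := pc_apply _ _

theorem pcE_real (A : (Fin n → ℝ) ≃L[ℝ] V) (x : Fin n → ℝ) :
    pcE A (fun m => (x m : ℂ)) = A x := pc_real _ _

theorem pcE_surj (A : (Fin n → ℝ) ≃L[ℝ] V) : Function.Surjective (pcE A) := pc_surj A.surjective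

theorem pcE_diff {π : P → ((Fin n → ℝ) ≃L[ℝ] V)} {T : Set P} (h : HolPer π T) :
    DifferentiableOn ℂ (fun y => pcE (π y)) T := by
  have : (fun y => pcE (π y)) = fun y => ∑ m : Fin n,
      (ContinuousLinearMap.proj m : (Fin n → ℂ) →L[ℂ] ℂ).smulRight (π y (Pi.single m 1)) := rfl
  rw [this]
  refine DifferentiableOn.fun_sum fun m _ => ?_
  exact (ContinuousLinearMap.smulRightL ℂ (Fin n → ℂ) V
    (ContinuousLinearMap.proj m : (Fin n → ℂ) →L[ℂ] ℂ)).differentiable.comp_differentiableOn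
      (h (Pi.single m 1))

/-- A frame: `a y j` span the kernel of `pcE (π y)`, `R y` is a right inverse. -/
structure Frame (π : P → ((Fin n → ℝ) ≃L[ℝ] V)) (B : Set P) (J : Type) [Fintype J]
    (a : P → J → Fin n → ℂ) (R : P → (V →L[ℂ] (Fin n → ℂ))) : Prop where
  hola : ∀ j m, DifferentiableOn ℂ (fun y => a y j m) B
  holR : DifferentiableOn ℂ R B
  right : ∀ y ∈ B, ∀ v, pcE (π y) (R y v) = v
  ker : ∀ y ∈ B, ∀ j, pcE (π y) (a y j) = 0
  span : ∀ y ∈ B, ∀ c, pcE (π y) c = 0 → ∃ s : J → ℂ, c = ∑ j, s j • a y j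

theorem exists_frame [FiniteDimensional ℂ V] {π : P → ((Fin n → ℝ) ≃L[ℝ] V)} {T : Set P}
    (hT : IsOpen T) (hπ : HolPer π T) {y₀ : P} (hy₀ : y₀ ∈ T) :
    ∃ (B : Set P) (J : Type) (_ : Fintype J) (a : P → J → Fin n → ℂ)
      (R : P → (V →L[ℂ] (Fin n → ℂ))), IsOpen B ∧ y₀ ∈ B ∧ B ⊆ T ∧ Frame π B J a R := by
  have : CompleteSpace V := FiniteDimensional.complete ℂ V
  obtain ⟨R₀, hR₀⟩ := (pcE (π y₀) : (Fin n → ℂ) →ₗ[ℂ] V).exists_rightInverse_of_surjective
    (LinearMap.range_eq_top.2 (pcE_surj _))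
  have hR₀' : ∀ v, pcE (π y₀) (R₀ v) = v := fun v => LinearMap.congr_fun hR₀ v
  set R₁ : V →L[ℂ] (Fin n → ℂ) := LinearMap.toContinuousLinearMap R₀ with hR₁
  have hR₁' : ∀ v, pcE (π y₀) (R₁ v) = v := hR₀'
  set N : P → (V →L[ℂ] V) := fun y => (pcE (π y)).comp R₁ with hN
  have hNd : DifferentiableOn ℂ N T := (pcE_diff hπ).clm_comp (differentiableOn_const _)
  have hN0 : N y₀ = 1 := by
    ext v
    exact hR₁' v
  set B : Set P := T ∩ N ⁻¹' {u | IsUnit u} with hB
  have hBo : IsOpen B := hNd.continuousOn.isOpen_inter_preimage hT Units.isOpen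
  have hy₀B : y₀ ∈ B := ⟨hy₀, by
    rw [mem_preimage, mem_setOf_eq, hN0]
    exact isUnit_one⟩
  set R : P → (V →L[ℂ] (Fin n → ℂ)) := fun y => R₁.comp (Ring.inverse (N y)) with hR
  have hRd : DifferentiableOn ℂ R B := by
    refine (differentiableOn_const _).clm_comp ?_
    intro y hy
    exact ((differentiableAt_inverse hy.2).comp y
      (hNd.differentiableAt (hT.mem_nhds hy.1))).differentiableWithinAt
  have hright : ∀ y ∈ B, ∀ v, pcE (π y) (R y v) = v := by
    intro y hy v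
    have h1 : N y * Ring.inverse (N y) = 1 := Ring.mul_inverse_cancel _ hy.2
    have h2 := congrArg (fun A : V →L[ℂ] V => A v) h1
    exact h2
  set K₀ := LinearMap.ker (pcE (π y₀) : (Fin n → ℂ) →ₗ[ℂ] V) with hK₀
  let b := Module.finBasis ℂ K₀
  refine ⟨B, Fin (Module.finrank ℂ K₀), inferInstance,
    fun y j => (b j : Fin n → ℂ) - R y (pcE (π y) (b j : Fin n → ℂ)), R, hBo, hy₀B,
    inter_subset_left, ?_, hRd, hright, ?_, ?_⟩
  · intro j m
    have h1 : DifferentiableOn ℂ (fun y => (b j : Fin n → ℂ) -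
        R y (pcE (π y) (b j : Fin n → ℂ))) B := by
      refine (differentiableOn_const _).sub (hRd.clm_apply ?_)
      exact ((pcE_diff hπ).mono inter_subset_left).clm_apply (differentiableOn_const _)
    exact (ContinuousLinearMap.proj (R := ℂ) (φ := fun _ : Fin n => ℂ) m).differentiable.comp_differentiableOn h1
  · intro y hy j
    rw [map_sub, hright y hy, sub_self]
  · intro y hy c hc
    set K := LinearMap.ker (pcE (π y) : (Fin n → ℂ) →ₗ[ℂ] V) with hK
    let A₁ : (Fin n → ℂ) →ₗ[ℂ] (Fin n → ℂ) :=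
      LinearMap.id - (R y : V →ₗ[ℂ] (Fin n → ℂ)) ∘ₗ (pcE (π y) : (Fin n → ℂ) →ₗ[ℂ] V)
    have hA₁ : ∀ c, A₁ c = c - R y (pcE (π y) c) := fun c => rfl
    let A : K₀ →ₗ[ℂ] K := (A₁ ∘ₗ K₀.subtype).codRestrict K (by
      intro k
      rw [hK, LinearMap.mem_ker]
      change pcE (π y) (A₁ k) = 0
      rw [hA₁, map_sub, hright y hy, sub_self])
    have hAapp : ∀ k, ((A k : K) : Fin n → ℂ) = (k : Fin n → ℂ) - R y (pcE (π y) k) :=
      fun k => rfl
    have hinj : Function.Injective A := by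
      rw [injective_iff_map_eq_zero]
      intro k hk
      have h1 : (k : Fin n → ℂ) - R y (pcE (π y) k) = 0 := by
        rw [← hAapp, hk]
        rfl
      have h2 : (k : Fin n → ℂ) = R₁ (Ring.inverse (N y) (pcE (π y) k)) := sub_eq_zero.1 h1
      have h3 : pcE (π y₀) (k : Fin n → ℂ) = 0 := k.2
      rw [h2, hR₁'] at h3
      rw [h3, map_zero] at h2
      exact Subtype.ext h2
    have hdim : Module.finrank ℂ K₀ = Module.finrank ℂ K := by
      have h1 := LinearMap.finrank_range_add_finrank_ker (pcE (π y₀) : (Fin n → ℂ) →ₗ[ℂ] V)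
      have h2 := LinearMap.finrank_range_add_finrank_ker (pcE (π y) : (Fin n → ℂ) →ₗ[ℂ] V)
      rw [LinearMap.range_eq_top.2 (pcE_surj (π y₀))] at h1
      rw [LinearMap.range_eq_top.2 (pcE_surj (π y))] at h2
      rw [← h2] at h1
      exact Nat.add_left_cancel h1
    have hsurj : Function.Surjective A :=
      (LinearMap.injective_iff_surjective_of_finrank_eq_finrank hdim).1 hinj
    obtain ⟨k, hk⟩ := hsurj ⟨c, hc⟩
    refine ⟨fun j => b.repr k j, ?_⟩
    have h1 : c = (k : Fin n → ℂ) - R y (pcE (π y) k) := by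
      rw [← hAapp, hk]
    have h2 : (k : Fin n → ℂ) = ∑ j, b.repr k j • (b j : Fin n → ℂ) := by
      conv_lhs => rw [← b.sum_repr k]
      rw [Submodule.coe_sum]
      rfl
    rw [h1]
    conv_lhs => rw [h2]
    rw [map_sum, map_sum, ← Finset.sum_sub_distrib]
    refine Finset.sum_congr rfl fun j _ => ?_
    rw [map_smul, map_smul, smul_sub]

/-- Lower bound for the symbols. -/
theorem Frame.lower {π : P → ((Fin n → ℝ) ≃L[ℝ] V)} {B : Set P} {J : Type} [Fintype J]
    {a : P → J → Fin n → ℂ} {R : P → (V →L[ℂ] (Fin n → ℂ))} (hF : Frame π B J a R)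
    (hB : IsOpen B) {y : P} (hy : y ∈ B) :
    ∃ c : ℝ, 0 < c ∧ ∀ᶠ y' in 𝓝 y, ∀ k : Fin n → ℝ,
      c * ‖k‖ ≤ ‖fun j => ∑ m, a y' j m * (k m : ℂ)‖ := by
  -- the real linear map
  let L : P → ((Fin n → ℝ) →L[ℝ] (J → ℂ)) := fun y' =>
    ∑ m : Fin n, (ContinuousLinearMap.proj m : (Fin n → ℝ) →L[ℝ] ℝ).smulRight
      (fun j => a y' j m)
  have hL : ∀ y' k, L y' k = fun j => ∑ m, a y' j m * (k m : ℂ) := by
    intro y' k
    funext j
    simp only [L]
    rw [ContinuousLinearMap.sum_apply, Finset.sum_apply]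
    refine Finset.sum_congr rfl fun m _ => ?_
    simp [mul_comm]
  have hLc : ContinuousAt L y := by
    have : L = fun y' => ∑ m : Fin n,
      (ContinuousLinearMap.smulRightL ℝ (Fin n → ℝ) (J → ℂ)
        (ContinuousLinearMap.proj m : (Fin n → ℝ) →L[ℝ] ℝ)) (fun j => a y' j m) := rfl
    rw [this]
    refine tendsto_finset_sum _ fun m _ => ?_
    refine (ContinuousLinearMap.continuous _).continuousAt.comp ?_
    rw [ContinuousAt, tendsto_pi_nhds]
    intro j
    exact ((hF.hola j m).differentiableAt (hB.mem_nhds hy)).continuousAt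
  have hinj : Function.Injective (L y) := by
    rw [injective_iff_map_eq_zero]
    intro k hk
    refine real_eq_zero (A := (π y : (Fin n → ℝ) →L[ℝ] V)) (π y).surjective k ?_
    intro c hc
    obtain ⟨s, hs⟩ := hF.span y hy c hc
    rw [hL] at hk
    rw [hs]
    have : ∀ m, (∑ j, s j • a y j) m * (k m : ℂ) = ∑ j, s j * (a y j m * (k m : ℂ)) := by
      intro m
      rw [Finset.sum_apply, Finset.sum_mul]
      refine Finset.sum_congr rfl fun j _ => ?_
      simp [mul_assoc]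
    rw [Finset.sum_congr rfl fun m _ => this m, Finset.sum_comm]
    refine Finset.sum_eq_zero fun j _ => ?_
    rw [← Finset.mul_sum, congrFun hk j]
    simp
  obtain ⟨K, hK, hKL⟩ := (L y : (Fin n → ℝ) →ₗ[ℝ] (J → ℂ)).exists_antilipschitzWith
    (LinearMap.ker_eq_bot.2 hinj)
  have hK' : (0 : ℝ) < K := by exact_mod_cast hK
  have hbd : ∀ k, ‖k‖ ≤ K * ‖L y k‖ := fun k => by
    have := hKL.le_mul_dist k 0
    simpa using this
  refine ⟨(2 * (K : ℝ))⁻¹, by positivity, ?_⟩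
  have hev : ∀ᶠ y' in 𝓝 y, ‖L y' - L y‖ < (2 * (K : ℝ))⁻¹ := by
    have := Metric.continuousAt_iff'.1 hLc (2 * (K : ℝ))⁻¹ (by positivity)
    filter_upwards [this] with y' h using by rwa [dist_eq_norm] at h
  filter_upwards [hev] with y' hy' k
  rw [← hL]
  have h1 : ‖(L y' - L y) k‖ ≤ (2 * (K : ℝ))⁻¹ * ‖k‖ :=
    ((L y' - L y).le_opNorm k).trans (by gcongr)
  have h2 : ‖L y k‖ ≤ ‖L y' k‖ + ‖(L y' - L y) k‖ := by
    have : L y k = L y' k - (L y' - L y) k := by
      rw [ContinuousLinearMap.sub_apply]; abel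
    rw [this]
    exact norm_sub_le _ _
  have h3 : (K : ℝ)⁻¹ * ‖k‖ ≤ ‖L y k‖ := by
    rw [inv_mul_le_iff₀ hK']
    exact hbd k
  have h4 : (K : ℝ)⁻¹ * ‖k‖ = (2 * (K : ℝ))⁻¹ * ‖k‖ + (2 * (K : ℝ))⁻¹ * ‖k‖ := by
    rw [mul_inv]; ring
  linarith

end Vale.Agent.P281.H125.D
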