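import Vale.Agent.P281.H125.D.Fib2
import Vale.Agent.P281.H969.D.Man
import Vale.Agent.P281.H152.D.Div

/-!
# P281, T-Delta (helper125): gluing, the canonical third derivatives on the fibres of a family of tori
-/

open Set Filter Metric Topology
open scoped ContDiff Manifold
open Vale.Agent.P281 Vale.Agent.P281.H713
open Vale.Agent.P281.H64.TD (IsTorM Cub)
open Vale.Agent.P281.H64.TU (Tame)
open Vale.Agent.P281.H969.D (LeA LeM HasDiv)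

noncomputable section

namespace Vale.Agent.P281.H125.D

variable {E E' : Type} [NormedAddCommGroup E] [NormedSpace ℂ E]
  [NormedAddCommGroup E'] [NormedSpace ℂ E']
variable {X Y : Type} [TopologicalSpace X] [ChartedSpace E X]
  [TopologicalSpace Y] [ChartedSpace E' Y]
variable {V : Type} [NormedAddCommGroup V] [InnerProductSpace ℂ V] [FiniteDimensional ℂ V]
variable {n d : ℕ}

/-! ### One fibre -/

section one

variable {𝒜 : Set (Set X)} {uy : V → X}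

omit [FiniteDimensional ℂ V] in
theorem leA_ex (hp : ∀ D ∈ 𝒜, J.IsPrime E D) (uy : V → X) (v : V) : ∃ g, LeA E 𝒜 uy v g := by
  classical
  have h1 : ∀ D : Set X, ∃ g : X → ℂ, D ∈ 𝒜 → J.IsLocalEq E D g (uy v) := by
    intro D
    by_cases hD : D ∈ 𝒜
    · obtain ⟨g, hg⟩ := (hp D hD).2.1 (uy v)
      exact ⟨g, fun _ => hg⟩
    · exact ⟨0, fun h => absurd h hD⟩
  choose e he using h1
  exact ⟨_, e, he, EventuallyEq.rfl⟩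

omit [FiniteDimensional ℂ V] in
theorem leA_an (h𝒜 : 𝒜.Finite) {v : V} (huy : ContMDiffAt 𝓘(ℂ, V) 𝓘(ℂ, E) ω uy v) {g : V → ℂ}
    (h : LeA E 𝒜 uy v g) : AnalyticAt ℂ g v := by
  obtain ⟨e, h1, h2⟩ := h
  exact (H152.D.prod_an h𝒜 huy fun D hD => H152.D.leq_hol (h1 D hD)).congr h2.symm

omit [FiniteDimensional ℂ V] in
theorem leA_zero (h𝒜 : 𝒜.Finite) {v : V} (huy : ContinuousAt uy v) {g : V → ℂ}
    (h : LeA E 𝒜 uy v g) : ∀ᶠ v' in 𝓝 v, (v' ∈ {v | ∃ D ∈ 𝒜, uy v ∈ D} ↔ g v' = 0) := by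
  obtain ⟨e, he, hge⟩ := h
  have h1 : ∀ᶠ v' in 𝓝 v, ∀ D ∈ 𝒜, (uy v' ∈ D ↔ e D (uy v') = 0) := by
    rw [Filter.eventually_all_finite h𝒜]
    exact fun D hD => huy.eventually (H152.D.leq_mem (he D hD))
  filter_upwards [h1, hge] with w' h1 h2
  rw [h2, H152.D.fp_eq h𝒜 fun D => e D (uy w'), Finset.prod_eq_zero_iff]
  constructor
  · rintro ⟨D, hD, h0⟩
    exact ⟨D, h𝒜.mem_toFinset.2 hD, (h1 D hD).1 h0⟩
  · rintro ⟨D, hD, h0⟩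
    rw [h𝒜.mem_toFinset] at hD
    exact ⟨D, hD, (h1 D hD).2 h0⟩

omit [NormedSpace ℂ E] [ChartedSpace E X] [FiniteDimensional ℂ V] in
theorem closedA (h𝒜 : 𝒜.Finite) (hp : ∀ D ∈ 𝒜, IsClosed D) (huy : Continuous uy) :
    IsClosed {v | ∃ D ∈ 𝒜, uy v ∈ D} := by
  have h1 : {v | ∃ D ∈ 𝒜, uy v ∈ D} = ⋃ D ∈ 𝒜, uy ⁻¹' D := by
    ext v
    simp
  rw [h1]
  exact h𝒜.isClosed_biUnion fun D hD => (hp D hD).preimage huy

end one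

/-- The third logarithmic derivatives on a fibre. -/
def PhiM (E : Type) [NormedAddCommGroup E] [NormedSpace ℂ E] [ChartedSpace E X]
    (𝒜 : Set (Set X)) (e : (Fin n → ℝ) ≃L[ℝ] V) (uy : V → X) :
    V → (V →L[ℂ] V →L[ℂ] V →L[ℂ] ℂ) :=
  fderiv ℂ (canW e {v | ∃ D ∈ 𝒜, uy v ∈ D} (LeA E 𝒜 uy))

/-! ### The family -/

variable {T : Tame (Fin d → ℂ) X} {f : X → Y} {S : Set Y}
  {Q : (Fin n → ℝ) → (Fin n → ℝ) → ℝ} {ι : Type} {U : ι → Set Y}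
  {π : ι → Y → ((Fin n → ℝ) ≃L[ℝ] V)} {u : ι → Y → V → X} {𝒜 : Set (Set X)}

theorem fib_cont (hM : IsTorM E E' d T f S Q U π u) {a : ι} {y : Y} (hy : y ∈ U a) :
    Continuous (u a y) :=
  continuous_iff_continuousAt.2 fun v => (H152.D.fib_hol hM a hy v).continuousAt

/-- the restriction of the divisor to a fibre is nowhere dense -/
theorem fib_dense (hM : IsTorM E E' d T f S Q U π u) (h𝒜 : 𝒜.Finite)
    (hp : ∀ D ∈ 𝒜, J.IsPrime E D) {a : ι} {y : Y} (hy : y ∈ U a)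
    (hn : ∀ D ∈ 𝒜, ¬ f ⁻¹' {y} ⊆ D) (z : V) :
    ¬ ∀ᶠ z' in 𝓝 z, z' ∈ {v | ∃ D ∈ 𝒜, u a y v ∈ D} := by
  intro h
  obtain ⟨v', h1, h2⟩ := (H152.D.fib_off hM h𝒜 hp a hy hn z).and_eventually h |>.exists
  obtain ⟨D, hD, h3⟩ := h2
  exact h1 D hD h3

theorem fib_per (hM : IsTorM E E' d T f S Q U π u) {a : ι} {y : Y} (hy : y ∈ U a) (z : V)
    (k : Fin n → ℤ) (hz : z ∉ {v | ∃ D ∈ 𝒜, u a y v ∈ D}) :
    z + π a y (zr k) ∉ {v | ∃ D ∈ 𝒜, u a y v ∈ D} := by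
  rintro ⟨D, hD, h⟩
  have h' : u a y (z + π a y (zr k)) = u a y z := hM.per a y hy z k
  rw [h'] at h
  exact hz ⟨D, hD, h⟩

variable [FiniteDimensional ℂ E] [FiniteDimensional ℂ E'] [IsManifold 𝓘(ℂ, E) ω X]
  [IsManifold 𝓘(ℂ, E') ω Y]

/-- Local second derivatives. -/
theorem exists_locW (hf : Continuous f) (hM : IsTorM E E' d T f S Q U π u) (h𝒜 : 𝒜.Finite)
    (hp : ∀ D ∈ 𝒜, J.IsPrime E D) (a : ι) {χ : OpenPartialHomeomorph Y E'}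
    (hχ : χ ∈ IsManifold.maximalAtlas 𝓘(ℂ, E') ω Y) {t₀ : E'}
    (ht₀ : t₀ ∈ χ.target ∩ χ.symm ⁻¹' U a) :
    ∃ (B : Set E') (w : E' × V → V →L[ℂ] V →L[ℂ] ℂ), t₀ ∈ B ∧
      B ⊆ χ.target ∩ χ.symm ⁻¹' U a ∧
      IsW (fun t => π a (χ.symm t)) {w : E' × V | ∃ D ∈ 𝒜, u a (χ.symm w.1) w.2 ∈ D}
        (LeM E 𝒜 (u a) χ.symm (χ.target ∩ χ.symm ⁻¹' U a)) B w ∧
      ∀ t ∈ B, IsCan (π a (χ.symm t)) {v | ∃ D ∈ 𝒜, u a (χ.symm t) v ∈ D}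
        (LeA E 𝒜 (u a (χ.symm t))) (fun v => w (t, v)) ∧
        ∀ v, (∀ D ∈ 𝒜, u a (χ.symm t) v ∉ D) →
          PhiM E 𝒜 (π a (χ.symm t)) (u a (χ.symm t)) v = dV w (t, v) := by
  have hD : DivDatum (fun t => π a (χ.symm t)) (χ.target ∩ χ.symm ⁻¹' U a)
      {w : E' × V | ∃ D ∈ 𝒜, u a (χ.symm w.1) w.2 ∈ D}
      (LeM E 𝒜 (u a) χ.symm (χ.target ∩ χ.symm ⁻¹' U a)) := H152.D.divDatum hf hM h𝒜 hp a hχ
  obtain ⟨B, w, h1, h2, h3⟩ := exists_w hD (H152.D.par_isOpen hM a χ)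
    (H152.D.par_holPer hf hM a hχ) ht₀
  have hLe : ∀ t ∈ B, ∀ v g, LeA E 𝒜 (u a (χ.symm t)) v g →
      ∃ H, LeM E 𝒜 (u a) χ.symm (χ.target ∩ χ.symm ⁻¹' U a) (t, v) H ∧
        g =ᶠ[𝓝 v] fun v' => H (t, v') := by
    rintro t ht v g ⟨e, he, hge⟩
    exact ⟨fun w' => ∏ᶠ (D : Set X) (_ : D ∈ 𝒜), e D (u a (χ.symm w'.1) w'.2),
      ⟨h2 ht, e, he, EventuallyEq.rfl⟩, hge⟩
  refine ⟨B, w, h1, h2, h3, fun t ht => ⟨?_, fun v hv => ?_⟩⟩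
  · exact h3.isCan hD h2 ht (D := {v | ∃ D ∈ 𝒜, u a (χ.symm t) v ∈ D}) (fun v => Iff.rfl)
      (hLe t ht)
  · exact fderiv_canW hD h2 h3 ht (D := {v | ∃ D ∈ 𝒜, u a (χ.symm t) v ∈ D})
      (fun v => Iff.rfl) (hLe t ht) (fun v => leA_ex hp _ v) (fun ⟨D, hD, h⟩ => hv D hD h)

/-- The canonical second derivative exists on each fibre. -/
theorem can_fib (hf : Continuous f) (hM : IsTorM E E' d T f S Q U π u) (h𝒜 : 𝒜.Finite)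
    (hp : ∀ D ∈ 𝒜, J.IsPrime E D) (a : ι) {y : Y} (hy : y ∈ U a) :
    IsCan (π a y) {v | ∃ D ∈ 𝒜, u a y v ∈ D} (LeA E 𝒜 (u a y))
      (canW (π a y) {v | ∃ D ∈ 𝒜, u a y v ∈ D} (LeA E 𝒜 (u a y))) := by
  have h0 : (chartAt E' y).symm (chartAt E' y y) = y := (chartAt E' y).left_inv (mem_chart_source E' y)
  obtain ⟨B, w, h1, -, -, h2⟩ := exists_locW hf hM h𝒜 hp a
    (IsManifold.chart_mem_maximalAtlas (I := 𝓘(ℂ, E')) (n := ω) y) (t₀ := chartAt E' y y)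
    ⟨mem_chart_target E' y, by show (chartAt E' y).symm (chartAt E' y y) ∈ U a; rwa [h0]⟩
  have h3 := (h2 _ h1).1
  rw [h0] at h3
  exact canW_spec ⟨_, h3⟩

/-- The input of `hfib_man`. -/
theorem hPhi (hf : Continuous f) (hM : IsTorM E E' d T f S Q U π u) (h𝒜 : 𝒜.Finite)
    (hp : ∀ D ∈ 𝒜, J.IsPrime E D) : ∀ a, ∀ y ∈ U a, ∃ wf : V → V →L[ℂ] V →L[ℂ] ℂ,
      (∀ z, (∀ D ∈ 𝒜, u a y z ∉ D) → ∀ k : Fin n → ℤ, wf (z + π a y (zr k)) = wf z) ∧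
      (∀ z g, LeA E 𝒜 (u a y) z g → ∃ A : V → V →L[ℂ] V →L[ℂ] ℂ, AnalyticAt ℂ A z ∧
        ∀ᶠ w in 𝓝 z, (∀ D ∈ 𝒜, u a y w ∉ D) →
          wf w = fderiv ℂ (fun u => (g u)⁻¹ • fderiv ℂ g u) w + A w) ∧
      ∀ z, (∀ D ∈ 𝒜, u a y z ∉ D) → PhiM E 𝒜 (π a y) (u a y) z = fderiv ℂ wf z := by
  intro a y hy
  have h1 := can_fib hf hM h𝒜 hp a hy
  refine ⟨_, fun z hz k => h1.per z k fun ⟨D, hD, h⟩ => hz D hD h, fun z g hg => ?_,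
    fun z _ => rfl⟩
  obtain ⟨A, hA, hA'⟩ := h1.loc z g hg
  refine ⟨A, hA, ?_⟩
  filter_upwards [hA'] with w hw hw'
  exact hw fun ⟨D, hD, h⟩ => hw' D hD h

/-- The third logarithmic derivatives of helper349. -/
theorem third_fib (hf : Continuous f) (hM : IsTorM E E' d T f S Q U π u) (h𝒜 : 𝒜.Finite)
    (hp : ∀ D ∈ 𝒜, J.IsPrime E D) (a : ι) {y : Y} (hy : y ∈ U a) :
    H349.D.IsThird {v | ∃ D ∈ 𝒜, u a y v ∈ D} (PhiM E 𝒜 (π a y) (u a y)) :=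
  (can_fib hf hM h𝒜 hp a hy).isThird
    (closedA h𝒜 (fun D hD => (hp D hD).1) (fib_cont hM hy)) (fun v => leA_ex hp _ v)
    (fun v _ h => leA_an h𝒜 (H152.D.fib_hol hM a hy v) h)
    (fun v _ h => leA_zero h𝒜 (fib_cont hM hy).continuousAt h)

/-- Naturality of the third logarithmic derivatives. -/
theorem phi_nat (hf : Continuous f) (hM : IsTorM E E' d T f S Q U π u) (h𝒜 : 𝒜.Finite)
    (hp : ∀ D ∈ 𝒜, J.IsPrime E D) (a b : ι) {y : Y} (hya : y ∈ U a) (hyb : y ∈ U b)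
    (hn : ∀ D ∈ 𝒜, ¬ f ⁻¹' {y} ⊆ D) {G : V ≃L[ℂ] V} {c : V}
    (hG : IsPeriodChange Q (π a y) (π b y) G) (hu : ∀ w, u b y (G w + c) = u a y w) {v : V}
    (hv : ∀ D ∈ 𝒜, u a y v ∉ D) (x₁ x₂ x₃ : V) :
    PhiM E 𝒜 (π a y) (u a y) v x₁ x₂ x₃ =
      PhiM E 𝒜 (π b y) (u b y) (G v + c) (G x₁) (G x₂) (G x₃) := by
  have ha := can_fib hf hM h𝒜 hp a hya
  have hb := can_fib hf hM h𝒜 hp b hyb
  have hb' : ∀ v h, LeA E 𝒜 (u b y) v h →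
      ∀ᶠ v' in 𝓝 v, (v' ∈ {v | ∃ D ∈ 𝒜, u b y v ∈ D} ↔ h v' = 0) :=
    fun v _ h => leA_zero h𝒜 (fib_cont hM hyb).continuousAt h
  have h1 := hb.comp (e := π a y) (D := {v | ∃ D ∈ 𝒜, u a y v ∈ D}) (Le := LeA E 𝒜 (u a y)) G c
    (fun v => by
      show (∃ D ∈ 𝒜, u a y v ∈ D) ↔ ∃ D ∈ 𝒜, u b y (G v + c) ∈ D
      rw [hu])
    (fun k => hG.1 k) (fun v _ h => leA_an h𝒜 (H152.D.fib_hol hM b hyb v) h)
    (fun v g h => (hb' v g h).mono fun v' h' => h'.2)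
    (by
      rintro v g ⟨e, he, hge⟩
      refine ⟨fun v' => ∏ᶠ (D : Set X) (_ : D ∈ 𝒜), e D (u b y v'), ⟨e, ?_, EventuallyEq.rfl⟩, ?_⟩
      · intro D hD
        rw [hu]
        exact he D hD
      · filter_upwards [hge] with v' hv'
        rw [hv', hu])
  have hD : v ∉ {v | ∃ D ∈ 𝒜, u a y v ∈ D} := fun ⟨D, hD, h⟩ => hv D hD h
  have hDb : G v + c ∉ {v | ∃ D ∈ 𝒜, u b y v ∈ D} := by
    rintro ⟨D, hD, h⟩
    rw [hu] at h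
    exact hv D hD h
  have h2 := ha.fderiv_eq h1 (fun v => leA_ex hp _ v) (fib_dense hM h𝒜 hp hya hn)
    (fun z k hz => fib_per hM hya z k hz)
    (closedA h𝒜 (fun D hD => (hp D hD).1) (fib_cont hM hya)) hD
  have h3 := hb.an (closedA h𝒜 (fun D hD => (hp D hD).1) (fib_cont hM hyb))
    (fun v => leA_ex hp _ v) (fun v _ h => leA_an h𝒜 (H152.D.fib_hol hM b hyb v) h) hb' hDb
  unfold PhiM
  rw [h2]
  exact fderiv_comp G c h3.differentiableAt x₁ x₂ x₃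

end Vale.Agent.P281.H125.D
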