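import Vale.Agent.P281.H125.D.GlA

/-!
# P281, T-Delta (helper125): gluing, the fields of `IsTorD`
-/

open Set Filter Metric Topology
open scoped ContDiff Manifold
open Vale.Agent.P281 Vale.Agent.P281.H713
open Vale.Agent.P281.H64.TD (IsTorM Cub IsTorD)
open Vale.Agent.P281.H64.TU (Tame)
open Vale.Agent.P281.H969.D (LeA LeM HasDiv)

noncomputable section

namespace Vale.Agent.P281.H125.D

variable {E E' : Type} [NormedAddCommGroup E] [NormedSpace ℂ E]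
  [NormedAddCommGroup E'] [NormedSpace ℂ E']
variable {X Y : Type} [TopologicalSpace X] [ChartedSpace E X]
  [TopologicalSpace Y] [ChartedSpace E' Y]
variable {V : Type} [NormedAddCommGroup V] [InnerProductSpace ℂ V] [FiniteDimensional ℂ V]
variable {n d : ℕ}
variable {T : Tame (Fin d → ℂ) X} {f : X → Y} {S : Set Y}
  {Q : (Fin n → ℝ) → (Fin n → ℝ) → ℝ} {ι : Type} {U : ι → Set Y}
  {π : ι → Y → ((Fin n → ℝ) ≃L[ℝ] V)} {u : ι → Y → V → X} {𝒜 : Set (Set X)}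

/-- `β` is a lift of the fibres near `x`, `w` the third logarithmic derivatives. -/
def LM (E : Type) [NormedAddCommGroup E] [NormedSpace ℂ E] [ChartedSpace E X]
    (f : X → Y) (U : ι → Set Y) (π : ι → Y → ((Fin n → ℝ) ≃L[ℝ] V)) (u : ι → Y → V → X)
    (𝒜 : Set (Set X)) (a : ι) (x : X) (β : X → V) (w : X → Cub V) : Prop :=
  f x ∈ U a ∧ ContMDiffAt 𝓘(ℂ, E) 𝓘(ℂ, V) ω β x ∧ (∀ᶠ z in 𝓝 x, u a (f z) (β z) = z) ∧
    ∀ᶠ z in 𝓝 x, w z = cubL (PhiM E 𝒜 (π a (f z)) (u a (f z)) (β z))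

omit [NormedSpace ℂ E] [ChartedSpace E X] [NormedSpace ℂ E'] [ChartedSpace E' Y]
  [FiniteDimensional ℂ V] in
theorem lift_eq (hf : Continuous f) {a : ι} {x : X} {β : X → V} (hβ : ContinuousAt β x)
    (h : ∀ᶠ z in 𝓝 x, u a (f z) (β z) = z) {ζ : X → V}
    (hζ : ∀ᶠ z in 𝓝 (f x, β x), ζ (u a z.1 z.2) = z.2) : ζ =ᶠ[𝓝 x] β := by
  have h1 : Tendsto (fun z => (f z, β z)) (𝓝 x) (𝓝 (f x, β x)) :=
    (hf.tendsto x).prodMk_nhds hβ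
  filter_upwards [h1.eventually hζ, h] with z h2 h3
  have h4 : ζ (u a (f z) (β z)) = β z := h2
  rw [h3] at h4
  exact h4

theorem bhol_man (hf : Continuous f) (hM : IsTorM E E' d T f S Q U π u) {a : ι} {x : X}
    (hx : f x ∈ U a) {β : X → V} (hβ : ContMDiffAt 𝓘(ℂ, E) 𝓘(ℂ, V) ω β x)
    (h : ∀ᶠ z in 𝓝 x, u a (f z) (β z) = z) (ξ : E)
    (h1 : mfderiv 𝓘(ℂ, E) 𝓘(ℂ, E') f x ξ = 0) (h2 : mfderiv 𝓘(ℂ, E) 𝓘(ℂ, V) β x ξ = 0) :
    ξ = 0 := by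
  obtain ⟨ζ, k1, k2, k3, k4, k5⟩ := hM.chart a (f x) hx (β x)
  have h0 : u a (f x) (β x) = x := h.self_of_nhds
  rw [h0] at k1 k2 k3 k5
  have h3 := lift_eq hf hβ.continuousAt h k4
  refine k5 ξ h1 ?_
  rw [h3.mfderiv_eq]
  exact h2

variable [FiniteDimensional ℂ E] [FiniteDimensional ℂ E'] [IsManifold 𝓘(ℂ, E) ω X]
  [IsManifold 𝓘(ℂ, E') ω Y]

theorem change_man (hf : Continuous f) (hM : IsTorM E E' d T f S Q U π u) (h𝒜 : 𝒜.Finite)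
    (hp : ∀ D ∈ 𝒜, J.IsPrime E D) (a b : ι) {x : X} (hn : ∀ D ∈ 𝒜, ¬ f ⁻¹' {f x} ⊆ D)
    {β β' : X → V} {w w' : X → Cub V} (hL : LM E f U π u 𝒜 a x β w)
    (hL' : LM E f U π u 𝒜 b x β' w') :
    ∃ (G : V ≃L[ℂ] V) (c : V), IsPeriodChange Q (π a (f x)) (π b (f x)) G ∧
      ∀ᶠ z in 𝓝 x, f z = f x → β' z = G (β z) + c ∧ ((∀ D ∈ 𝒜, z ∉ D) →
        w z = (w' z).compContinuousLinearMap fun _ => (G : V →L[ℂ] V)) := by
  obtain ⟨hxa, hβ, hβu, hw⟩ := hL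
  obtain ⟨hxb, hβ', hβu', hw'⟩ := hL'
  have e1 : u a (f x) (β x) = x := hβu.self_of_nhds
  have e2 : u b (f x) (β' x) = x := hβu'.self_of_nhds
  obtain ⟨G, c, h1, h2, h3⟩ := hM.trans a b (f x) ⟨hxa, hxb⟩ (β x) (β' x) (by rw [e1, e2])
  obtain ⟨ζ, k1, k2, k3, k4, k5⟩ := hM.chart b (f x) hxb (β' x)
  have h4 := lift_eq hf hβ'.continuousAt hβu' k4
  have h5 : Tendsto (fun z => (f x, G (β z) + c)) (𝓝 x) (𝓝 (f x, β' x)) := by
    have h6 : ContinuousAt (fun z => G (β z) + c) x :=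
      (G.continuous.continuousAt.comp hβ.continuousAt).add continuousAt_const
    have h7 : Tendsto (fun z => G (β z) + c) (𝓝 x) (𝓝 (β' x)) := by
      have := h6.tendsto
      rwa [h2] at this
    exact tendsto_const_nhds.prodMk_nhds h7
  refine ⟨G, c, h1, ?_⟩
  filter_upwards [hβu, hβu', hw, hw', h4, h5.eventually k4] with z g1 g2 g3 g4 g5 g6 hz
  have g7 : ζ (u b (f x) (G (β z) + c)) = G (β z) + c := g6
  rw [hz] at g1 g2 g3 g4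
  rw [h3, g1] at g7
  have g8 : β' z = G (β z) + c := by rw [← g5, g7]
  refine ⟨g8, fun hz' => ?_⟩
  rw [g3, g4]
  ext m
  rw [ContinuousMultilinearMap.compContinuousLinearMap_apply, cubL_apply', cubL_apply', g8]
  exact phi_nat hf hM h𝒜 hp a b hxa hxb hn h1 h3 (fun D hD => by rw [g1]; exact hz' D hD) _ _ _

theorem third_man (hf : Continuous f) (hM : IsTorM E E' d T f S Q U π u) (h𝒜 : 𝒜.Finite)
    (hp : ∀ D ∈ 𝒜, J.IsPrime E D) {a : ι} {y : Y} (hy : y ∈ U a)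
    (hn : ∀ D ∈ 𝒜, ¬ f ⁻¹' {y} ⊆ D) {v : V} (hv : ∀ D ∈ 𝒜, u a y v ∉ D)
    {β : X → V} {w : X → Cub V} (hL : LM E f U π u 𝒜 a (u a y v) β w) :
    ∃ (G : V ≃L[ℂ] V) (c : V), ∀ᶠ z in 𝓝 v, β (u a y z) = G z + c ∧
      ∀ x₁ x₂ x₃, w (u a y z) ![G x₁, G x₂, G x₃] =
        PhiM E 𝒜 (π a y) (u a y) z x₁ x₂ x₃ := by
  obtain ⟨hx, hβ, hβu, hw⟩ := hL
  have hfy : ∀ z, f (u a y z) = y := hM.mem a y hy
  have e1 : u a y (β (u a y v)) = u a y v := by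
    have := hβu.self_of_nhds
    rwa [hfy] at this
  obtain ⟨G, c, h1, h2, h3⟩ := hM.trans a a y ⟨hy, hy⟩ v (β (u a y v)) e1.symm
  obtain ⟨ζ, k1, k2, k3, k4, k5⟩ := hM.chart a y hy (β (u a y v))
  have hc : Tendsto (u a y) (𝓝 v) (𝓝 (u a y v)) := (fib_cont hM hy).tendsto v
  have h4 : ζ =ᶠ[𝓝 (u a y v)] β := by
    refine lift_eq hf hβ.continuousAt hβu ?_
    rw [hfy]
    exact k4
  have h5 : Tendsto (fun z => (y, G z + c)) (𝓝 v) (𝓝 (y, β (u a y v))) := by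
    have h6 : ContinuousAt (fun z => G z + c) v :=
      G.continuous.continuousAt.add continuousAt_const
    have h7 : Tendsto (fun z => G z + c) (𝓝 v) (𝓝 (β (u a y v))) := by
      have := h6.tendsto
      rwa [h2] at this
    exact tendsto_const_nhds.prodMk_nhds h7
  have h8 : ∀ᶠ z in 𝓝 v, ∀ D ∈ 𝒜, u a y z ∉ D := by
    have h9 := (closedA h𝒜 (fun D hD => (hp D hD).1) (fib_cont hM hy)).isOpen_compl.mem_nhds
      (x := v) (fun ⟨D, hD, h⟩ => hv D hD h)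
    filter_upwards [h9] with z hz D hD h using hz ⟨D, hD, h⟩
  refine ⟨G, c, ?_⟩
  filter_upwards [hc.eventually h4, h5.eventually k4, h8, hc.eventually hw] with z g1 g2 g3 g4
  have g5 : ζ (u a y (G z + c)) = G z + c := g2
  rw [h3] at g5
  have g6 : β (u a y z) = G z + c := by rw [← g1, g5]
  refine ⟨g6, fun x₁ x₂ x₃ => ?_⟩
  rw [g4, cubL_apply, hfy, g6]
  exact (phi_nat hf hM h𝒜 hp a a hy hy hn h1 h3 g3 _ _ _).symm

set_option synthInstance.maxHeartbeats 200000 in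
theorem pole_man (hf : ContMDiff 𝓘(ℂ, E) 𝓘(ℂ, E') ω f) (hM : IsTorM E E' d T f S Q U π u)
    (h𝒜 : 𝒜.Finite) (hp : ∀ D ∈ 𝒜, J.IsPrime E D) {a : ι} {x : X} {β : X → V} {w : X → Cub V}
    (hL : LM E f U π u 𝒜 a x β w) (F : Finset (Set X)) (e : Set X → X → ℂ)
    (hF : ∀ D ∈ 𝒜, D ∈ F) (he : ∀ D ∈ F, J.IsLocalEq E D (e D) x) :
    ∃ H : X → Cub V, ContMDiffAt 𝓘(ℂ, E) 𝓘(ℂ, Cub V) ω H x ∧
      ∀ᶠ z in 𝓝 x, (∀ D ∈ 𝒜, z ∉ D) → (∏ D ∈ F, e D z) ^ 3 • w z = H z := by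
  classical
  obtain ⟨hx, hβ, hβu, hw⟩ := hL
  have hfc := hf.continuous
  set χ := chartAt E' (f x) with hχ
  have hχm : χ ∈ IsManifold.maximalAtlas 𝓘(ℂ, E') ω Y :=
    IsManifold.chart_mem_maximalAtlas (I := 𝓘(ℂ, E')) (n := ω) (f x)
  have hs : f x ∈ χ.source := mem_chart_source E' (f x)
  have h0 : χ.symm (χ (f x)) = f x := χ.left_inv hs
  have ht₀ : χ (f x) ∈ χ.target ∩ χ.symm ⁻¹' U a := by
    refine ⟨χ.map_source hs, ?_⟩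
    show χ.symm (χ (f x)) ∈ U a
    rwa [h0]
  obtain ⟨B, w₀, h1, h2, h3, h4⟩ := exists_locW hfc hM h𝒜 hp a hχm ht₀
  have hD : DivDatum (fun t => π a (χ.symm t)) (χ.target ∩ χ.symm ⁻¹' U a)
      {w : E' × V | ∃ D ∈ 𝒜, u a (χ.symm w.1) w.2 ∈ D}
      (LeM E 𝒜 (u a) χ.symm (χ.target ∩ χ.symm ⁻¹' U a)) :=
    H152.D.divDatum hfc hM h𝒜 hp a hχm
  have e0 : u a (f x) (β x) = x := hβu.self_of_nhds
  set h : E' × V → ℂ := fun w' => ∏ᶠ (D : Set X) (_ : D ∈ 𝒜), e D (u a (χ.symm w'.1) w'.2) with hh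
  have hLe : LeM E 𝒜 (u a) χ.symm (χ.target ∩ χ.symm ⁻¹' U a) (χ (f x), β x) h := by
    refine ⟨ht₀, e, fun D hD => ?_, EventuallyEq.rfl⟩
    show J.IsLocalEq E D (e D) (u a (χ.symm (χ (f x))) (β x))
    rw [h0, e0]
    exact he D (hF D hD)
  obtain ⟨H, hH, hH'⟩ := h3.pole hD h2 (p := (χ (f x), β x)) h1 hLe
  -- the map to the parameter space
  set ψ : X → E' × V := fun z => (χ (f z), β z) with hψ
  have hχs : ContMDiffAt 𝓘(ℂ, E') 𝓘(ℂ, E') ω χ (f x) :=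
    (contMDiffOn_of_mem_maximalAtlas hχm).contMDiffAt (χ.open_source.mem_nhds hs)
  have hψ1 : ContMDiffAt 𝓘(ℂ, E) 𝓘(ℂ, E' × V) ω ψ x := by
    have g1 : ContMDiffAt 𝓘(ℂ, E) 𝓘(ℂ, E') ω (fun z => χ (f z)) x :=
      ContMDiffAt.comp (g := χ) (f := f) x hχs hf.contMDiffAt
    exact g1.prodMk_space hβ
  have hψc : Tendsto ψ (𝓝 x) (𝓝 (χ (f x), β x)) := hψ1.continuousAt
  have hHψ : ContMDiffAt 𝓘(ℂ, E) 𝓘(ℂ, Cub V) ω (fun z => cubL (H (ψ z))) x := by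
    have g1 : AnalyticAt ℂ (fun q => cubL (H q)) (χ (f x), β x) := by
      have g2 := ContinuousLinearMap.analyticAt (𝕜 := ℂ)
        (E := V →L[ℂ] V →L[ℂ] V →L[ℂ] ℂ) (F := Cub V) cubL (H (χ (f x), β x))
      exact AnalyticAt.fun_comp (f := H) g2 hH
    have g3 : ContMDiffAt 𝓘(ℂ, E' × V) 𝓘(ℂ, Cub V) ω (fun q => cubL (H q)) (ψ x) :=
      contMDiffAt_iff_contDiffAt.2 g1.contDiffAt
    exact ContMDiffAt.comp (g := fun q => cubL (H q)) (f := ψ) x g3 hψ1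
  have hpr : ContMDiffAt 𝓘(ℂ, E) 𝓘(ℂ, ℂ) ω
      (fun z => (∏ D ∈ F \ h𝒜.toFinset, e D z) ^ 3) x := by
    refine ContMDiffAt.pow ?_ 3
    refine contMDiffAt_finset_prod fun D hD => ?_
    exact H152.D.leq_hol (he D (Finset.mem_sdiff.1 hD).1)
  refine ⟨fun z => (∏ D ∈ F \ h𝒜.toFinset, e D z) ^ 3 • cubL (H (ψ z)), hpr.smul hHψ, ?_⟩
  have hsub : h𝒜.toFinset ⊆ F := fun D hD => hF D (h𝒜.mem_toFinset.1 hD)
  have k1 : ∀ᶠ z in 𝓝 x, f z ∈ χ.source :=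
    hfc.continuousAt.eventually (χ.open_source.mem_nhds hs)
  have k2 : ∀ᶠ z in 𝓝 x, (ψ z).1 ∈ B := by
    have g1 : ∀ᶠ q : E' × V in 𝓝 (χ (f x), β x), q.1 ∈ B :=
      (h3.isOpen.preimage continuous_fst).mem_nhds h1
    exact hψc.eventually g1
  filter_upwards [k1, k2, hβu, hw, hψc.eventually hH'] with z g1 g2 g3 g4 g5 hz
  have g6 : χ.symm (χ (f z)) = f z := χ.left_inv g1
  have g7 := (h4 _ g2).2 (β z) (by
    show ∀ D ∈ 𝒜, u a (χ.symm (χ (f z))) (β z) ∉ D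
    rw [g6, g3]
    exact hz)
  have g7' : PhiM E 𝒜 (π a (f z)) (u a (f z)) (β z) = dV w₀ (ψ z) := by
    have g8 : PhiM E 𝒜 (π a (χ.symm (χ (f z)))) (u a (χ.symm (χ (f z)))) (β z) = dV w₀ (ψ z) := g7
    rwa [g6] at g8
  have g9 : ψ z ∉ {w : E' × V | ∃ D ∈ 𝒜, u a (χ.symm w.1) w.2 ∈ D} := by
    rintro ⟨D, hD, hD'⟩
    have g10 : u a (χ.symm (χ (f z))) (β z) ∈ D := hD'
    rw [g6, g3] at g10
    exact hz D hD g10
  have g11 := g5 g9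
  have g12 : h (ψ z) = ∏ D ∈ h𝒜.toFinset, e D z := by
    show (∏ᶠ (D : Set X) (_ : D ∈ 𝒜), e D (u a (χ.symm (χ (f z))) (β z))) = _
    rw [g6, g3, H152.D.fp_eq h𝒜 fun D => e D z]
  rw [g4, g7', ← Finset.prod_sdiff hsub, mul_pow, mul_smul, ← g11, g12]
  congr 1

end Vale.Agent.P281.H125.D
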