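import Vale.Agent.P281.H125.D.GlB
import Vale.Agent.P281.H303.TD.Core

/-!
# P281, T-Delta (helper125): `TorNStmt`
-/

open Set Filter Metric Topology
open scoped ContDiff Manifold
open Vale.Agent.P281 Vale.Agent.P281.H713
open Vale.Agent.P281.H64.TD (IsTorM Cub IsTorD)
open Vale.Agent.P281.H64.TU (Tame)
open Vale.Agent.P281.H64 (Cm)
open Vale.Agent.P281.H969.D (LeA LeM HasDiv)

noncomputable section

namespace Vale.Agent.P281.H125.D

variable {E E' : Type} [NormedAddCommGroup E] [NormedSpace ℂ E] [FiniteDimensional ℂ E]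
  [NormedAddCommGroup E'] [NormedSpace ℂ E'] [FiniteDimensional ℂ E']
variable {X Y : Type} [TopologicalSpace X] [ChartedSpace E X] [IsManifold 𝓘(ℂ, E) ω X]
  [TopologicalSpace Y] [ChartedSpace E' Y] [IsManifold 𝓘(ℂ, E') ω Y]
variable {V : Type} [NormedAddCommGroup V] [InnerProductSpace ℂ V] [FiniteDimensional ℂ V]
variable {n d : ℕ}
variable {T : Tame (Fin d → ℂ) X} {f : X → Y} {S : Set Y}
  {Q : (Fin n → ℝ) → (Fin n → ℝ) → ℝ} {ι : Type} {U : ι → Set Y}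
  {π : ι → Y → ((Fin n → ℝ) ≃L[ℝ] V)} {u : ι → Y → V → X} {𝒜 : Set (Set X)}

theorem hasDiv (hf : Continuous f) (hM : IsTorM E E' d T f S Q U π u) (h𝒜 : 𝒜.Finite)
    (hp : ∀ D ∈ 𝒜, J.IsPrime E D) : HasDiv E E' U π u 𝒜 := by
  intro a y₀ hy₀
  have h0 : (chartAt E' y₀).symm (chartAt E' y₀ y₀) = y₀ :=
    (chartAt E' y₀).left_inv (mem_chart_source E' y₀)
  have hχm : chartAt E' y₀ ∈ IsManifold.maximalAtlas 𝓘(ℂ, E') ω Y :=
    IsManifold.chart_mem_maximalAtlas (I := 𝓘(ℂ, E')) (n := ω) y₀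
  exact ⟨chartAt E' y₀, (chartAt E' y₀).target ∩ (chartAt E' y₀).symm ⁻¹' U a,
    mem_chart_source E' y₀,
    ⟨mem_chart_target E' y₀, by
      show (chartAt E' y₀).symm (chartAt E' y₀ y₀) ∈ U a
      rwa [h0]⟩,
    H152.D.par_isOpen hM a _, inter_subset_left, fun t ht => ht.2,
    H152.D.par_holPer hf hM a hχm, H152.D.divDatum hf hM h𝒜 hp a hχm⟩

/-- **D2c + D4 + D10**, all the fields. -/
theorem isTorD (hf : ContMDiff 𝓘(ℂ, E) 𝓘(ℂ, E') ω f) (hSp : IsPreconnected Sᶜ)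
    (hM : IsTorM E E' d T f S Q U π u) (h𝒜 : 𝒜.Finite) (hp : ∀ D ∈ 𝒜, J.IsPrime E D)
    (hn : ∀ D ∈ 𝒜, ∀ y ∉ S, ¬ f ⁻¹' {y} ⊆ D) :
    IsTorD E E' d T f S Q U π 𝒜 (LM E f U π u 𝒜) := by
  have hfc := hf.continuous
  have hyS : ∀ a, ∀ y ∈ U a, y ∉ S := fun a y hy => (hM.cover y).2 ⟨a, hy⟩
  have hL : ∀ a x ζ, f x ∈ U a → ContMDiffAt 𝓘(ℂ, E) 𝓘(ℂ, V) ω ζ x →
      (∀ᶠ z in 𝓝 x, u a (f z) (ζ z) = z) →
      LM E f U π u 𝒜 a x ζ fun z => cubL (PhiM E 𝒜 (π a (f z)) (u a (f z)) (ζ z)) :=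
    fun a x ζ h1 h2 h3 => ⟨h1, h2, h3, Eventually.of_forall fun z => rfl⟩
  have hoff : ∀ a, ∀ y ∈ U a, ∃ v, ∀ D ∈ 𝒜, u a y v ∉ D := fun a y hy =>
    (H152.D.fib_off hM h𝒜 hp a hy (fun D hD => hn D hD y (hyS a y hy)) 0).exists
  obtain ⟨τ, hτ, hfib⟩ := H969.D.hfib_man (EX := E) (EY := E') hM (hasDiv hfc hM h𝒜 hp) hoff hSp
    (Φ := fun a y => PhiM E 𝒜 (π a y) (u a y)) (hPhi hfc hM h𝒜 hp)
  exact
    { toIsPeriodFamily := hM.toIsPeriodFamily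
      dim := hM.dim
      lift := fun a x hx => by
        obtain ⟨v, hv⟩ := hM.surj a x hx
        obtain ⟨ζ, k1, k2, k3, k4, k5⟩ := hM.chart a (f x) hx v
        rw [hv] at k1 k3
        exact ⟨ζ, _, hL a x ζ hx k1 k3⟩
      bhol := fun a x β w h => ⟨h.2.1, fun ξ h1 h2 => bhol_man hfc hM h.1 h.2.1 h.2.2.1 ξ h1 h2⟩
      pole := fun a x β w h F e hF he => pole_man hf hM h𝒜 hp h F e hF he
      near := fun a x β w h => by
        obtain ⟨h1, h2, h3, h4⟩ := h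
        have h5 : ∀ᶠ z in 𝓝 x, f z ∈ U a := hfc.continuousAt.eventually ((hM.isOpen a).mem_nhds h1)
        have h6 : ∀ᶠ z in 𝓝 x, ContMDiffAt 𝓘(ℂ, E) 𝓘(ℂ, V) ω β z :=
          (contMDiffAt_iff_contMDiffAt_nhds (by simp)).1 h2
        filter_upwards [h5, h6, eventually_eventually_nhds.2 h3, eventually_eventually_nhds.2 h4]
          with z g1 g2 g3 g4 using ⟨g1, g2, g3, g4⟩
      change := fun a b x hxa hxb β w β' w' h h' =>
        change_man hfc hM h𝒜 hp a b (fun D hD => hn D hD _ (hyS a _ hxa)) h h'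
      bound := H969.D.torD_bound hM hτ (Φ := fun a y => PhiM E 𝒜 (π a y) (u a y)) (cub := cubL)
        cubL_apply hfib hL }

/-- **The block**. -/
theorem torN : H303.TD.TorNStmt := by
  intro p d n X Y _ _ _ _ _ _ _ _ _ T f S Q ι U π u 𝒜 hd hf hS hSp hcon hM h𝒜 hp hn
  refine ⟨LM (Cm (p + d)) f U π u 𝒜, isTorD hf hSp hM h𝒜 hp hn, fun a y hy => ?_⟩
  have hyS : y ∉ S := (hM.cover y).2 ⟨a, hy⟩
  exact ⟨PhiM (Cm (p + d)) 𝒜 (π a y) (u a y), third_fib hf.continuous hM h𝒜 hp a hy,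
    fun v hv β w hL => third_man hf.continuous hM h𝒜 hp hy (fun D hD => hn D hD y hyS) hv hL⟩

end Vale.Agent.P281.H125.D
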