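import Vale.Agent.P281.MF.Hol

/-!
# P281, T-Delta, block D2 (helper125): linear algebra of the period families

For a real linear isomorphism `A : ℝ^n → V` onto a complex vector space, `pc A : ℂ^n → V` is the
complex linear extension. Its kernel describes the anti-holomorphic directions.
-/

open Set Filter Metric Topology

noncomputable section

namespace Vale.Agent.P281.H125.D

variable {n : ℕ} {V : Type*} [NormedAddCommGroup V] [NormedSpace ℂ V]

/-- The complex linear extension of `A : ℝ^n → V`. -/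
def pc (A : (Fin n → ℝ) →L[ℝ] V) : (Fin n → ℂ) →L[ℂ] V :=
  ∑ m, (ContinuousLinearMap.proj m : (Fin n → ℂ) →L[ℂ] ℂ).smulRight (A (Pi.single m 1))

theorem pc_apply (A : (Fin n → ℝ) →L[ℝ] V) (c : Fin n → ℂ) :
    pc A c = ∑ m, c m • A (Pi.single m 1) := by
  simp [pc, ContinuousLinearMap.sum_apply]

theorem apply_eq_sum (A : (Fin n → ℝ) →L[ℝ] V) (x : Fin n → ℝ) :
    A x = ∑ m, (x m : ℂ) • A (Pi.single m 1) := by
  have h : x = ∑ m, x m • (Pi.single m 1 : Fin n → ℝ) := by
    rw [← pi_eq_sum_univ' x]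
  conv_lhs => rw [h]
  rw [map_sum]
  refine Finset.sum_congr rfl fun m _ => ?_
  rw [map_smul, Complex.coe_smul]

theorem pc_real (A : (Fin n → ℝ) →L[ℝ] V) (x : Fin n → ℝ) :
    pc A (fun m => (x m : ℂ)) = A x := by
  rw [pc_apply, apply_eq_sum]

theorem pc_surj {A : (Fin n → ℝ) →L[ℝ] V} (hA : Function.Surjective A) :
    Function.Surjective (pc A) := fun v => by
  obtain ⟨x, hx⟩ := hA v
  exact ⟨_, (pc_real A x).trans hx⟩

/-- Real periods which pair to zero with the kernel of `pc A` vanish. -/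
theorem real_eq_zero {A : (Fin n → ℝ) →L[ℝ] V} (hA : Function.Surjective A)
    (k : Fin n → ℝ) (hk : ∀ c, pc A c = 0 → ∑ m, c m * (k m : ℂ) = 0) : k = 0 := by
  -- the functional
  let κ : (Fin n → ℂ) →ₗ[ℂ] ℂ :=
    ∑ m, (k m : ℂ) • (LinearMap.proj m : (Fin n → ℂ) →ₗ[ℂ] ℂ)
  have hκ : ∀ c, κ c = ∑ m, c m * (k m : ℂ) := by
    intro c
    simp [κ, LinearMap.sum_apply, mul_comm]
  have hker : LinearMap.ker (pc A : (Fin n → ℂ) →ₗ[ℂ] V) ≤ LinearMap.ker κ := by
    intro c hc
    rw [LinearMap.mem_ker] at hc ⊢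
    rw [hκ]
    exact hk c hc
  obtain ⟨R, hR⟩ := (pc A : (Fin n → ℂ) →ₗ[ℂ] V).exists_rightInverse_of_surjective
    (LinearMap.range_eq_top.2 (pc_surj hA))
  set lam : V →ₗ[ℂ] ℂ := κ ∘ₗ R with hlam
  have h1 : ∀ c, lam (pc A c) = κ c := by
    intro c
    have h2 : c - R (pc A c) ∈ LinearMap.ker (pc A : (Fin n → ℂ) →ₗ[ℂ] V) := by
      rw [LinearMap.mem_ker, map_sub]
      have := LinearMap.congr_fun hR (pc A c)
      simp only [LinearMap.comp_apply, LinearMap.id_apply] at this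
      rw [this]
      exact sub_self _
    have h3 := hker h2
    rw [LinearMap.mem_ker, map_sub, sub_eq_zero] at h3
    rw [hlam, LinearMap.comp_apply, ← h3]
  have hreal : ∀ v, ∃ r : ℝ, lam v = r := by
    intro v
    obtain ⟨x, hx⟩ := hA v
    refine ⟨∑ m, x m * k m, ?_⟩
    rw [← hx, ← pc_real, h1, hκ]
    push_cast
    rfl
  have hzero : ∀ v, lam v = 0 := by
    intro v
    obtain ⟨r, hr⟩ := hreal v
    obtain ⟨s, hs⟩ := hreal (Complex.I • v)
    rw [map_smul, hr, smul_eq_mul] at hs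
    have := congrArg Complex.im hs
    simp at this
    rw [hr, this]
    simp
  funext m
  have h4 := h1 (Pi.single m 1)
  rw [hzero, hκ] at h4
  have h5 : ∑ j, (Pi.single m (1 : ℂ) : Fin n → ℂ) j * (k j : ℂ) = (k m : ℂ) := by
    rw [Finset.sum_eq_single m]
    · simp
    · intro j _ hj
      simp [hj]
    · simp
  rw [h5] at h4
  exact_mod_cast h4.symm

end Vale.Agent.P281.H125.D
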