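import Vale.Agent.P281.H125.D.Frame

/-!
# P281, T-Delta, block D2 (helper125): functions which are smooth in the real coordinates `x` of the
torus and holomorphic in the parameter `y` for fixed `x`
-/

open Set Filter Metric Topology
open scoped ContDiff

noncomputable section

namespace Vale.Agent.P281.H125.D

variable {n : ℕ} {V : Type*} [NormedAddCommGroup V] [NormedSpace ℂ V]
variable {P : Type*} [NormedAddCommGroup P] [NormedSpace ℂ P]
variable {E : Type*} [NormedAddCommGroup E] [NormedSpace ℂ E]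
variable {E' : Type*} [NormedAddCommGroup E'] [NormedSpace ℂ E']

/-- The Cauchy-Riemann equations in the parameter at `q`. -/
def CR (F : P × (Fin n → ℝ) → E) (q : P × (Fin n → ℝ)) : Prop :=
  ∀ η : P, fderiv ℝ F q (Complex.I • η, 0) = Complex.I • fderiv ℝ F q (η, 0)

/-- `F` is of class `C^k` and holomorphic in the parameter near `q`. -/
def Nice (k : WithTop ℕ∞) (F : P × (Fin n → ℝ) → E) (q : P × (Fin n → ℝ)) : Prop :=
  ∀ᶠ q' in 𝓝 q, ContDiffAt ℝ k F q' ∧ CR F q'

theorem Nice.eventually {k : WithTop ℕ∞} {F : P × (Fin n → ℝ) → E} {q : P × (Fin n → ℝ)}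
    (h : Nice k F q) : ∀ᶠ q' in 𝓝 q, Nice k F q' :=
  eventually_eventually_nhds.2 h

theorem Nice.contDiffAt {k : WithTop ℕ∞} {F : P × (Fin n → ℝ) → E} {q : P × (Fin n → ℝ)}
    (h : Nice k F q) : ContDiffAt ℝ k F q := (Eventually.self_of_nhds h).1

theorem Nice.cr {k : WithTop ℕ∞} {F : P × (Fin n → ℝ) → E} {q : P × (Fin n → ℝ)}
    (h : Nice k F q) : CR F q := (Eventually.self_of_nhds h).2

theorem Nice.of_le {k l : WithTop ℕ∞} {F : P × (Fin n → ℝ) → E} {q : P × (Fin n → ℝ)}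
    (h : Nice k F q) (hl : l ≤ k) : Nice l F q := by
  filter_upwards [h] with q' hq' using ⟨hq'.1.of_le hl, hq'.2⟩

theorem Nice.congr {k : WithTop ℕ∞} {F G : P × (Fin n → ℝ) → E} {q : P × (Fin n → ℝ)}
    (h : Nice k F q) (hG : G =ᶠ[𝓝 q] F) : Nice k G q := by
  filter_upwards [h, eventually_eventually_nhds.2 hG] with q' hq' hG'
  have hG'' : G =ᶠ[𝓝 q'] F := hG'
  refine ⟨hq'.1.congr_of_eventuallyEq hG'', fun η => ?_⟩
  rw [hG''.fderiv_eq]
  exact hq'.2 η

theorem CR.add {F G : P × (Fin n → ℝ) → E} {q : P × (Fin n → ℝ)} (hF : CR F q) (hG : CR G q)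
    (hF' : DifferentiableAt ℝ F q) (hG' : DifferentiableAt ℝ G q) :
    CR (fun q => F q + G q) q := by
  intro η
  rw [fderiv_fun_add hF' hG']
  simp only [add_apply]
  rw [hF η, hG η, smul_add]

theorem CR.sub {F G : P × (Fin n → ℝ) → E} {q : P × (Fin n → ℝ)} (hF : CR F q) (hG : CR G q)
    (hF' : DifferentiableAt ℝ F q) (hG' : DifferentiableAt ℝ G q) :
    CR (fun q => F q - G q) q := by
  intro η
  rw [fderiv_fun_sub hF' hG']
  simp only [sub_apply]
  rw [hF η, hG η, smul_sub]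

theorem CR.smul {f : P × (Fin n → ℝ) → ℂ} {G : P × (Fin n → ℝ) → E} {q : P × (Fin n → ℝ)}
    (hF : CR f q) (hG : CR G q)
    (hF' : DifferentiableAt ℝ f q) (hG' : DifferentiableAt ℝ G q) :
    CR (fun q => f q • G q) q := by
  intro η
  rw [fderiv_fun_smul hF' hG']
  simp only [add_apply, smul_apply, ContinuousLinearMap.smulRight_apply]
  rw [hF η, hG η, smul_add]
  congr 1
  · rw [smul_comm]
  · rw [smul_smul, smul_eq_mul]

theorem CR.clm {F : P × (Fin n → ℝ) → E} {q : P × (Fin n → ℝ)} (hF : CR F q)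
    (hF' : DifferentiableAt ℝ F q) (L : E →L[ℂ] E') : CR (fun q => L (F q)) q := by
  intro η
  have h : HasFDerivAt (fun q => L (F q)) ((L.restrictScalars ℝ).comp (fderiv ℝ F q)) q :=
    (L.restrictScalars ℝ).hasFDerivAt.comp q hF'.hasFDerivAt
  rw [h.fderiv]
  simp only [ContinuousLinearMap.comp_apply, ContinuousLinearMap.coe_restrictScalars']
  rw [hF η, map_smul]

theorem ContDiffAt.diffOne {k : WithTop ℕ∞} {F : P × (Fin n → ℝ) → E} {q : P × (Fin n → ℝ)}
    (h : ContDiffAt ℝ k F q) (hk : 1 ≤ k) : DifferentiableAt ℝ F q :=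
  h.differentiableAt (by
    intro h0
    rw [h0] at hk
    exact absurd hk (by simp))

theorem Nice.add {k : WithTop ℕ∞} {F G : P × (Fin n → ℝ) → E} {q : P × (Fin n → ℝ)}
    (hk : 1 ≤ k) (hF : Nice k F q) (hG : Nice k G q) : Nice k (fun q => F q + G q) q := by
  filter_upwards [hF, hG] with q' h1 h2
  exact ⟨h1.1.add h2.1, h1.2.add h2.2 (ContDiffAt.diffOne h1.1 hk) (ContDiffAt.diffOne h2.1 hk)⟩

theorem Nice.sub {k : WithTop ℕ∞} {F G : P × (Fin n → ℝ) → E} {q : P × (Fin n → ℝ)}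
    (hk : 1 ≤ k) (hF : Nice k F q) (hG : Nice k G q) : Nice k (fun q => F q - G q) q := by
  filter_upwards [hF, hG] with q' h1 h2
  exact ⟨h1.1.sub h2.1, h1.2.sub h2.2 (ContDiffAt.diffOne h1.1 hk) (ContDiffAt.diffOne h2.1 hk)⟩

theorem Nice.smul {k : WithTop ℕ∞} {f : P × (Fin n → ℝ) → ℂ} {G : P × (Fin n → ℝ) → E}
    {q : P × (Fin n → ℝ)}
    (hk : 1 ≤ k) (hF : Nice k f q) (hG : Nice k G q) : Nice k (fun q => f q • G q) q := by
  filter_upwards [hF, hG] with q' h1 h2
  exact ⟨h1.1.smul h2.1, h1.2.smul h2.2 (ContDiffAt.diffOne h1.1 hk) (ContDiffAt.diffOne h2.1 hk)⟩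

theorem Nice.clm {k : WithTop ℕ∞} {F : P × (Fin n → ℝ) → E} {q : P × (Fin n → ℝ)}
    (hk : 1 ≤ k) (hF : Nice k F q) (L : E →L[ℂ] E') : Nice k (fun q => L (F q)) q := by
  filter_upwards [hF] with q' h1
  exact ⟨(L.restrictScalars ℝ).contDiff.contDiffAt.comp q' h1.1,
    h1.2.clm (ContDiffAt.diffOne h1.1 hk) L⟩

theorem nice_const {k : WithTop ℕ∞} (e : E) (q : P × (Fin n → ℝ)) :
    Nice k (fun _ => e) q := by
  filter_upwards with q'
  refine ⟨contDiffAt_const, fun η => ?_⟩
  simp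

theorem Nice.sum {k : WithTop ℕ∞} {ι : Type*} {F : ι → P × (Fin n → ℝ) → E}
    {q : P × (Fin n → ℝ)} (hk : 1 ≤ k) (s : Finset ι) (hF : ∀ i ∈ s, Nice k (F i) q) :
    Nice k (fun q => ∑ i ∈ s, F i q) q := by
  classical
  induction s using Finset.induction_on with
  | empty => simpa using nice_const (0 : E) q
  | insert i s hi ih =>
    have h1 := (hF i (Finset.mem_insert_self i s)).add hk
      (ih fun j hj => hF j (Finset.mem_insert_of_mem hj))
    refine h1.congr (Eventually.of_forall fun q' => ?_)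
    exact Finset.sum_insert hi

/-- Functions of `x` only. -/
theorem nice_of_x {k : WithTop ℕ∞} {χ : (Fin n → ℝ) → E} (hχ : ContDiff ℝ k χ)
    (hk : 1 ≤ k) (q : P × (Fin n → ℝ)) : Nice k (fun q : P × (Fin n → ℝ) => χ q.2) q := by
  filter_upwards with q'
  have h0 : ContDiffAt ℝ k (fun q : P × (Fin n → ℝ) => χ q.2) q' :=
    hχ.contDiffAt.comp q' contDiffAt_snd
  refine ⟨h0, fun η => ?_⟩
  have h1 : HasFDerivAt (fun q : P × (Fin n → ℝ) => χ q.2)
      ((fderiv ℝ χ q'.2).comp (ContinuousLinearMap.snd ℝ P (Fin n → ℝ))) q' := by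
    have h2 : DifferentiableAt ℝ χ q'.2 := hχ.contDiffAt.differentiableAt (by
      intro h0
      rw [h0] at hk
      exact absurd hk (by simp))
    exact h2.hasFDerivAt.comp q' hasFDerivAt_snd
  rw [h1.fderiv]
  simp

/-- Functions of `y` only. -/
theorem nice_of_y [FiniteDimensional ℂ P] [CompleteSpace E] {k : WithTop ℕ∞} {c : P → E} {B : Set P}
    (hB : IsOpen B) (hc : DifferentiableOn ℂ c B) {q : P × (Fin n → ℝ)} (hq : q.1 ∈ B) :
    Nice k (fun q : P × (Fin n → ℝ) => c q.1) q := by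
  have hev : ∀ᶠ q' : P × (Fin n → ℝ) in 𝓝 q, q'.1 ∈ B :=
    continuous_fst.continuousAt.eventually (hB.mem_nhds hq)
  filter_upwards [hev] with q' hq'
  have h0 : AnalyticAt ℂ c q'.1 := MF.analyticAt_of_differentiableOn hB hc hq'
  refine ⟨(h0.restrictScalars (𝕜 := ℝ)).contDiffAt.comp q' contDiffAt_fst, fun η => ?_⟩
  have h1 : HasFDerivAt (fun q : P × (Fin n → ℝ) => c q.1)
      (((fderiv ℂ c q'.1).restrictScalars ℝ).comp (ContinuousLinearMap.fst ℝ P (Fin n → ℝ))) q' :=
    (h0.differentiableAt.hasFDerivAt.restrictScalars ℝ).comp q' hasFDerivAt_fst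
  rw [h1.fderiv]
  simp

/-- The derivative in the direction `c ∈ ℂ^n` of the real coordinates. -/
def dx (c : Fin n → ℂ) (F : P × (Fin n → ℝ) → E) (q : P × (Fin n → ℝ)) : E :=
  ∑ m, c m • fderiv ℝ F q (0, Pi.single m 1)

theorem dx_add_left (c c' : Fin n → ℂ) (F : P × (Fin n → ℝ) → E) (q : P × (Fin n → ℝ)) :
    dx (c + c') F q = dx c F q + dx c' F q := by
  simp [dx, add_smul, Finset.sum_add_distrib]

theorem dx_smul_left (s : ℂ) (c : Fin n → ℂ) (F : P × (Fin n → ℝ) → E) (q : P × (Fin n → ℝ)) :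
    dx (s • c) F q = s • dx c F q := by
  simp [dx, Finset.smul_sum, smul_smul]

theorem dx_zero_left (F : P × (Fin n → ℝ) → E) (q : P × (Fin n → ℝ)) :
    dx 0 F q = 0 := by simp [dx]

theorem dx_sum_left {J : Type*} (s : Finset J) (c : J → Fin n → ℂ) (F : P × (Fin n → ℝ) → E)
    (q : P × (Fin n → ℝ)) : dx (∑ j ∈ s, c j) F q = ∑ j ∈ s, dx (c j) F q := by
  classical
  induction s using Finset.induction_on with
  | empty => simp [dx_zero_left]
  | insert i s hi ih => rw [Finset.sum_insert hi, Finset.sum_insert hi, dx_add_left, ih]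

theorem dx_congr {F G : P × (Fin n → ℝ) → E} {q : P × (Fin n → ℝ)} (h : F =ᶠ[𝓝 q] G)
    (c : Fin n → ℂ) : dx c F q = dx c G q := by
  unfold dx
  rw [h.fderiv_eq]

theorem dx_add {F G : P × (Fin n → ℝ) → E} {q : P × (Fin n → ℝ)}
    (hF : DifferentiableAt ℝ F q) (hG : DifferentiableAt ℝ G q) (c : Fin n → ℂ) :
    dx c (fun q => F q + G q) q = dx c F q + dx c G q := by
  unfold dx
  rw [fderiv_fun_add hF hG, ← Finset.sum_add_distrib]
  simp [smul_add]

theorem dx_sub {F G : P × (Fin n → ℝ) → E} {q : P × (Fin n → ℝ)}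
    (hF : DifferentiableAt ℝ F q) (hG : DifferentiableAt ℝ G q) (c : Fin n → ℂ) :
    dx c (fun q => F q - G q) q = dx c F q - dx c G q := by
  unfold dx
  rw [fderiv_fun_sub hF hG, ← Finset.sum_sub_distrib]
  simp [smul_sub]

theorem dx_const (e : E) (q : P × (Fin n → ℝ)) (c : Fin n → ℂ) :
    dx c (fun _ => e) q = 0 := by
  simp [dx]

theorem dx_clm {F : P × (Fin n → ℝ) → E} {q : P × (Fin n → ℝ)}
    (hF' : DifferentiableAt ℝ F q) (L : E →L[ℂ] E') (c : Fin n → ℂ) :
    dx c (fun q => L (F q)) q = L (dx c F q) := by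
  have h : HasFDerivAt (fun q => L (F q)) ((L.restrictScalars ℝ).comp (fderiv ℝ F q)) q :=
    (L.restrictScalars ℝ).hasFDerivAt.comp q hF'.hasFDerivAt
  unfold dx
  rw [h.fderiv]
  simp [map_sum]

/-- A function of the parameter only. -/
theorem dx_of_y {c : P → E} {q : P × (Fin n → ℝ)} (hc : DifferentiableAt ℝ c q.1)
    (e : Fin n → ℂ) : dx e (fun q : P × (Fin n → ℝ) => c q.1) q = 0 := by
  have h1 : HasFDerivAt (fun q : P × (Fin n → ℝ) => c q.1)
      ((fderiv ℝ c q.1).comp (ContinuousLinearMap.fst ℝ P (Fin n → ℝ))) q :=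
    hc.hasFDerivAt.comp q hasFDerivAt_fst
  unfold dx
  rw [h1.fderiv]
  simp

/-- The directional derivatives of nice functions are nice. -/
theorem Nice.dx [FiniteDimensional ℂ P] {k : WithTop ℕ∞} {F : P × (Fin n → ℝ) → E}
    {q : P × (Fin n → ℝ)} (hF : Nice (k + 1) F q) (hk : 1 ≤ k) {c : P → Fin n → ℂ} {B : Set P}
    (hB : IsOpen B) (hc : ∀ m, DifferentiableOn ℂ (fun y => c y m) B) (hq : q.1 ∈ B) :
    Nice k (fun q => D.dx (c q.1) F q) q := by
  have h0 : ∀ m : Fin n, Nice k (fun q => fderiv ℝ F q (0, Pi.single m 1)) q := by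
    intro m
    filter_upwards [hF, eventually_eventually_nhds.2 hF] with q' h1 h2
    have h3 : ContDiffAt ℝ k (fderiv ℝ F) q' := h1.1.fderiv_right le_rfl
    have h4 : DifferentiableAt ℝ (fderiv ℝ F) q' := h3.differentiableAt (by
      intro h0
      rw [h0] at hk
      exact absurd hk (by simp))
    refine ⟨h3.clm_apply contDiffAt_const, fun η => ?_⟩
    have h5 : HasFDerivAt (fun q => fderiv ℝ F q (0, Pi.single m 1))
        ((ContinuousLinearMap.apply ℝ E ((0, Pi.single m 1) : P × (Fin n → ℝ))).comp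
          (fderiv ℝ (fderiv ℝ F) q')) q' :=
      (ContinuousLinearMap.apply ℝ E ((0, Pi.single m 1) : P × (Fin n → ℝ))).hasFDerivAt.comp q'
        h4.hasFDerivAt
    rw [h5.fderiv]
    simp only [ContinuousLinearMap.comp_apply, ContinuousLinearMap.apply_apply]
    -- symmetry
    have hsym : IsSymmSndFDerivAt ℝ F q' := by
      refine (h1.1.of_le (m := 2) ?_).isSymmSndFDerivAt (by simp)
      calc (2 : WithTop ℕ∞) = 1 + 1 := by norm_num
        _ ≤ k + 1 := by gcongr
    rw [hsym.eq, hsym.eq (η, 0)]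
    -- differentiate the Cauchy-Riemann equations
    have h6 : (fun q => fderiv ℝ F q (Complex.I • η, 0)) =ᶠ[𝓝 q']
        fun q => Complex.I • fderiv ℝ F q (η, 0) := by
      filter_upwards [h2] with q'' h using h.2 η
    have h7 : ∀ v : P × (Fin n → ℝ), HasFDerivAt (fun q => fderiv ℝ F q v)
        ((ContinuousLinearMap.apply ℝ E v).comp (fderiv ℝ (fderiv ℝ F) q')) q' := fun v =>
      (ContinuousLinearMap.apply ℝ E v).hasFDerivAt.comp q' h4.hasFDerivAt
    have h8 := Filter.EventuallyEq.fderiv_eq (𝕜 := ℝ) h6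
    rw [(h7 _).fderiv, fderiv_fun_const_smul (h7 _).differentiableAt, (h7 _).fderiv] at h8
    have h9 := congrArg (fun A : (P × (Fin n → ℝ)) →L[ℝ] E => A (0, Pi.single m 1)) h8
    simpa using h9
  refine Nice.sum hk Finset.univ fun m _ => ?_
  exact (nice_of_y hB (hc m) hq).smul hk (h0 m)

/-- The Cauchy-Riemann equations and complex differentiability in the parameter. -/
theorem cr_of_diff {F : P × (Fin n → ℝ) → E} {q : P × (Fin n → ℝ)}
    (hF : DifferentiableAt ℝ F q) (h : DifferentiableAt ℂ (fun y => F (y, q.2)) q.1) :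
    CR F q := by
  intro η
  have h1 : HasFDerivAt (fun y : P => F (y, q.2))
      ((fderiv ℝ F q).comp (ContinuousLinearMap.inl ℝ P (Fin n → ℝ))) q.1 := by
    have h2 : HasFDerivAt F (fderiv ℝ F q) (q.1, q.2) := hF.hasFDerivAt
    exact h2.comp q.1 (hasFDerivAt_prodMk_left q.1 q.2)
  have h3 := h.hasFDerivAt.restrictScalars ℝ
  have h4 := h1.unique h3
  have h5 : ∀ v, fderiv ℝ F q (v, 0) = fderiv ℂ (fun y => F (y, q.2)) q.1 v := by
    intro v
    have := congrArg (fun A : P →L[ℝ] E => A v) h4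
    simpa using this
  rw [h5, h5, map_smul]

/-- A real linear map which commutes with `i` is complex linear. -/
theorem hasFDerivAt_of_real {G : Type*} [NormedAddCommGroup G] [NormedSpace ℂ G] {f : G → E}
    {x : G} (hf : DifferentiableAt ℝ f x)
    (h : ∀ v, fderiv ℝ f x (Complex.I • v) = Complex.I • fderiv ℝ f x v) :
    DifferentiableAt ℂ f x := by
  have hlin : ∀ (c : ℂ) (v : G), fderiv ℝ f x (c • v) = c • fderiv ℝ f x v := by
    intro c v
    have h1 : c • v = (c.re : ℝ) • v + (c.im : ℝ) • (Complex.I • v) := by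
      rw [← Complex.coe_smul c.re, ← Complex.coe_smul c.im, smul_smul, ← add_smul]
      congr 1
      exact (Complex.re_add_im c).symm
    rw [h1, map_add, map_smul, map_smul, h, ← Complex.coe_smul c.re, ← Complex.coe_smul c.im,
      smul_smul, ← add_smul]
    congr 1
    exact Complex.re_add_im c
  let A : G →L[ℂ] E :=
    { toFun := fun v => fderiv ℝ f x v
      map_add' := fun v w => map_add _ v w
      map_smul' := fun c v => hlin c v
      cont := (fderiv ℝ f x).continuous }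
  have hA : HasFDerivAt f A x := by
    refine hasFDerivAt_of_restrictScalars ℝ hf.hasFDerivAt ?_
    ext v
    rfl
  exact hA.differentiableAt

theorem CR.differentiableAt {F : P × (Fin n → ℝ) → E} {q : P × (Fin n → ℝ)}
    (hF : DifferentiableAt ℝ F q) (h : CR F q) :
    DifferentiableAt ℂ (fun y => F (y, q.2)) q.1 := by
  have h1 : HasFDerivAt (fun y : P => F (y, q.2))
      ((fderiv ℝ F q).comp (ContinuousLinearMap.inl ℝ P (Fin n → ℝ))) q.1 := by
    have h2 : HasFDerivAt F (fderiv ℝ F q) (q.1, q.2) := hF.hasFDerivAt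
    exact h2.comp q.1 (hasFDerivAt_prodMk_left q.1 q.2)
  refine hasFDerivAt_of_real h1.differentiableAt fun v => ?_
  rw [h1.fderiv]
  simpa using h v

end Vale.Agent.P281.H125.D
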