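import Vale.Agent.P281.H125.D.Tau

/-!
# P281, T-Delta, block D2a (helper125): the second and third logarithmic derivatives `w`, `φ`
-/

open Set Filter Metric Topology
open scoped ContDiff

noncomputable section

namespace Vale.Agent.P281.H125.D

variable {n : ℕ} {V : Type*} [NormedAddCommGroup V] [NormedSpace ℂ V]
variable {P : Type*} [NormedAddCommGroup P] [NormedSpace ℂ P]
variable {E : Type*} [NormedAddCommGroup E] [NormedSpace ℂ E]

/-- The derivative along the fibre. -/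
def dV (F : P × V → E) (w : P × V) : V →L[ℂ] E :=
  (fderiv ℂ F w).comp (ContinuousLinearMap.inr ℂ P V)

theorem dV_apply (F : P × V → E) (w : P × V) (v : V) : dV F w v = fderiv ℂ F w (0, v) := rfl

theorem dV_congr {F G : P × V → E} {w : P × V} (h : F =ᶠ[𝓝 w] G) : dV F w = dV G w := by
  unfold dV
  rw [h.fderiv_eq]

theorem dV_add {F G : P × V → E} {w : P × V} (hF : DifferentiableAt ℂ F w)
    (hG : DifferentiableAt ℂ G w) : dV (fun w => F w + G w) w = dV F w + dV G w := by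
  unfold dV
  rw [fderiv_fun_add hF hG]
  rfl

theorem dV_analytic [FiniteDimensional ℂ P] [FiniteDimensional ℂ V] [CompleteSpace E]
    {F : P × V → E} {w : P × V} (hF : AnalyticAt ℂ F w) : AnalyticAt ℂ (dV F) w :=
  ((ContinuousLinearMap.compL ℂ V (P × V) E).flip
      (ContinuousLinearMap.inr ℂ P V)).analyticAt _ |>.comp hF.fderiv

/-- The derivative along the fibre is the derivative of the restriction to the fibre. -/
theorem dV_slice {F : P × V → E} {y : P} {z : V} (hF : DifferentiableAt ℂ F (y, z)) :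
    dV F (y, z) = fderiv ℂ (fun z => F (y, z)) z :=
  ((hF.hasFDerivAt.comp z (hasFDerivAt_prodMk_right y z)).fderiv).symm

/-- The second logarithmic derivative: `τ` in the direction `R v`. -/
def wW (π : P → ((Fin n → ℝ) ≃L[ℝ] V)) (R : P → (V →L[ℂ] (Fin n → ℂ)))
    (τ : P × (Fin n → ℝ) → (V →L[ℂ] ℂ)) (w : P × V) : V →L[ℂ] V →L[ℂ] ℂ :=
  (pc ((fderiv ℝ τ (ti π w)).comp (ContinuousLinearMap.inr ℝ P (Fin n → ℝ)))).comp (R w.1)

theorem wW_apply (π : P → ((Fin n → ℝ) ≃L[ℝ] V)) (R : P → (V →L[ℂ] (Fin n → ℂ)))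
    (τ : P × (Fin n → ℝ) → (V →L[ℂ] ℂ)) (w : P × V) (v : V) :
    wW π R τ w v = dx (R w.1 v) τ (ti π w) := by
  unfold wW
  rw [ContinuousLinearMap.comp_apply, pc_apply]
  rfl

section Liouville

variable [FiniteDimensional ℂ V]

/-- A function on `V ∖ D` which extends holomorphically near every point of `V` and is periodic is
constant. -/
theorem const_of_periodic [CompleteSpace E] {e : (Fin n → ℝ) ≃L[ℝ] V} {D : Set V}
    (hDn : ∀ z, ¬ ∀ᶠ z' in 𝓝 z, z' ∈ D) (hDp : ∀ z k, z ∉ D → z + e (zr k) ∉ D) {F : V → E}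
    (hloc : ∀ z, ∃ A : V → E, AnalyticAt ℂ A z ∧ ∀ᶠ z' in 𝓝 z, z' ∉ D → F z' = A z')
    (hper : ∀ z k, z ∉ D → F (z + e (zr k)) = F z) : ∃ c, ∀ z, z ∉ D → F z = c := by
  choose A hA hAF using hloc
  -- functions continuous near `z` which agree off `D` agree at `z`
  have huniq : ∀ (f g : V → E) (z : V), ContinuousAt f z → ContinuousAt g z →
      (∀ᶠ z' in 𝓝 z, z' ∉ D → f z' = g z') → f z = g z := by
    intro f g z hf hg h
    by_contra hne
    have h1 : ∀ᶠ z' in 𝓝 z, f z' - g z' ≠ 0 := (hf.sub hg).eventually_ne (sub_ne_zero.2 hne)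
    refine hDn z ?_
    filter_upwards [h, h1] with z' h2 h3
    by_contra h4
    exact h3 (sub_eq_zero.2 (h2 h4))
  let G : V → E := fun z => A z z
  have hG : ∀ z, G =ᶠ[𝓝 z] A z := by
    intro z
    filter_upwards [(hA z).eventually_analyticAt, eventually_eventually_nhds.2 (hAF z)] with z' h1 h2
    refine huniq (A z') (A z) z' (hA z').continuousAt h1.continuousAt ?_
    filter_upwards [h2, hAF z'] with z'' h3 h4 h5
    rw [← h3 h5, ← h4 h5]
  have hGa : ∀ z, AnalyticAt ℂ G z := fun z => (hA z).congr (hG z).symm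
  have hGF : ∀ z, z ∉ D → F z = G z := fun z hz => (hAF z).self_of_nhds hz
  have hGp : ∀ z k, G (z + e (zr k)) = G z := by
    intro z k
    refine huniq (fun z => G (z + e (zr k))) G z ?_ (hGa z).continuousAt ?_
    · exact ContinuousAt.comp (g := G) (f := fun z => z + e (zr k)) (hGa _).continuousAt
        (by fun_prop)
    · filter_upwards with z' hz'
      rw [← hGF _ hz', ← hGF _ (hDp z' k hz'), hper z' k hz']
  have hGd : Differentiable ℂ G := fun z => (hGa z).differentiableAt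
  have hb : Bornology.IsBounded (range G) := by
    have hK : IsCompact (G '' (e '' Icc (0 : Fin n → ℝ) 1)) :=
      (isCompact_Icc.image e.continuous).image hGd.continuous
    refine hK.isBounded.subset ?_
    rintro _ ⟨z, rfl⟩
    set x := e.symm z with hx
    let k : Fin n → ℤ := fun m => ⌊x m⌋
    have hx' : x + zr (-k) ∈ Icc (0 : Fin n → ℝ) 1 := by
      refine ⟨fun m => ?_, fun m => ?_⟩
      · simp only [Pi.zero_apply, Pi.add_apply, zr_apply, Pi.neg_apply, Int.cast_neg, k]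
        linarith [Int.floor_le (x m)]
      · simp only [Pi.one_apply, Pi.add_apply, zr_apply, Pi.neg_apply, Int.cast_neg, k]
        linarith [(Int.lt_floor_add_one (x m)).le]
    refine ⟨e (x + zr (-k)), mem_image_of_mem e hx', ?_⟩
    rw [map_add, hx, e.apply_symm_apply, hGp]
  refine ⟨G 0, fun z hz => ?_⟩
  rw [hGF z hz]
  exact hGd.apply_eq_apply_of_bounded hb z 0

end Liouville

variable [FiniteDimensional ℂ P] [FiniteDimensional ℂ V]

section
variable {π : P → ((Fin n → ℝ) ≃L[ℝ] V)} {T : Set P} {Z : Set (P × V)}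
    {Le : P × V → (P × V → ℂ) → Prop}

/-- What `exists_tau` gives. -/
structure IsTau (π : P → ((Fin n → ℝ) ≃L[ℝ] V)) (Z : Set (P × V))
    (Le : P × V → (P × V → ℂ) → Prop) (B : Set P) {J : Type} [Fintype J]
    (a : P → J → Fin n → ℂ) (R : P → (V →L[ℂ] (Fin n → ℂ)))
    (τ : P × (Fin n → ℝ) → (V →L[ℂ] ℂ)) (κ : P → J → (V →L[ℂ] ℂ)) : Prop where
  isOpen : IsOpen B
  frame : Frame π B J a R
  per : ∀ y ∈ B, ∀ x k, τ (y, x + zr k) = τ (y, x)
  hol : ∀ j, DifferentiableOn ℂ (fun y => κ y j) B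
  loc : ∀ q : P × (Fin n → ℝ), q.1 ∈ B → ∀ h, Le (th π q) h →
    ∃ ρ : P × (Fin n → ℝ) → (V →L[ℂ] ℂ), Nice ∞ ρ q ∧
      (∀ᶠ q' in 𝓝 q, th π q' ∉ Z → τ q' = dl h (th π q') + ρ q') ∧
      ∀ᶠ q' in 𝓝 q, ∀ j, dx (a q'.1 j) ρ q' = κ q'.1 j

/-- What we prove about the second logarithmic derivative `w`. -/
structure IsW (π : P → ((Fin n → ℝ) ≃L[ℝ] V)) (Z : Set (P × V))
    (Le : P × V → (P × V → ℂ) → Prop) (B : Set P) (w : P × V → (V →L[ℂ] V →L[ℂ] ℂ)) : Prop where
  isOpen : IsOpen B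
  per : ∀ p : P × V, p.1 ∈ B → ∀ k, w (tr π k p) = w p
  loc : ∀ p : P × V, p.1 ∈ B → ∀ h, Le p h → ∃ A : P × V → (V →L[ℂ] V →L[ℂ] ℂ),
    AnalyticAt ℂ A p ∧ ∀ᶠ p' in 𝓝 p, p' ∉ Z → w p' = dV (dl h) p' + A p'

theorem IsTau.isW (hD : DivDatum π T Z Le) (hT : IsOpen T) (hπ : HolPer π T) {B : Set P}
    (hBT : B ⊆ T) {J : Type} [Fintype J]
    {a : P → J → Fin n → ℂ} {R : P → (V →L[ℂ] (Fin n → ℂ))}
    {τ : P × (Fin n → ℝ) → (V →L[ℂ] ℂ)} {κ : P → J → (V →L[ℂ] ℂ)}
    (h : IsTau π Z Le B a R τ κ) : IsW π Z Le B (wW π R τ) where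
  isOpen := h.isOpen
  per p hp k := by
    ext1 v
    rw [wW_apply, wW_apply]
    have h1 : ti π (tr π k p) = ((ti π p).1, (ti π p).2 + zr k) := by
      simp [ti, tr, map_add]
    rw [h1]
    change dx (R p.1 v) τ _ = _
    unfold dx
    have h2 : fderiv ℝ τ ((ti π p).1, (ti π p).2 + zr k) = fderiv ℝ τ (ti π p) := by
      have h3 : (fun q : P × (Fin n → ℝ) => τ (q + ((0 : P), zr k))) =ᶠ[𝓝 (ti π p)] τ := by
        have e1 : ∀ᶠ q' : P × (Fin n → ℝ) in 𝓝 (ti π p), q'.1 ∈ B :=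
          continuous_fst.continuousAt.eventually (h.isOpen.mem_nhds hp)
        filter_upwards [e1] with q hq
        have : q + ((0 : P), zr k) = (q.1, q.2 + zr k) := by
          ext <;> simp
        rw [this, h.per q.1 hq]
      have h4 : ((ti π p).1, (ti π p).2 + zr k) = ti π p + ((0 : P), zr k) := by
        ext <;> simp
      rw [h4, ← fderiv_comp_add_right, h3.fderiv_eq]
    rw [h2]
  loc p hp h₀ hh₀ := by
    classical
    have hpT : p.1 ∈ T := hBT hp
    obtain ⟨ρ, hρ1, hρ2, hρ3⟩ := h.loc (ti π p) hp h₀ (by rwa [th_ti])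
    let bV := Module.finBasis ℂ V
    let cr : Fin (Module.finrank ℂ V) → (V →L[ℂ] ℂ) := fun i =>
      LinearMap.toContinuousLinearMap (bV.coord i)
    have hcr : ∀ (W : Type _) [NormedAddCommGroup W] [NormedSpace ℂ W] (L : V →L[ℂ] W),
        L = ∑ i, (cr i).smulRight (L (bV i)) := by
      intro W _ _ L
      ext v
      have h1 : v = ∑ i, bV.repr v i • bV i := (bV.sum_repr v).symm
      conv_lhs => rw [h1]
      rw [map_sum, sum_apply]
      refine Finset.sum_congr rfl fun i _ => ?_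
      rw [map_smul]
      rfl
    have hRv : ∀ v m, DifferentiableOn ℂ (fun y => R y v m) B := by
      intro v m
      have h1 : DifferentiableOn ℂ (fun y => R y v) B :=
        h.frame.holR.clm_apply (differentiableOn_const _)
      exact (ContinuousLinearMap.proj (R := ℂ) (φ := fun _ : Fin n => ℂ) m).differentiable.comp_differentiableOn h1
    have hAv : ∀ v, AnalyticAt ℂ (fun p => dx (R p.1 v) ρ (ti π p)) p := by
      intro v
      have : CompleteSpace (V →L[ℂ] ℂ) := FiniteDimensional.complete ℂ _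
      have h1 : Nice ∞ (fun q => dx (R q.1 v) ρ q) (ti π p) :=
        Nice.dx (k := ∞) (c := fun y => R y v) hρ1 (by simp) h.isOpen (hRv v) hp
      refine analyticAt_of_nice hT hπ (k := ∞) (by simp)
        (F := fun q => dx (R q.1 v) ρ q) hpT h1 ?_
      have e1 : ∀ᶠ q' : P × (Fin n → ℝ) in 𝓝 (ti π p), q'.1 ∈ B :=
        continuous_fst.continuousAt.eventually (h.isOpen.mem_nhds hp)
      filter_upwards [e1, hρ1, eventually_eventually_nhds.2 hρ3] with q f1 f2 f3 c hc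
      obtain ⟨s, hs⟩ := h.frame.span q.1 f1 c hc
      rw [hs, dx_sum_left]
      refine Finset.sum_eq_zero fun j _ => ?_
      rw [dx_smul_left]
      have h2 : dx (a q.1 j) (fun q => dx (R q.1 v) ρ q) q =
          dx (R q.1 v) (fun q => dx (a q.1 j) ρ q) q :=
        dx_dx_comm (a := fun y => R y v) (b := fun y => a y j)
          (f2.1.of_le ENat.LEInfty.out)
          (fun l => ((hRv v l).differentiableAt (h.isOpen.mem_nhds f1)).restrictScalars ℝ)
          (fun l => ((h.frame.hola j l).differentiableAt (h.isOpen.mem_nhds f1)).restrictScalars ℝ)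
      have h3 : (fun q : P × (Fin n → ℝ) => dx (a q.1 j) ρ q) =ᶠ[𝓝 q] fun q => κ q.1 j := by
        filter_upwards [f3] with q' h4 using h4 j
      have h5 : DifferentiableAt ℝ (fun y => κ y j) q.1 :=
        ((h.hol j).differentiableAt (h.isOpen.mem_nhds f1)).restrictScalars ℝ
      rw [h2, dx_congr h3, dx_of_y (c := fun y => κ y j) h5]
      exact smul_zero _
    refine ⟨fun p => ∑ i, (cr i).smulRight (dx (R p.1 (bV i)) ρ (ti π p)), ?_, ?_⟩
    · refine Finset.analyticAt_fun_sum _ fun i _ => ?_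
      have hL := ContinuousLinearMap.analyticAt (𝕜 := ℂ) (E := V →L[ℂ] ℂ)
        (F := V →L[ℂ] V →L[ℂ] ℂ) (ContinuousLinearMap.smulRightL ℂ V (V →L[ℂ] ℂ) (cr i))
        (dx (R p.1 (bV i)) ρ (ti π p))
      exact AnalyticAt.fun_comp (f := fun p : P × V => dx (R p.1 (bV i)) ρ (ti π p)) hL
        (hAv (bV i))
    · have hti := continuousAt_ti hT hπ hpT
      have e1 : ∀ᶠ p' : P × V in 𝓝 p, p'.1 ∈ B :=
        continuous_fst.continuousAt.eventually (h.isOpen.mem_nhds hp)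
      filter_upwards [e1, hti.eventually hρ1, hti.eventually (eventually_eventually_nhds.2 hρ2),
        (hD.an _ _ hh₀).eventually_analyticAt, hD.zero _ _ hh₀] with p' f1 f2 f3 f4 f5 hZ
      have g1 : h₀ p' ≠ 0 := fun h0 => hZ (f5.1 h0)
      have g2 := dl_analytic f4 g1
      have g3 : ∀ᶠ q' in 𝓝 (ti π p'), th π q' ∉ Z := by
        have := (continuousAt_th hT hπ (q := ti π p') (hBT f1))
        rw [ContinuousAt, th_ti] at this
        exact this.eventually (off_nhds hD (hBT f1) hZ)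
      have g4 : τ =ᶠ[𝓝 (ti π p')] fun q' => dl h₀ (th π q') + ρ q' := by
        filter_upwards [f3, g3] with q' h1 h2 using h1 h2
      have g5 : AnalyticAt ℂ (dl h₀) (th π (ti π p')) := by rwa [th_ti]
      have g6 : DifferentiableAt ℝ (fun q' => dl h₀ (th π q')) (ti π p') :=
        ContDiffAt.diffOne (nice_pull (k := 1) hT hπ (q := ti π p') (hBT f1) g5).contDiffAt le_rfl
      have g7 : DifferentiableAt ℝ ρ (ti π p') := ContDiffAt.diffOne f2.1 (by simp)
      ext1 v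
      rw [wW_apply, dx_congr g4, dx_add g6 g7,
        dx_pull hT hπ (q := ti π p') (hBT f1) g5.differentiableAt]
      have g8 : pcE (π (ti π p').1) (R p'.1 v) = v := h.frame.right p'.1 f1 v
      rw [g8, th_ti]
      have g9 : (∑ i, (cr i).smulRight (dx (R p'.1 (bV i)) ρ (ti π p'))) v =
          dx (R p'.1 v) ρ (ti π p') := by
        have h1 := hcr (V →L[ℂ] ℂ) (wW π R ρ p')
        have h2 : ∀ i, dx (R p'.1 (bV i)) ρ (ti π p') = wW π R ρ p' (bV i) := fun i =>
          (wW_apply π R ρ p' (bV i)).symm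
        rw [Finset.sum_congr rfl fun i _ => by rw [h2 i], ← h1, wW_apply]
      rw [add_apply, g9]
      rfl

/-- **D2a**: existence of the second logarithmic derivatives. -/
theorem exists_w (hD : DivDatum π T Z Le) (hT : IsOpen T) (hπ : HolPer π T) {y₀ : P}
    (hy₀ : y₀ ∈ T) : ∃ (B : Set P) (w : P × V → (V →L[ℂ] V →L[ℂ] ℂ)), y₀ ∈ B ∧ B ⊆ T ∧
      IsW π Z Le B w := by
  obtain ⟨B, J, iJ, a, R, τ, κ, h1, h2, h3, h4, h5, h6, h7⟩ := exists_tau hD hT hπ hy₀
  exact ⟨B, wW π R τ, h2, h3, IsTau.isW hD hT hπ h3 ⟨h1, h4, h5, h6, h7⟩⟩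

theorem IsW.an (hD : DivDatum π T Z Le) {B : Set P} (hBT : B ⊆ T)
    {w : P × V → (V →L[ℂ] V →L[ℂ] ℂ)} (h : IsW π Z Le B w) {p : P × V} (hp : p.1 ∈ B)
    (hZ : p ∉ Z) : AnalyticAt ℂ w p := by
  have : CompleteSpace (V →L[ℂ] ℂ) := FiniteDimensional.complete ℂ _
  obtain ⟨h₀, hh₀⟩ := hD.ex p (hBT hp)
  obtain ⟨A, hA, hA'⟩ := h.loc p hp h₀ hh₀
  have g1 : h₀ p ≠ 0 := fun h0 => hZ ((hD.zero _ _ hh₀).self_of_nhds.1 h0)
  have g2 := dV_analytic (dl_analytic (hD.an _ _ hh₀) g1)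
  refine (g2.add hA).congr ?_
  filter_upwards [hA', off_nhds hD (hBT hp) hZ] with p' h1 h2
  exact (h1 h2).symm

omit [FiniteDimensional ℂ P] [FiniteDimensional ℂ V] in
theorem DivDatum.perZ (hD : DivDatum π T Z Le) {p : P × V} (hp : p.1 ∈ T) (k : Fin n → ℤ)
    (hZ : p ∉ Z) : tr π k p ∉ Z := by
  intro hZ'
  obtain ⟨h, hh⟩ := hD.ex p hp
  have h1 := (hD.zero _ _ (hD.per _ _ hp hh k)).self_of_nhds.2 hZ'
  rw [tr_neg_tr] at h1
  exact hZ ((hD.zero _ _ hh).self_of_nhds.1 h1)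

omit [FiniteDimensional ℂ P] [FiniteDimensional ℂ V] [NormedSpace ℂ V] [NormedSpace ℂ P] in
theorem prod_tendsto (y : P) (z : V) : Tendsto (fun z' : V => (y, z')) (𝓝 z) (𝓝 (y, z)) :=
  (by fun_prop : Continuous fun z' : V => (y, z')).tendsto z

omit [FiniteDimensional ℂ P] [FiniteDimensional ℂ V] in
/-- On a fibre not contained in `Z`, the divisor is nowhere dense. -/
theorem DivDatum.slice_dense (hD : DivDatum π T Z Le) {y : P} (hy : y ∈ T) {z₀ : V}
    (hz₀ : (y, z₀) ∉ Z) (z : V) : ¬ ∀ᶠ z' in 𝓝 z, (y, z') ∈ Z := by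
  intro hcon
  let S : Set V := {z | ∀ᶠ z' in 𝓝 z, (y, z') ∈ Z}
  have hSo : IsOpen S := by
    rw [isOpen_iff_mem_nhds]
    intro z hz
    exact eventually_eventually_nhds.2 hz
  have hSc : IsClosed S := by
    rw [← isOpen_compl_iff, isOpen_iff_mem_nhds]
    intro z₁ hz₁
    by_contra hnot
    -- `z₁` is in the closure of `S`
    have hfreq : ∃ᶠ z' in 𝓝 z₁, z' ∈ S := by
      intro h
      exact hnot h
    apply hz₁
    obtain ⟨h, hh⟩ := hD.ex (y, z₁) hy
    have ha : AnalyticAt ℂ (fun z' => h (y, z')) z₁ :=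
      AnalyticAt.comp' (f := fun z' : V => (y, z')) (hD.an _ _ hh)
        (analyticAt_const.prod analyticAt_id)
    have hzero : ∀ᶠ z' in 𝓝 z₁, h (y, z') = 0 ↔ (y, z') ∈ Z :=
      (prod_tendsto y z₁).eventually (hD.zero _ _ hh)
    obtain ⟨r, hr, hball⟩ := Metric.eventually_nhds_iff_ball.1
      (ha.eventually_analyticAt.and (hzero))
    obtain ⟨z₂, hz₂, hz₂S⟩ : ∃ z₂ ∈ ball z₁ r, z₂ ∈ S := by
      obtain ⟨z₂, h1, h2⟩ := (hfreq.and_eventually (ball_mem_nhds z₁ hr)).exists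
      exact ⟨z₂, h2, h1⟩
    have han : AnalyticOnNhd ℂ (fun z' => h (y, z')) (ball z₁ r) := fun z' hz' => (hball z' hz').1
    have hz2 : (fun z' => h (y, z')) =ᶠ[𝓝 z₂] 0 := by
      have h1 : ∀ᶠ z' in 𝓝 z₂, z' ∈ ball z₁ r := isOpen_ball.mem_nhds hz₂
      have h2 : ∀ᶠ z' in 𝓝 z₂, (y, z') ∈ Z := hz₂S
      filter_upwards [h1, h2] with z' h3 h4
      exact (hball z' h3).2.2 h4
    have hEq := han.eqOn_zero_of_preconnected_of_eventuallyEq_zero
      (convex_ball z₁ r).isPreconnected hz₂ hz2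
    change ∀ᶠ z' in 𝓝 z₁, (y, z') ∈ Z
    filter_upwards [ball_mem_nhds z₁ hr] with z' hz'
    exact (hball z' hz').2.1 (hEq hz')
  have hSall : S = univ :=
    IsClopen.eq_univ ⟨hSc, hSo⟩ ⟨z, hcon⟩
  have h0 : z₀ ∈ S := by
    rw [hSall]
    exact mem_univ _
  have h0' : ∀ᶠ z' in 𝓝 z₀, (y, z') ∈ Z := h0
  exact hz₀ h0'.self_of_nhds

end

end Vale.Agent.P281.H125.D
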