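import Vale.Agent.P281.H125.D.Can
import Vale.Agent.P281.H349.D.Pole

/-!
# P281, T-Delta (helper125): poles of the third logarithmic derivatives; trilinear forms
-/

open Set Filter Metric Topology
open scoped ContDiff ComplexConjugate

noncomputable section

namespace Vale.Agent.P281.H125.D

variable {n : ℕ} {V : Type*} [NormedAddCommGroup V] [NormedSpace ℂ V]
variable {P : Type*} [NormedAddCommGroup P] [NormedSpace ℂ P]
variable {W : Type*} [NormedAddCommGroup W] [NormedSpace ℂ W]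

instance k3 : SMul ℂ (V →L[ℂ] V →L[ℂ] V →L[ℂ] ℂ) := H349.D.i3'.toModule.toSMul

/-! ### Currying -/

/-- One step of uncurrying. -/
def curS {m : ℕ} (F : W →L[ℂ] (V [×m]→L[ℂ] ℂ)) : (V →L[ℂ] W) →L[ℂ] (V [×(m + 1)]→L[ℂ] ℂ) :=
  ((continuousMultilinearCurryLeftEquiv ℂ (fun _ : Fin (m + 1) => V) ℂ).symm.toContinuousLinearEquiv
    : (V →L[ℂ] (V [×m]→L[ℂ] ℂ)) →L[ℂ] (V [×(m + 1)]→L[ℂ] ℂ)) ∘L
    (ContinuousLinearMap.compL ℂ V W (V [×m]→L[ℂ] ℂ) F)

theorem curS_apply {m : ℕ} (F : W →L[ℂ] (V [×m]→L[ℂ] ℂ)) (φ : V →L[ℂ] W) (v : Fin (m + 1) → V) :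
    curS F φ v = F (φ (v 0)) (Fin.tail v) := rfl

/-- The constants. -/
def cur0 : ℂ →L[ℂ] (V [×0]→L[ℂ] ℂ) :=
  ((continuousMultilinearCurryFin0 ℂ V ℂ).symm.toContinuousLinearEquiv :
    ℂ →L[ℂ] (V [×0]→L[ℂ] ℂ))

theorem cur0_apply (c : ℂ) (v : Fin 0 → V) : (cur0 (V := V) c) v = c := rfl

/-- Trilinear forms as multilinear maps. -/
def cubL : (V →L[ℂ] V →L[ℂ] V →L[ℂ] ℂ) →L[ℂ] (V [×3]→L[ℂ] ℂ) := curS (curS (curS cur0))

theorem cubL_apply (φ : V →L[ℂ] V →L[ℂ] V →L[ℂ] ℂ) (x y z : V) : cubL φ ![x, y, z] = φ x y z := by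
  unfold cubL
  rw [curS_apply, curS_apply, curS_apply, cur0_apply]
  rfl

theorem cubL_apply' (φ : V →L[ℂ] V →L[ℂ] V →L[ℂ] ℂ) (v : Fin 3 → V) :
    cubL φ v = φ (v 0) (v 1) (v 2) := by
  unfold cubL
  rw [curS_apply, curS_apply, curS_apply, cur0_apply]
  rfl

/-! ### Poles -/

theorem analyticAt_of_ev [FiniteDimensional ℂ V] [CompleteSpace W] {F : V → W} {z : V}
    (h : ∀ᶠ z' in 𝓝 z, DifferentiableAt ℂ F z') : AnalyticAt ℂ F z := by
  obtain ⟨U, hUs, hUo, hwU⟩ := _root_.mem_nhds_iff.1 h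
  exact MF.analyticAt_of_differentiableOn hUo
    (fun w' hw' => (hUs hw').differentiableWithinAt) hwU

/-- The order of the pole increases by one by differentiation. -/
theorem mero_dV [FiniteDimensional ℂ P] [FiniteDimensional ℂ V] [CompleteSpace W]
    {h : P × V → ℂ} {F G : P × V → W} {p : P × V} {k : ℕ} (hh : AnalyticAt ℂ h p)
    (hG : AnalyticAt ℂ G p) (hF : ∀ᶠ q in 𝓝 p, h q ≠ 0 → h q ^ k • F q = G q) :
    ∃ G' : P × V → (V →L[ℂ] W), AnalyticAt ℂ G' p ∧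
      ∀ᶠ q in 𝓝 p, h q ≠ 0 → h q ^ (k + 1) • dV F q = G' q := by
  have : CompleteSpace (V →L[ℂ] W) := inferInstance
  refine ⟨fun q => h q • dV G q - (k : ℂ) • (dV h q).smulRight (G q), ?_, ?_⟩
  · have h1 := dV_analytic hG
    have h2 := dV_analytic hh
    have h3 : AnalyticAt ℂ (fun q => h q • dV G q) p := hh.smul h1
    refine h3.sub ?_
    refine analyticAt_of_ev ?_
    filter_upwards [h2.eventually_analyticAt, hG.eventually_analyticAt] with q f1 f2
    have e0 := ContinuousLinearMap.analyticAt (𝕜 := ℂ) (E := V →L[ℂ] ℂ)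
      (F := W →L[ℂ] V →L[ℂ] W) (ContinuousLinearMap.smulRightL ℂ V W) (dV h q)
    have e1 : AnalyticAt ℂ (fun q => ContinuousLinearMap.smulRightL ℂ V W (dV h q)) q :=
      AnalyticAt.fun_comp (f := dV h) e0 f1
    exact (e1.differentiableAt.clm_apply f2.differentiableAt).const_smul (k : ℂ)
  · filter_upwards [eventually_eventually_nhds.2 hF, hh.eventually_analyticAt,
      hG.eventually_analyticAt] with q f1 f2 f3 hq
    -- near `q`, `F` is analytic
    have e1 : ∀ᶠ q' in 𝓝 q, h q' ≠ 0 := f2.continuousAt.eventually_ne hq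
    have e2 : F =ᶠ[𝓝 q] fun q' => (h q' ^ k)⁻¹ • G q' := by
      filter_upwards [f1, e1] with q' g1 g2
      rw [← g1 g2, inv_smul_smul₀ (pow_ne_zero k g2)]
    have hFa : AnalyticAt ℂ F q :=
      (((f2.pow k).inv (pow_ne_zero k hq)).smul f3).congr e2.symm
    have e3 : (fun q' => h q' ^ k • F q') =ᶠ[𝓝 q] G := by
      filter_upwards [f1, e1] with q' g1 g2 using g1 g2
    have e4 : HasFDerivAt (fun q' => h q' ^ k • F q')
        (h q ^ k • fderiv ℂ F q + ((k * h q ^ (k - 1)) • fderiv ℂ h q).smulRight (F q)) q := by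
      have h8 : HasFDerivAt (fun q' => h q' ^ k) ((k * h q ^ (k - 1)) • fderiv ℂ h q) q := by
        have := f2.differentiableAt.hasFDerivAt.pow k
        simpa [nsmul_eq_mul] using this
      exact h8.smul hFa.differentiableAt.hasFDerivAt
    have e5 := e3.fderiv_eq (𝕜 := ℂ)
    rw [e4.fderiv] at e5
    have hFq : h q ^ k • F q = G q := f1.self_of_nhds hq
    ext v
    have e6 := congrArg (fun A : (P × V) →L[ℂ] W => A (0, v)) e5
    simp only [add_apply, smul_apply, ContinuousLinearMap.smulRight_apply] at e6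
    change h q ^ (k + 1) • dV F q v = h q • dV G q v - (k : ℂ) • (dV h q v • G q)
    rw [dV_apply, dV_apply, dV_apply, ← e6, ← hFq, smul_add, smul_smul, smul_smul, smul_smul,
      smul_smul, smul_eq_mul, pow_succ']
    rcases Nat.eq_zero_or_pos k with hk | hk
    · subst hk
      simp
    · have h7 : h q * (↑k * h q ^ (k - 1) * fderiv ℂ h q (0, v)) =
          (k : ℂ) * (fderiv ℂ h q (0, v) * h q ^ k) := by
        obtain ⟨m, rfl⟩ : ∃ m, k = m + 1 := ⟨k - 1, by omega⟩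
        simp only [Nat.add_sub_cancel]
        ring
      rw [h7]
      have h8 : (k : ℂ) * fderiv ℂ h q (0, v) * h q ^ k =
          (k : ℂ) * (fderiv ℂ h q (0, v) * h q ^ k) := by ring
      rw [h8]
      abel

set_option synthInstance.maxHeartbeats 200000 in
/-- The third logarithmic derivatives have poles of order at most three. -/
theorem IsW.pole [FiniteDimensional ℂ P] [FiniteDimensional ℂ V]
    {π : P → ((Fin n → ℝ) ≃L[ℝ] V)} {T : Set P} {Z : Set (P × V)}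
    {Le : P × V → (P × V → ℂ) → Prop} (hD : DivDatum π T Z Le) {B : Set P} (hBT : B ⊆ T)
    {w : P × V → (V →L[ℂ] V →L[ℂ] ℂ)} (hw : IsW π Z Le B w) {p : P × V} (hp : p.1 ∈ B)
    {h : P × V → ℂ} (hh : Le p h) :
    ∃ H : P × V → (V →L[ℂ] V →L[ℂ] V →L[ℂ] ℂ), AnalyticAt ℂ H p ∧
      ∀ᶠ q in 𝓝 p, q ∉ Z → h q ^ 3 • dV w q = H q := by
  have c1 : CompleteSpace (V →L[ℂ] ℂ) := inferInstance
  have c2 : CompleteSpace (V →L[ℂ] V →L[ℂ] ℂ) := inferInstance
  have ha := hD.an _ _ hh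
  obtain ⟨A, hA, hA'⟩ := hw.loc p hp h hh
  have h1 : ∀ᶠ q in 𝓝 p, h q ≠ 0 → h q ^ 1 • dl h q = dV h q := by
    filter_upwards with q hq
    rw [pow_one]
    unfold dl
    rw [smul_smul, mul_inv_cancel₀ hq]
    exact one_smul ℂ _
  obtain ⟨G₁, hG₁, hG₁'⟩ := mero_dV ha (dV_analytic ha) h1
  obtain ⟨G₂, hG₂, hG₂'⟩ := mero_dV ha hG₁ hG₁'
  refine ⟨fun q => G₂ q + h q ^ 3 • dV A q, hG₂.add ((ha.pow 3).smul (dV_analytic hA)), ?_⟩
  filter_upwards [hG₂', eventually_eventually_nhds.2 hA', hD.zero _ _ hh,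
    eventually_eventually_nhds.2 (hD.zero _ _ hh), ha.eventually_analyticAt,
    hA.eventually_analyticAt] with q f1 f2 f3 f4 f5 f6 hZ
  have g0 : h q ≠ 0 := fun h0 => hZ (f3.1 h0)
  have e1 : w =ᶠ[𝓝 q] fun q' => dV (dl h) q' + A q' := by
    filter_upwards [f2, f4, f5.continuousAt.eventually_ne g0] with q' g1 g2 g3
    exact g1 fun hZ' => g3 (g2.2 hZ')
  have e2 := dV_analytic (dl_analytic f5 g0)
  rw [dV_congr e1, dV_add e2.differentiableAt f6.differentiableAt]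
  have e3 := smul_add (h q ^ 3) (dV (dV (dl h)) q) (dV A q)
  rw [e3, ← f1 g0]

end Vale.Agent.P281.H125.D
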