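import Mathlib

/-!
# P281, T-Delta, block D2 (helper125): periodic partitions of unity on `ℝ^n`
-/

open Set Filter Metric Topology
open scoped ContDiff

noncomputable section

namespace Vale.Agent.P281.H125.D

variable {n : ℕ}

/-- Integer vectors in `ℝ^n`. -/
def zr (k : Fin n → ℤ) : Fin n → ℝ := fun m => (k m : ℝ)

@[simp] theorem zr_apply (k : Fin n → ℤ) (m : Fin n) : zr k m = (k m : ℝ) := rfl

theorem zr_add (k l : Fin n → ℤ) : zr (k + l) = zr k + zr l := by
  funext m; simp

theorem zr_neg (k : Fin n → ℤ) : zr (-k) = -zr k := by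
  funext m; simp

/-- The nearest integer vector. -/
def rd (x : Fin n → ℝ) : Fin n → ℤ := fun m => round (x m)

theorem rd_add (x : Fin n → ℝ) (k : Fin n → ℤ) : rd (x + zr k) = rd x + k := by
  funext m
  simp [rd]

theorem rd_eq {x : Fin n → ℝ} {k : Fin n → ℤ} (h : ‖x - zr k‖ < 1 / 2) : rd x = k := by
  funext m
  have h1 : |x m - (k m : ℝ)| < 1 / 2 := (norm_le_pi_norm (x - zr k) m).trans_lt h
  rw [abs_lt] at h1
  rw [rd, round_eq, Int.floor_eq_iff]
  constructor <;> linarith [h1.1, h1.2]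

/-- A periodic smooth function measuring the distance to `c + ℤ^n`. -/
def pd (c x : Fin n → ℝ) : ℝ := ∑ m, (1 - Real.cos (2 * Real.pi * (x m - c m)))

theorem pd_contDiff (c : Fin n → ℝ) : ContDiff ℝ ∞ (pd c) := by
  unfold pd
  refine ContDiff.sum fun m _ => ?_
  refine contDiff_const.sub (Real.contDiff_cos.comp ?_)
  fun_prop

theorem pd_add (c x : Fin n → ℝ) (k : Fin n → ℤ) : pd c (x + zr k) = pd c x := by
  unfold pd
  refine Finset.sum_congr rfl fun m _ => ?_
  have : 2 * Real.pi * ((x + zr k) m - c m) =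
      2 * Real.pi * (x m - c m) + (k m : ℝ) * (2 * Real.pi) := by
    simp only [Pi.add_apply, zr_apply]; ring
  rw [this, Real.cos_add_int_mul_two_pi]

theorem pd_self (c : Fin n → ℝ) : pd c c = 0 := by simp [pd]

theorem pd_lower {c x : Fin n → ℝ} : 8 * ‖x - c - zr (rd (x - c))‖ ^ 2 ≤ pd c x := by
  rcases Nat.eq_zero_or_pos n with hn | hn
  · subst hn
    have : x - c - zr (rd (x - c)) = 0 := Subsingleton.elim _ _
    rw [this, norm_zero]
    simp [pd]
  have : Nonempty (Fin n) := ⟨⟨0, hn⟩⟩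
  obtain ⟨m, -, hm⟩ := Finset.exists_max_image (Finset.univ : Finset (Fin n))
    (fun m => ‖(x - c - zr (rd (x - c))) m‖) Finset.univ_nonempty
  have h1 : ‖x - c - zr (rd (x - c))‖ = ‖(x - c - zr (rd (x - c))) m‖ := by
    refine le_antisymm ?_ (norm_le_pi_norm _ m)
    exact (pi_norm_le_iff_of_nonneg (norm_nonneg _)).2 fun j => hm j (Finset.mem_univ j)
  rw [h1]
  set t : ℝ := (x - c) m with ht
  have h2 : (x - c - zr (rd (x - c))) m = t - round t := rfl
  have h3 : |t - round t| ≤ 1 / 2 := abs_sub_round t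
  have h4 : Real.cos (2 * Real.pi * (x m - c m)) =
      Real.cos (2 * Real.pi * (t - round t)) := by
    have : 2 * Real.pi * (x m - c m) =
        2 * Real.pi * (t - round t) + (round t : ℝ) * (2 * Real.pi) := by
      simp only [ht, Pi.sub_apply]; ring
    rw [this, Real.cos_add_int_mul_two_pi]
  have h5 : Real.cos (2 * Real.pi * (t - round t)) ≤
      1 - 2 / Real.pi ^ 2 * (2 * Real.pi * (t - round t)) ^ 2 := by
    apply Real.cos_le_one_sub_mul_cos_sq
    rw [abs_mul, abs_of_pos (by positivity)]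
    nlinarith [Real.pi_pos]
  have h6 : 2 / Real.pi ^ 2 * (2 * Real.pi * (t - round t)) ^ 2 = 8 * (t - round t) ^ 2 := by
    field_simp
    ring
  have h7 : 8 * (t - round t) ^ 2 ≤ 1 - Real.cos (2 * Real.pi * (x m - c m)) := by
    rw [h4]; linarith
  rw [h2, Real.norm_eq_abs, sq_abs]
  refine h7.trans ?_
  unfold pd
  refine Finset.single_le_sum (f := fun m => 1 - Real.cos (2 * Real.pi * (x m - c m)))
    (fun j _ => ?_) (Finset.mem_univ m)
  linarith [Real.cos_le_one (2 * Real.pi * (x j - c j))]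

/-- **Periodic partition of unity.** -/
theorem exists_pou (r : (Fin n → ℝ) → ℝ) (hr : ∀ c, 0 < r c) :
    ∃ (s : Finset (Fin n → ℝ)) (χ : (Fin n → ℝ) → (Fin n → ℝ) → ℝ),
      (∀ c, ContDiff ℝ ∞ (χ c)) ∧ (∀ c x k, χ c (x + zr k) = χ c x) ∧
      (∀ x, ∑ c ∈ s, χ c x = 1) ∧
      ∀ c ∈ s, ∀ x, (∀ᶠ x' in 𝓝 x, χ c x' = 0) ∨
        ∃ m : Fin n → ℤ, ‖x - c - zr m‖ < r c ∧ ‖x - c - zr m‖ < 1 / 2 := by
  classical
  -- radii
  let r' : (Fin n → ℝ) → ℝ := fun c => min (r c) (1 / 2)
  have hr' : ∀ c, 0 < r' c := fun c => lt_min (hr c) (by norm_num)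
  let δ : (Fin n → ℝ) → ℝ := fun c => 4 * r' c ^ 2
  have hδ : ∀ c, 0 < δ c := fun c => by have := hr' c; positivity
  let θ : (Fin n → ℝ) → (Fin n → ℝ) → ℝ := fun c x => Real.smoothTransition (1 - pd c x / δ c)
  have hθc : ∀ c, ContDiff ℝ ∞ (θ c) := fun c =>
    Real.smoothTransition.contDiff.comp (contDiff_const.sub ((pd_contDiff c).div_const _))
  have hθ0 : ∀ c x, 0 ≤ θ c x := fun c x => Real.smoothTransition.nonneg _
  have hθp : ∀ c x k, θ c (x + zr k) = θ c x := fun c x k => by simp only [θ, pd_add]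
  have hθpos : ∀ c x, pd c x < δ c → 0 < θ c x := fun c x h => by
    refine Real.smoothTransition.pos_of_pos ?_
    have : pd c x / δ c < 1 := (div_lt_one (hδ c)).2 h
    linarith
  -- finite cover of the unit cube
  have hK : IsCompact (Icc (0 : Fin n → ℝ) 1) := isCompact_Icc
  obtain ⟨s, -, hs⟩ := hK.elim_finite_subcover_image (b := (univ : Set (Fin n → ℝ)))
    (c := fun c => {x | pd c x < δ c})
    (fun c _ => isOpen_lt (pd_contDiff c).continuous continuous_const)
    (fun x _ => by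
      simp only [mem_univ, iUnion_true, mem_iUnion, mem_ofPred_eq]
      exact ⟨x, by rw [pd_self]; exact hδ x⟩)
  obtain ⟨hsf, hs⟩ := hs
  have hsum : ∀ x, 0 < ∑ c ∈ hsf.toFinset, θ c x := by
    intro x
    -- reduce to the unit cube
    let k : Fin n → ℤ := fun m => ⌊x m⌋
    have hx' : x + zr (-k) ∈ Icc (0 : Fin n → ℝ) 1 := by
      refine ⟨fun m => ?_, fun m => ?_⟩
      · simp only [Pi.zero_apply, Pi.add_apply, zr_apply, Pi.neg_apply, Int.cast_neg, k]
        linarith [Int.floor_le (x m)]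
      · simp only [Pi.one_apply, Pi.add_apply, zr_apply, Pi.neg_apply, Int.cast_neg, k]
        linarith [(Int.lt_floor_add_one (x m)).le]
    have h1 := hs hx'
    simp only [mem_iUnion, mem_ofPred_eq, exists_prop] at h1
    obtain ⟨c, hc, hcx⟩ := h1
    rw [pd_add] at hcx
    refine Finset.sum_pos' (fun c _ => hθ0 c x) ⟨c, hsf.mem_toFinset.2 hc, hθpos c x hcx⟩
  refine ⟨hsf.toFinset, fun c x => θ c x / ∑ c ∈ hsf.toFinset, θ c x, ?_, ?_, ?_, ?_⟩
  · intro c
    refine (hθc c).div (ContDiff.sum fun c _ => hθc c) fun x => (hsum x).ne'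
  · intro c x k
    simp only [hθp]
  · intro x
    rw [← Finset.sum_div]
    exact div_self (hsum x).ne'
  · intro c _ x
    rcases lt_or_ge (δ c) (pd c x) with h | h
    · left
      have : ∀ᶠ x' in 𝓝 x, δ c < pd c x' :=
        (pd_contDiff c).continuous.continuousAt.eventually (lt_mem_nhds h)
      filter_upwards [this] with x' hx'
      have : θ c x' = 0 := by
        refine Real.smoothTransition.zero_of_nonpos ?_
        have : 1 < pd c x' / δ c := (one_lt_div (hδ c)).2 hx'
        linarith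
      rw [this, zero_div]
    · right
      refine ⟨rd (x - c), ?_⟩
      have h1 := (pd_lower (c := c) (x := x)).trans h
      have h2 : ‖x - c - zr (rd (x - c))‖ < r' c := by
        have h3 := norm_nonneg (x - c - zr (rd (x - c)))
        have h4 := hr' c
        simp only [δ] at h1
        nlinarith
      exact ⟨h2.trans_le (min_le_left _ _), h2.trans_le (min_le_right _ _)⟩

end Vale.Agent.P281.H125.D
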