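import Vale.Agent.P281.H125.D.Chart
import Vale.Agent.P281.H125.D.Pou

/-!
# P281, T-Delta, block D2 (helper125): divisors on `T × V` and the smooth section `σ`
-/

open Set Filter Metric Topology
open scoped ContDiff

noncomputable section

namespace Vale.Agent.P281.H125.D

variable {n : ℕ} {V : Type*} [NormedAddCommGroup V] [NormedSpace ℂ V]
variable {P : Type*} [NormedAddCommGroup P] [NormedSpace ℂ P]
variable {E : Type*} [NormedAddCommGroup E] [NormedSpace ℂ E]

/-- Translation by a period. -/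
def tr (π : P → ((Fin n → ℝ) ≃L[ℝ] V)) (k : Fin n → ℤ) (w : P × V) : P × V :=
  (w.1, w.2 + π w.1 (zr k))

/-- The logarithmic derivative along the fibre. -/
def dl (h : P × V → ℂ) (w : P × V) : V →L[ℂ] ℂ :=
  (h w)⁻¹ • (fderiv ℂ h w).comp (ContinuousLinearMap.inr ℂ P V)

/-- A divisor on the family of tori `T × V`, with support `Z`: `Le w h` means that `h` is a local
equation at `w`. -/
structure DivDatum (π : P → ((Fin n → ℝ) ≃L[ℝ] V)) (T : Set P) (Z : Set (P × V))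
    (Le : P × V → (P × V → ℂ) → Prop) : Prop where
  ex : ∀ w, w.1 ∈ T → ∃ h, Le w h
  an : ∀ w h, Le w h → AnalyticAt ℂ h w
  zero : ∀ w h, Le w h → ∀ᶠ w' in 𝓝 w, (h w' = 0 ↔ w' ∈ Z)
  near : ∀ w h, Le w h → ∀ᶠ w' in 𝓝 w, Le w' h
  unit : ∀ w h h', Le w h → Le w h' →
    ∃ u : P × V → ℂ, AnalyticAt ℂ u w ∧ u w ≠ 0 ∧ ∀ᶠ w' in 𝓝 w, h' w' = u w' * h w'
  per : ∀ w h, w.1 ∈ T → Le w h → ∀ k : Fin n → ℤ, Le (tr π k w) (fun w' => h (tr π (-k) w'))
  dense : ∀ w, w.1 ∈ T → ¬ ∀ᶠ w' in 𝓝 w, w' ∈ Z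

theorem dl_congr {h h' : P × V → ℂ} {w : P × V} (hh : h =ᶠ[𝓝 w] h') : dl h w = dl h' w := by
  unfold dl
  rw [hh.fderiv_eq, hh.self_of_nhds]

theorem dl_mul {u h : P × V → ℂ} {w : P × V} (hu : DifferentiableAt ℂ u w)
    (hh : DifferentiableAt ℂ h w) (hu0 : u w ≠ 0) (hh0 : h w ≠ 0) :
    dl (fun w => u w * h w) w = dl u w + dl h w := by
  unfold dl
  ext v
  rw [fderiv_fun_mul hu hh]
  simp only [smul_apply, add_apply, ContinuousLinearMap.comp_apply, smul_eq_mul]
  field_simp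
  ring

theorem dl_analytic [FiniteDimensional ℂ P] [FiniteDimensional ℂ V] {h : P × V → ℂ} {w : P × V}
    (hh : AnalyticAt ℂ h w) (h0 : h w ≠ 0) : AnalyticAt ℂ (dl h) w := by
  have h1 : AnalyticAt ℂ (fun w => (h w)⁻¹) w := hh.inv h0
  have h2 : AnalyticAt ℂ (fun w => (fderiv ℂ h w).comp (ContinuousLinearMap.inr ℂ P V)) w := by
    exact ((ContinuousLinearMap.compL ℂ V (P × V) ℂ).flip
      (ContinuousLinearMap.inr ℂ P V)).analyticAt _ |>.comp hh.fderiv
  exact h1.smul h2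

/-- Translation of the logarithmic derivative. -/
theorem dl_tr [FiniteDimensional ℂ P] [FiniteDimensional ℂ V]
    {π : P → ((Fin n → ℝ) ≃L[ℝ] V)} {T : Set P} (hT : IsOpen T) (hπ : HolPer π T)
    {h : P × V → ℂ} {w : P × V} (hw : w.1 ∈ T) (k : Fin n → ℤ)
    (hh : DifferentiableAt ℂ h (tr π k w)) :
    dl (fun w' => h (tr π k w')) w = dl h (tr π k w) := by
  unfold dl
  congr 1
  have h0 : DifferentiableAt ℂ (fun y => π y (zr k)) w.1 := (hπ _).differentiableAt (hT.mem_nhds hw)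
  have h1 : HasFDerivAt (tr π k) ((ContinuousLinearMap.fst ℂ P V).prod
      ((ContinuousLinearMap.snd ℂ P V) +
        (fderiv ℂ (fun y => π y (zr k)) w.1).comp (ContinuousLinearMap.fst ℂ P V))) w := by
    refine hasFDerivAt_fst.prodMk (hasFDerivAt_snd.add ?_)
    exact h0.hasFDerivAt.comp w hasFDerivAt_fst
  have h2 : HasFDerivAt (fun w' => h (tr π k w')) _ w := hh.hasFDerivAt.comp w h1
  rw [h2.fderiv]
  ext v
  simp

theorem tr_continuousAt [FiniteDimensional ℂ P] [FiniteDimensional ℂ V]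
    {π : P → ((Fin n → ℝ) ≃L[ℝ] V)} {T : Set P} (hT : IsOpen T) (hπ : HolPer π T)
    {w : P × V} (hw : w.1 ∈ T) (k : Fin n → ℤ) : ContinuousAt (tr π k) w := by
  have h0 : ContinuousAt (fun y => π y (zr k)) w.1 :=
    ((hπ _).differentiableAt (hT.mem_nhds hw)).continuousAt
  have h1 : ContinuousAt (fun w : P × V => π w.1 (zr k)) w :=
    ContinuousAt.comp (g := fun y => π y (zr k)) (f := fun w : P × V => w.1) h0
      continuous_fst.continuousAt
  exact continuousAt_fst.prodMk (continuousAt_snd.add h1)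

@[simp] theorem tr_tr_neg (π : P → ((Fin n → ℝ) ≃L[ℝ] V)) (k : Fin n → ℤ) (w : P × V) :
    tr π k (tr π (-k) w) = w := by
  simp [tr, zr_neg, map_neg]

@[simp] theorem tr_neg_tr (π : P → ((Fin n → ℝ) ≃L[ℝ] V)) (k : Fin n → ℤ) (w : P × V) :
    tr π (-k) (tr π k w) = w := by
  simp [tr, zr_neg, map_neg]

theorem tr_th (π : P → ((Fin n → ℝ) ≃L[ℝ] V)) (k : Fin n → ℤ) (q : P × (Fin n → ℝ)) :
    tr π k (th π q) = th π (q.1, q.2 + zr k) := by
  simp [tr, th, map_add]

/-- **The smooth section**: a periodic function which differs from the logarithmic derivatives of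
the local equations by nice functions. -/
theorem exists_sigma [FiniteDimensional ℂ P] [FiniteDimensional ℂ V]
    {π : P → ((Fin n → ℝ) ≃L[ℝ] V)} {T : Set P} {Z : Set (P × V)}
    {Le : P × V → (P × V → ℂ) → Prop} (hD : DivDatum π T Z Le) (hT : IsOpen T)
    (hπ : HolPer π T) {y₀ : P} (hy₀ : y₀ ∈ T) :
    ∃ (B : Set P) (σ : P × (Fin n → ℝ) → (V →L[ℂ] ℂ)), IsOpen B ∧ y₀ ∈ B ∧ B ⊆ T ∧
      (∀ y x k, σ (y, x + zr k) = σ (y, x)) ∧
      ∀ q : P × (Fin n → ℝ), q.1 ∈ B → ∀ h, Le (th π q) h →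
        ∃ ρ : P × (Fin n → ℝ) → (V →L[ℂ] ℂ), Nice ∞ ρ q ∧
          ∀ᶠ q' in 𝓝 q, th π q' ∉ Z → σ q' = dl h (th π q') + ρ q' := by
  classical
  have : CompleteSpace (V →L[ℂ] ℂ) := FiniteDimensional.complete ℂ _
  -- local equations along the fibre of `y₀`
  have hch : ∀ c : Fin n → ℝ, ∃ (h : P × V → ℂ) (ε : ℝ), 0 < ε ∧
      ∀ q : P × (Fin n → ℝ), ‖q.1 - y₀‖ < ε → ‖q.2 - c‖ < ε → Le (th π q) h := by
    intro c
    obtain ⟨h, hh⟩ := hD.ex (th π (y₀, c)) hy₀
    have h1 : ∀ᶠ q in 𝓝 (y₀, c), Le (th π q) h :=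
      (continuousAt_th hT hπ (q := (y₀, c)) hy₀).eventually (hD.near _ _ hh)
    obtain ⟨ε, hε, hb⟩ := Metric.eventually_nhds_iff.1 h1
    refine ⟨h, ε, hε, fun q hq1 hq2 => hb ?_⟩
    rw [Prod.dist_eq, dist_eq_norm, dist_eq_norm]
    exact max_lt hq1 hq2
  choose h ε hε hEq using hch
  obtain ⟨s, χ, hχ, hχp, hχ1, hχs⟩ := exists_pou ε hε
  refine ⟨T ∩ ⋂ c ∈ s, ball y₀ (ε c), fun q => ∑ c ∈ s, (χ c q.2 : ℂ) •
    dl (h c) (th π (q.1, q.2 - zr (rd (q.2 - c)))), ?_, ?_, inter_subset_left, ?_, ?_⟩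
  · exact hT.inter (isOpen_biInter_finset fun c _ => isOpen_ball)
  · exact ⟨hy₀, mem_iInter₂.2 fun c _ => mem_ball_self (hε c)⟩
  · intro y x k
    simp only
    refine Finset.sum_congr rfl fun c _ => ?_
    have h1 : x + zr k - c = x - c + zr k := by abel
    rw [hχp, h1, rd_add, zr_add]
    congr 4
    abel
  · intro q hq h₀ hh₀
    have hqT : q.1 ∈ T := hq.1
    have hqB : ∀ c ∈ s, ‖q.1 - y₀‖ < ε c := fun c hc => by
      have := mem_iInter₂.1 hq.2 c hc
      rwa [mem_ball, dist_eq_norm] at this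
    -- the local terms
    have hloc : ∀ c ∈ s, ∃ ρ : P × (Fin n → ℝ) → (V →L[ℂ] ℂ), Nice ∞ ρ q ∧
        ∀ᶠ q' in 𝓝 q, th π q' ∉ Z → (χ c q'.2 : ℂ) •
          dl (h c) (th π (q'.1, q'.2 - zr (rd (q'.2 - c)))) =
            (χ c q'.2 : ℂ) • dl h₀ (th π q') + ρ q' := by
      intro c hc
      rcases hχs c hc q.2 with h1 | ⟨m, hm1, hm2⟩
      · refine ⟨fun _ => 0, nice_const 0 q, ?_⟩
        have h2 : ∀ᶠ q' : P × (Fin n → ℝ) in 𝓝 q, χ c q'.2 = 0 :=
          continuous_snd.continuousAt.eventually h1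
        filter_upwards [h2] with q' hq' _
        rw [hq', Complex.ofReal_zero, zero_smul ℂ (dl (h c) _), zero_smul ℂ (dl h₀ _), add_zero]
      · -- the translated equation
        have hE1 : Le (th π (q.1, q.2 - zr m)) (h c) := by
          refine hEq c _ (hqB c hc) ?_
          simpa [sub_right_comm] using hm1
        have hE2 := hD.per _ _ hqT hE1 m
        rw [tr_th] at hE2
        have hE3 : ((q.1, q.2 - zr m).1, (q.1, q.2 - zr m).2 + zr m) = q := by
          simp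
        rw [hE3] at hE2
        obtain ⟨u, hu, hu0, huh⟩ := hD.unit _ _ _ hh₀ hE2
        refine ⟨fun q' => (χ c q'.2 : ℂ) • dl u (th π q'), ?_, ?_⟩
        · refine Nice.smul (by simp) ?_ ?_
          · exact nice_of_x (χ := fun x => (χ c x : ℂ)) (Complex.ofRealCLM.contDiff.comp (hχ c)) (by simp) q
          · exact nice_pull hT hπ hqT (dl_analytic hu hu0)
        · -- nearby points
          have e1 : ∀ᶠ q' : P × (Fin n → ℝ) in 𝓝 q, ‖q'.2 - c - zr m‖ < 1 / 2 := by
            have : ContinuousAt (fun q' : P × (Fin n → ℝ) => ‖q'.2 - c - zr m‖) q := by fun_prop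
            exact this.eventually (gt_mem_nhds hm2)
          have e2 : ∀ᶠ q' : P × (Fin n → ℝ) in 𝓝 q, q'.1 ∈ T :=
            continuous_fst.continuousAt.eventually (hT.mem_nhds hqT)
          have hthc := continuousAt_th hT hπ hqT
          have e3 := hthc.eventually (eventually_eventually_nhds.2 huh)
          have e4 := hthc.eventually hu.eventually_analyticAt
          have e5 : ∀ᶠ q' in 𝓝 q, u (th π q') ≠ 0 :=
            hthc.eventually (hu.continuousAt.eventually_ne hu0)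
          have e6 : ∀ᶠ q' in 𝓝 q, AnalyticAt ℂ h₀ (th π q') :=
            hthc.eventually (hD.an _ _ hh₀).eventually_analyticAt
          have e7 := hthc.eventually (hD.zero _ _ hh₀)
          have e8 : ∀ᶠ q' in 𝓝 q, AnalyticAt ℂ (h c) (th π (q'.1, q'.2 - zr m)) := by
            have h1 : ContinuousAt (fun q' : P × (Fin n → ℝ) => th π (q'.1, q'.2 - zr m)) q := by
              have h2 : ContinuousAt (fun q' : P × (Fin n → ℝ) => (q'.1, q'.2 - zr m)) q := by
                fun_prop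
              exact ContinuousAt.comp (g := th π) (continuousAt_th hT hπ (by exact hqT)) h2
            exact h1.eventually (hD.an _ _ hE1).eventually_analyticAt
          filter_upwards [e1, e2, e3, e4, e5, e6, e7, e8] with q' f1 f2 f3 f4 f5 f6 f7 f8 hZ
          have g1 : rd (q'.2 - c) = m := rd_eq f1
          rw [g1]
          refine Eq.trans ?_ (smul_add (χ c q'.2 : ℂ) (dl h₀ (th π q')) (dl u (th π q')))
          congr 1
          have g2 : h₀ (th π q') ≠ 0 := fun h0 => hZ (f7.1 h0)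
          have g3 : th π (q'.1, q'.2 - zr m) = tr π (-m) (th π q') := by
            rw [tr_th, zr_neg, sub_eq_add_neg]
          rw [g3, ← dl_tr hT hπ (by exact f2) (-m) (by rw [← g3]; exact f8.differentiableAt)]
          have g4 : (fun w' => h c (tr π (-m) w')) =ᶠ[𝓝 (th π q')] fun w => u w * h₀ w := f3
          rw [dl_congr g4, dl_mul f4.differentiableAt f6.differentiableAt f5 g2, add_comm]
    choose! ρ hρ1 hρ2 using hloc
    refine ⟨fun q' => ∑ c ∈ s, ρ c q', Nice.sum (by simp) s hρ1, ?_⟩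
    have hall : ∀ᶠ q' in 𝓝 q, ∀ c ∈ s, th π q' ∉ Z → (χ c q'.2 : ℂ) •
          dl (h c) (th π (q'.1, q'.2 - zr (rd (q'.2 - c)))) =
            (χ c q'.2 : ℂ) • dl h₀ (th π q') + ρ c q' :=
      (Filter.eventually_all_finset s).2 hρ2
    filter_upwards [hall] with q' hq' hZ
    rw [Finset.sum_congr rfl fun c hc => hq' c hc hZ, Finset.sum_add_distrib]
    have h1 : ∑ c ∈ s, (χ c q'.2 : ℂ) = 1 := by
      rw [← Complex.ofReal_sum, hχ1]
      simp
    have h2 := Finset.sum_smul (R := ℂ) (M := V →L[ℂ] ℂ) (s := s)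
      (f := fun c => (χ c q'.2 : ℂ)) (x := dl h₀ (th π q'))
    rw [h1, one_smul ℂ (dl h₀ (th π q'))] at h2
    rw [← h2]

end Vale.Agent.P281.H125.D
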