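import Vale.Agent.P281.H125.D.Sigma
import Vale.Agent.P281.H383.TD.D1S

/-!
# P281, T-Delta, block D2 (helper125): the section `τ` with constant anti-holomorphic derivatives
-/

open Set Filter Metric Topology
open scoped ContDiff

noncomputable section

namespace Vale.Agent.P281.H125.D

variable {n : ℕ} {V : Type*} [NormedAddCommGroup V] [NormedSpace ℂ V]
variable {P : Type*} [NormedAddCommGroup P] [NormedSpace ℂ P]
variable {E : Type*} [NormedAddCommGroup E] [NormedSpace ℂ E]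

theorem Frame.mono {π : P → ((Fin n → ℝ) ≃L[ℝ] V)} {B B' : Set P} {J : Type} [Fintype J]
    {a : P → J → Fin n → ℂ} {R : P → (V →L[ℂ] (Fin n → ℂ))} (hF : Frame π B J a R)
    (hB : B' ⊆ B) : Frame π B' J a R where
  hola j m := (hF.hola j m).mono hB
  holR := hF.holR.mono hB
  right y hy := hF.right y (hB hy)
  ker y hy := hF.ker y (hB hy)
  span y hy := hF.span y (hB hy)

/-- Partial derivatives in `x`. -/
theorem fderiv_snd {F : P × (Fin n → ℝ) → E} {y : P} {x : Fin n → ℝ}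
    (hF : DifferentiableAt ℝ F (y, x)) (v : Fin n → ℝ) :
    fderiv ℝ (fun x => F (y, x)) x v = fderiv ℝ F (y, x) (0, v) := by
  have h1 : HasFDerivAt (fun x => F (y, x))
      ((fderiv ℝ F (y, x)).comp (ContinuousLinearMap.inr ℝ P (Fin n → ℝ))) x :=
    hF.hasFDerivAt.comp x (hasFDerivAt_prodMk_right y x)
  rw [h1.fderiv]
  simp

/-- Second directional derivatives. -/
theorem dx_dx {F : P × (Fin n → ℝ) → E} {q : P × (Fin n → ℝ)} (hF : ContDiffAt ℝ 2 F q)
    {a : P → Fin n → ℂ} (ha : ∀ l, DifferentiableAt ℝ (fun y => a y l) q.1) (c : Fin n → ℂ) :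
    dx c (fun q' => dx (a q'.1) F q') q =
      ∑ m, ∑ l, (c m * a q.1 l) • fderiv ℝ (fderiv ℝ F) q (0, Pi.single m 1)
        (0, Pi.single l 1) := by
  have h4 : DifferentiableAt ℝ (fderiv ℝ F) q :=
    (hF.fderiv_right (m := 1) (by norm_num)).differentiableAt one_ne_zero
  have h1 : ∀ l : Fin n, HasFDerivAt (fun q' : P × (Fin n → ℝ) => a q'.1 l)
      ((fderiv ℝ (fun y => a y l) q.1).comp (ContinuousLinearMap.fst ℝ P (Fin n → ℝ))) q :=
    fun l => (ha l).hasFDerivAt.comp q hasFDerivAt_fst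
  have h2 : ∀ l : Fin n, HasFDerivAt (fun q' => fderiv ℝ F q' (0, Pi.single l 1))
      ((ContinuousLinearMap.apply ℝ E ((0, Pi.single l 1) : P × (Fin n → ℝ))).comp
          (fderiv ℝ (fderiv ℝ F) q)) q := fun l =>
    (ContinuousLinearMap.apply ℝ E ((0, Pi.single l 1) : P × (Fin n → ℝ))).hasFDerivAt.comp q
      h4.hasFDerivAt
  have h3 : HasFDerivAt (fun q' => dx (a q'.1) F q') _ q :=
    HasFDerivAt.fun_sum fun l _ => (h1 l).smul (h2 l)
  unfold dx at h3 ⊢
  rw [h3.fderiv]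
  refine Finset.sum_congr rfl fun m _ => ?_
  rw [sum_apply, Finset.smul_sum]
  refine Finset.sum_congr rfl fun l _ => ?_
  simp [smul_smul]

theorem dx_dx_comm {F : P × (Fin n → ℝ) → E} {q : P × (Fin n → ℝ)} (hF : ContDiffAt ℝ 2 F q)
    {a b : P → Fin n → ℂ} (ha : ∀ l, DifferentiableAt ℝ (fun y => a y l) q.1)
    (hb : ∀ l, DifferentiableAt ℝ (fun y => b y l) q.1) :
    dx (b q.1) (fun q' => dx (a q'.1) F q') q = dx (a q.1) (fun q' => dx (b q'.1) F q') q := by
  rw [dx_dx hF ha, dx_dx hF hb, Finset.sum_comm]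
  refine Finset.sum_congr rfl fun m _ => Finset.sum_congr rfl fun l _ => ?_
  have hsym : IsSymmSndFDerivAt ℝ F q := hF.isSymmSndFDerivAt (by simp)
  rw [hsym.eq, mul_comm]

variable [FiniteDimensional ℂ P] [FiniteDimensional ℂ V]

section
variable {π : P → ((Fin n → ℝ) ≃L[ℝ] V)} {T : Set P} {Z : Set (P × V)}
    {Le : P × V → (P × V → ℂ) → Prop} (hD : DivDatum π T Z Le) (hT : IsOpen T)
    (hπ : HolPer π T)

include hD

omit [FiniteDimensional ℂ P] [FiniteDimensional ℂ V] in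
theorem off_nhds {w : P × V} (hw : w.1 ∈ T) (hZ : w ∉ Z) : ∀ᶠ w' in 𝓝 w, w' ∉ Z := by
  obtain ⟨h, hh⟩ := hD.ex w hw
  have h1 := hD.zero _ _ hh
  have h0 : h w ≠ 0 := fun h0 => hZ (h1.self_of_nhds.1 h0)
  filter_upwards [h1, (hD.an _ _ hh).continuousAt.eventually_ne h0] with w' h2 h3 h4
  exact h3 (h2.2 h4)

include hT hπ

theorem frequently_off {q : P × (Fin n → ℝ)} (hq : q.1 ∈ T) : ∃ᶠ q' in 𝓝 q, th π q' ∉ Z := by
  intro hcon
  refine hD.dense (th π q) hq ?_
  have h1 : Tendsto (ti π) (𝓝 (th π q)) (𝓝 q) := by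
    have := continuousAt_ti hT hπ (w := th π q) hq
    rw [ContinuousAt, ti_th] at this
    exact this
  filter_upwards [h1.eventually hcon] with w hw
  by_contra hwZ
  exact hw (by rwa [th_ti])

/-- Two functions, continuous near `q`, which agree off `Z`, agree. -/
theorem eq_of_off {F G : P × (Fin n → ℝ) → E} {q : P × (Fin n → ℝ)} (hq : q.1 ∈ T)
    (hF : ∀ᶠ q' in 𝓝 q, ContinuousAt F q') (hG : ∀ᶠ q' in 𝓝 q, ContinuousAt G q')
    (h : ∀ᶠ q' in 𝓝 q, th π q' ∉ Z → F q' = G q') : F =ᶠ[𝓝 q] G := by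
  have h1 : ∀ᶠ q' : P × (Fin n → ℝ) in 𝓝 q, q'.1 ∈ T :=
    continuous_fst.continuousAt.eventually (hT.mem_nhds hq)
  filter_upwards [h1, hF, hG, eventually_eventually_nhds.2 h] with q' h2 h3 h4 h5
  by_contra hne
  have h6 : ∀ᶠ q'' in 𝓝 q', F q'' ≠ G q'' := by
    have := (h3.sub h4).eventually_ne (sub_ne_zero.2 hne)
    filter_upwards [this] with q'' h7 using sub_ne_zero.1 h7
  exact frequently_off hD hT hπ h2 (by
    filter_upwards [h5, h6] with q'' h7 h8 h9
    exact h8 (h7 h9))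

omit [FiniteDimensional ℂ P] [FiniteDimensional ℂ V] hD hT hπ in
theorem Nice.continuousAt' {k : WithTop ℕ∞} {F : P × (Fin n → ℝ) → E} {q : P × (Fin n → ℝ)}
    (h : Nice k F q) : ∀ᶠ q' in 𝓝 q, ContinuousAt F q' := by
  filter_upwards [h] with q' h1 using h1.1.continuousAt

omit hD in
/-- The anti-holomorphic derivatives of a pull-back vanish. -/
theorem dx_pull_ker {q : P × (Fin n → ℝ)} (hq : q.1 ∈ T) {G : P × V → E}
    (hG : AnalyticAt ℂ G (th π q)) {c : Fin n → ℂ} (hc : pcE (π q.1) c = 0) :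
    dx c (fun q => G (th π q)) q = 0 := by
  rw [dx_pull hT hπ hq hG.differentiableAt c, hc]
  exact map_zero _

/-- Independence of the local representation. -/
theorem loc_unique {σ : P × (Fin n → ℝ) → (V →L[ℂ] ℂ)} {q : P × (Fin n → ℝ)} (hq : q.1 ∈ T)
    {h h' : P × V → ℂ} {ρ ρ' : P × (Fin n → ℝ) → (V →L[ℂ] ℂ)}
    (hh : Le (th π q) h) (hh' : Le (th π q) h')
    (hρ : ∀ᶠ q' in 𝓝 q, ContinuousAt ρ q') (hρ' : ∀ᶠ q' in 𝓝 q, ContinuousAt ρ' q')
    (hσ : ∀ᶠ q' in 𝓝 q, th π q' ∉ Z → σ q' = dl h (th π q') + ρ q')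
    (hσ' : ∀ᶠ q' in 𝓝 q, th π q' ∉ Z → σ q' = dl h' (th π q') + ρ' q') :
    ∃ G : P × V → (V →L[ℂ] ℂ), AnalyticAt ℂ G (th π q) ∧
      (ρ =ᶠ[𝓝 q] fun q' => G (th π q') + ρ' q') ∧
      ∀ᶠ w in 𝓝 (th π q), w ∉ Z → dl h' w = G w + dl h w := by
  obtain ⟨u, hu, hu0, huh⟩ := hD.unit _ _ _ hh hh'
  have hth := continuousAt_th hT hπ hq
  have key : ∀ᶠ w in 𝓝 (th π q), w ∉ Z → dl h' w = dl u w + dl h w := by
    filter_upwards [eventually_eventually_nhds.2 huh, hu.eventually_analyticAt,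
      hu.continuousAt.eventually_ne hu0, (hD.an _ _ hh).eventually_analyticAt,
      hD.zero _ _ hh] with w f1 f2 f3 f4 f5 hZ
    have g2 : h w ≠ 0 := fun h0 => hZ (f5.1 h0)
    have g4 : h' =ᶠ[𝓝 w] fun w => u w * h w := f1
    rw [dl_congr g4, dl_mul f2.differentiableAt f4.differentiableAt f3 g2]
  refine ⟨dl u, dl_analytic hu hu0, ?_, key⟩
  have hc : ∀ᶠ q' in 𝓝 q, ContinuousAt (fun q' => dl u (th π q')) q' :=
    (nice_pull (k := 1) hT hπ hq (dl_analytic hu hu0)).continuousAt'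
  refine eq_of_off hD hT hπ hq hρ ?_ ?_
  · filter_upwards [hc, hρ'] with q' h1 h2 using h1.add h2
  · filter_upwards [hσ, hσ', hth.eventually key] with q' h1 h2 h3 hZ
    have h4 := h1 hZ
    rw [h2 hZ, h3 hZ] at h4
    have h5 : dl h (th π q') + ρ q' = dl h (th π q') + (dl u (th π q') + ρ' q') := by
      rw [← h4]; abel
    exact add_left_cancel h5

/-- **The section `τ`**: periodic, equal to the logarithmic derivatives of the local equations up to
nice functions, and its anti-holomorphic derivatives are constant along the fibres. -/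
theorem exists_tau {y₀ : P} (hy₀ : y₀ ∈ T) :
    ∃ (B : Set P) (J : Type) (_ : Fintype J) (a : P → J → Fin n → ℂ)
      (R : P → (V →L[ℂ] (Fin n → ℂ))) (τ : P × (Fin n → ℝ) → (V →L[ℂ] ℂ))
      (κ : P → J → (V →L[ℂ] ℂ)), IsOpen B ∧ y₀ ∈ B ∧ B ⊆ T ∧ Frame π B J a R ∧
      (∀ y ∈ B, ∀ x k, τ (y, x + zr k) = τ (y, x)) ∧
      (∀ j, DifferentiableOn ℂ (fun y => κ y j) B) ∧
      ∀ q : P × (Fin n → ℝ), q.1 ∈ B → ∀ h, Le (th π q) h →
        ∃ ρ : P × (Fin n → ℝ) → (V →L[ℂ] ℂ), Nice ∞ ρ q ∧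
          (∀ᶠ q' in 𝓝 q, th π q' ∉ Z → τ q' = dl h (th π q') + ρ q') ∧
          ∀ᶠ q' in 𝓝 q, ∀ j, dx (a q'.1 j) ρ q' = κ q'.1 j := by
  classical
  have : CompleteSpace (V →L[ℂ] ℂ) := FiniteDimensional.complete ℂ _
  obtain ⟨B₁, J, iJ, a, R, hB₁, hy₁, hB₁T, hF⟩ := exists_frame hT hπ hy₀
  obtain ⟨B₂, σ, hB₂, hy₂, hB₂T, hσp, hσ⟩ := exists_sigma hD hT hπ hy₀
  set B := B₁ ∩ B₂ with hBdef
  have hB : IsOpen B := hB₁.inter hB₂
  have hBT : B ⊆ T := inter_subset_left.trans hB₁T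
  have hFB : Frame π B J a R := hF.mono inter_subset_left
  have hha : ∀ y ∈ B, ∀ j m, DifferentiableAt ℝ (fun y => a y j m) y := fun y hy j m =>
    ((hFB.hola j m).differentiableAt (hB.mem_nhds hy)).restrictScalars ℝ
  -- choice of the local data
  have hex : ∀ q : P × (Fin n → ℝ), ∃ (h : P × V → ℂ) (ρ : P × (Fin n → ℝ) → (V →L[ℂ] ℂ)),
      q.1 ∈ B → Le (th π q) h ∧ Nice ∞ ρ q ∧
        ∀ᶠ q' in 𝓝 q, th π q' ∉ Z → σ q' = dl h (th π q') + ρ q' := by
    intro q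
    by_cases hq : q.1 ∈ B
    · obtain ⟨h, hh⟩ := hD.ex (th π q) (hBT hq)
      obtain ⟨ρ, h1, h2⟩ := hσ q hq.2 h hh
      exact ⟨h, ρ, fun _ => ⟨hh, h1, h2⟩⟩
    · exact ⟨0, 0, fun h => absurd h hq⟩
  choose hl ρl hdat using hex
  let b : J → P × (Fin n → ℝ) → (V →L[ℂ] ℂ) := fun j q => dx (a q.1 j) (ρl q) q
  -- local description of `b`
  have hbloc : ∀ q₀ : P × (Fin n → ℝ), q₀.1 ∈ B → ∀ h₀ ρ₀, Le (th π q₀) h₀ → Nice ∞ ρ₀ q₀ →
      (∀ᶠ q' in 𝓝 q₀, th π q' ∉ Z → σ q' = dl h₀ (th π q') + ρ₀ q') →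
      ∀ᶠ q in 𝓝 q₀, ∀ j, b j q = dx (a q.1 j) ρ₀ q := by
    intro q₀ hq₀ h₀ ρ₀ hh₀ hρ₀ hσ₀
    have e1 : ∀ᶠ q : P × (Fin n → ℝ) in 𝓝 q₀, q.1 ∈ B :=
      continuous_fst.continuousAt.eventually (hB.mem_nhds hq₀)
    have e2 : ∀ᶠ q in 𝓝 q₀, Le (th π q) h₀ :=
      (continuousAt_th hT hπ (hBT hq₀)).eventually (hD.near _ _ hh₀)
    filter_upwards [e1, e2, hρ₀.eventually, eventually_eventually_nhds.2 hσ₀] with q f1 f2 f3 f4 j
    obtain ⟨d1, d2, d3⟩ := hdat q f1
    obtain ⟨G, hG, hG1, -⟩ := loc_unique hD hT hπ (hBT f1) f2 d1 f3.continuousAt'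
      d2.continuousAt' f4 d3
    have h5 : DifferentiableAt ℝ (fun q' => G (th π q')) q :=
      ContDiffAt.diffOne (nice_pull (k := 1) hT hπ (hBT f1) hG).contDiffAt le_rfl
    have h6 : DifferentiableAt ℝ (ρl q) q := ContDiffAt.diffOne d2.contDiffAt (by simp)
    change dx (a q.1 j) (ρl q) q = _
    rw [dx_congr hG1, dx_add h5 h6, dx_pull_ker hT hπ (hBT f1) hG (hFB.ker _ f1 j), zero_add]
  -- `b` is nice
  have hbn : ∀ j, ∀ q : P × (Fin n → ℝ), q.1 ∈ B → Nice ∞ (b j) q := by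
    intro j q hq
    obtain ⟨d1, d2, d3⟩ := hdat q hq
    have h1 := hbloc q hq _ _ d1 d2 d3
    have h2 : Nice ∞ (fun q' => dx (a q'.1 j) (ρl q) q') q :=
      Nice.dx (k := ∞) d2 (by simp) hB (hFB.hola j) hq
    refine h2.congr ?_
    filter_upwards [h1] with q' h3 using h3 j
  -- `b` off `Z`
  have hboff : ∀ j, ∀ q : P × (Fin n → ℝ), q.1 ∈ B → th π q ∉ Z →
      b j q = dx (a q.1 j) σ q := by
    intro j q hq hZ
    obtain ⟨d1, d2, d3⟩ := hdat q hq
    have h1 : ∀ᶠ q' in 𝓝 q, th π q' ∉ Z :=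
      (continuousAt_th hT hπ (hBT hq)).eventually (off_nhds hD (hBT hq) hZ)
    have h2 : σ =ᶠ[𝓝 q] fun q' => dl (hl q) (th π q') + ρl q q' := by
      filter_upwards [h1, d3] with q' h3 h4 using h4 h3
    have h0 : hl q (th π q) ≠ 0 := fun h0 => hZ ((hD.zero _ _ d1).self_of_nhds.1 h0)
    have h3 := dl_analytic (hD.an _ _ d1) h0
    have h5 : DifferentiableAt ℝ (fun q' => dl (hl q) (th π q')) q :=
      ContDiffAt.diffOne (nice_pull (k := 1) hT hπ (hBT hq) h3).contDiffAt le_rfl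
    have h6 : DifferentiableAt ℝ (ρl q) q := ContDiffAt.diffOne d2.contDiffAt (by simp)
    rw [dx_congr h2, dx_add h5 h6, dx_pull_ker hT hπ (hBT hq) h3 (hFB.ker _ hq j), zero_add]
  -- periodicity of `Z`
  have hZp : ∀ w : P × V, w.1 ∈ T → ∀ k, w ∉ Z → tr π k w ∉ Z := by
    intro w hw k hZ hZ'
    obtain ⟨h, hh⟩ := hD.ex w hw
    have h1 := (hD.zero _ _ (hD.per _ _ hw hh k)).self_of_nhds.2 hZ'
    rw [tr_neg_tr] at h1
    exact hZ ((hD.zero _ _ hh).self_of_nhds.1 h1)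
  -- periodicity of `b`
  have hbp : ∀ j, ∀ y ∈ B, ∀ x k, b j (y, x + zr k) = b j (y, x) := by
    intro j y hy x k
    have hc1 : ∀ᶠ q' in 𝓝 (y, x), ContinuousAt (fun q : P × (Fin n → ℝ) =>
        b j (q.1, q.2 + zr k)) q' := by
      have e1 : ∀ᶠ q' : P × (Fin n → ℝ) in 𝓝 (y, x), q'.1 ∈ B :=
        continuous_fst.continuousAt.eventually (hB.mem_nhds hy)
      filter_upwards [e1] with q' hq'
      have h1 : ContinuousAt (b j) (q'.1, q'.2 + zr k) :=
        (hbn j (q'.1, q'.2 + zr k) hq').contDiffAt.continuousAt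
      exact ContinuousAt.comp (g := b j)
        (f := fun q : P × (Fin n → ℝ) => (q.1, q.2 + zr k)) h1 (by fun_prop)
    have hc2 : ∀ᶠ q' in 𝓝 (y, x), ContinuousAt (b j) q' :=
      (hbn j (y, x) hy).continuousAt'
    have h := eq_of_off hD hT hπ (q := (y, x)) (hBT hy) hc1 hc2 (by
      have e1 : ∀ᶠ q' : P × (Fin n → ℝ) in 𝓝 (y, x), q'.1 ∈ B :=
        continuous_fst.continuousAt.eventually (hB.mem_nhds hy)
      filter_upwards [e1] with q' hq' hZ
      have hZ' : th π (q'.1, q'.2 + zr k) ∉ Z := by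
        rw [← tr_th]
        exact hZp _ (hBT hq') k hZ
      rw [hboff j _ hq' hZ, hboff j (q'.1, q'.2 + zr k) hq' hZ']
      -- periodicity of the derivative
      unfold dx
      have h1 : fderiv ℝ σ (q'.1, q'.2 + zr k) = fderiv ℝ σ q' := by
        have h2 : (fun q : P × (Fin n → ℝ) => σ (q + ((0 : P), zr k))) = σ := by
          funext q
          have : q + ((0 : P), zr k) = (q.1, q.2 + zr k) := by
            ext <;> simp
          rw [this, hσp]
        have h3 : (q'.1, q'.2 + zr k) = q' + ((0 : P), zr k) := by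
          ext <;> simp
        rw [h3, ← fderiv_comp_add_right, h2]
      rw [h1])
    exact h.self_of_nhds
  -- closedness
  have hbc : ∀ i j, ∀ q : P × (Fin n → ℝ), q.1 ∈ B →
      dx (a q.1 i) (b j) q = dx (a q.1 j) (b i) q := by
    intro i j q hq
    obtain ⟨d1, d2, d3⟩ := hdat q hq
    have h1 := hbloc q hq _ _ d1 d2 d3
    have h2 : ∀ j, b j =ᶠ[𝓝 q] fun q' => dx (a q'.1 j) (ρl q) q' := fun j => by
      filter_upwards [h1] with q' h3 using h3 j
    rw [dx_congr (h2 j), dx_congr (h2 i)]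
    exact dx_dx_comm (a := fun y => a y j) (b := fun y => a y i)
      (d2.contDiffAt.of_le ENat.LEInfty.out) (hha _ hq j) (hha _ hq i)
  -- the equations on the fibres
  let bV := Module.finBasis ℂ V
  let cr : Fin (Module.finrank ℂ V) → (V →L[ℂ] ℂ) := fun i =>
    LinearMap.toContinuousLinearMap (bV.coord i)
  have hcr : ∀ L : V →L[ℂ] ℂ, L = ∑ i, L (bV i) • cr i := by
    intro L
    ext v
    have h1 : v = ∑ i, bV.repr v i • bV i := (bV.sum_repr v).symm
    conv_lhs => rw [h1]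
    rw [map_sum, sum_apply]
    refine Finset.sum_congr rfl fun i _ => ?_
    rw [map_smul, smul_apply, smul_eq_mul, smul_eq_mul, mul_comm]
    rfl
  have hD1 := fun i => H383.TD.d1_gen n J B a (fun y x j => b j (y, x) (bV i)) hB hFB.hola
    (fun y hy => by
      obtain ⟨c, hc, hev⟩ := hFB.lower hB hy
      exact ⟨c, hc, hev.mono fun y' h k => h (zr k)⟩)
    (fun j => by
      intro q hq
      have h1 := (hbn j q hq.1).contDiffAt
      have h2 : ContDiffAt ℝ ∞ (fun q => b j q (bV i)) q :=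
        ((ContinuousLinearMap.apply ℂ ℂ (bV i)).restrictScalars ℝ).contDiff.contDiffAt.comp q h1
      exact h2.contDiffWithinAt)
    (fun j x => by
      intro y hy
      have h1 := (hbn j (y, x) hy)
      have h2 := CR.differentiableAt (ContDiffAt.diffOne h1.contDiffAt (by simp)) h1.cr
      exact (h2.clm_apply (differentiableAt_const _)).differentiableWithinAt)
    (fun y hy x k => by
      funext j
      have := hbp j y hy x k
      rw [← this]
      rfl)
    (fun y hy x i' j => by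
      have h0 : ∀ i' j, ∑ m, a y i' m * fderiv ℝ (fun x => b j (y, x) (bV i)) x (Pi.single m 1)
          = dx (a y i') (b j) (y, x) (bV i) := by
        intro i' j
        have h1 : DifferentiableAt ℝ (b j) (y, x) :=
          ContDiffAt.diffOne (hbn j (y, x) hy).contDiffAt (by simp)
        unfold dx
        rw [sum_apply]
        refine Finset.sum_congr rfl fun m _ => ?_
        have h2 : HasFDerivAt (fun x => b j (y, x) (bV i))
            (((ContinuousLinearMap.apply ℂ ℂ (bV i)).restrictScalars ℝ).comp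
              ((fderiv ℝ (b j) (y, x)).comp (ContinuousLinearMap.inr ℝ P (Fin n → ℝ)))) x :=
          ((ContinuousLinearMap.apply ℂ ℂ (bV i)).restrictScalars ℝ).hasFDerivAt.comp x
            (h1.hasFDerivAt.comp x (hasFDerivAt_prodMk_right y x))
        rw [h2.fderiv, smul_apply, smul_eq_mul]
        simp
      rw [h0, h0, hbc i' j (y, x) hy])
  choose g κ hgs hgh hgp hκh hgL using hD1
  let gV : P × (Fin n → ℝ) → (V →L[ℂ] ℂ) := fun q => ∑ i, g i q.1 q.2 • cr i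
  let κV : P → J → (V →L[ℂ] ℂ) := fun y j => ∑ i, κ i y j • cr i
  have hgn : ∀ i, ∀ q : P × (Fin n → ℝ), q.1 ∈ B →
      Nice ∞ (fun q : P × (Fin n → ℝ) => g i q.1 q.2) q := by
    intro i q hq
    have e1 : ∀ᶠ q' : P × (Fin n → ℝ) in 𝓝 q, q'.1 ∈ B :=
      continuous_fst.continuousAt.eventually (hB.mem_nhds hq)
    filter_upwards [e1] with q' hq'
    have h1 : ContDiffAt ℝ ∞ (fun q : P × (Fin n → ℝ) => g i q.1 q.2) q' :=
      (hgs i).contDiffAt ((hB.prod isOpen_univ).mem_nhds ⟨hq', mem_univ _⟩)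
    refine ⟨h1, cr_of_diff (ContDiffAt.diffOne h1 (by simp)) ?_⟩
    exact (hgh i q'.2).differentiableAt (hB.mem_nhds hq')
  have hgVn : ∀ q : P × (Fin n → ℝ), q.1 ∈ B → Nice ∞ gV q := by
    intro q hq
    refine Nice.sum (by simp) Finset.univ fun i _ => ?_
    exact (hgn i q hq).smul (by simp) (nice_const (cr i) q)
  have hgVL : ∀ q : P × (Fin n → ℝ), q.1 ∈ B → ∀ j, dx (a q.1 j) gV q = b j q - κV q.1 j := by
    intro q hq j
    have h1 : ∀ i, DifferentiableAt ℝ (fun q : P × (Fin n → ℝ) => g i q.1 q.2) q := fun i =>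
      ContDiffAt.diffOne (hgn i q hq).contDiffAt (by simp)
    have h2 : ∀ i, dx (a q.1 j) (fun q : P × (Fin n → ℝ) => g i q.1 q.2) q =
        b j q (bV i) - κ i q.1 j := by
      intro i
      have h3 := hgL i q.1 hq q.2 j
      rw [← h3]
      unfold dx
      refine Finset.sum_congr rfl fun m _ => ?_
      rw [smul_eq_mul]
      congr 1
      exact (fderiv_snd (F := fun q : P × (Fin n → ℝ) => g i q.1 q.2) (y := q.1) (x := q.2)
        (h1 i) (Pi.single m 1)).symm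
    have h4 : dx (a q.1 j) gV q = ∑ i, dx (a q.1 j)
        (fun q : P × (Fin n → ℝ) => g i q.1 q.2) q • cr i := by
      have h5 : HasFDerivAt gV (∑ i, (fderiv ℝ (fun q : P × (Fin n → ℝ) => g i q.1 q.2) q).smulRight
          (cr i)) q := HasFDerivAt.fun_sum fun i _ => (h1 i).hasFDerivAt.smul_const (cr i)
      unfold dx
      rw [h5.fderiv]
      have h6 : ∀ m : Fin n, a q.1 j m • (∑ i, (fderiv ℝ (fun q : P × (Fin n → ℝ) =>
          g i q.1 q.2) q).smulRight (cr i)) (0, Pi.single m 1) =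
          ∑ i, (a q.1 j m • fderiv ℝ (fun q : P × (Fin n → ℝ) => g i q.1 q.2) q
            (0, Pi.single m 1)) • cr i := by
        intro m
        rw [sum_apply, Finset.smul_sum]
        refine Finset.sum_congr rfl fun i _ => ?_
        rw [ContinuousLinearMap.smulRight_apply, smul_smul, smul_eq_mul]
      rw [Finset.sum_congr rfl fun m _ => h6 m, Finset.sum_comm]
      refine Finset.sum_congr rfl fun i _ => ?_
      exact (Finset.sum_smul (R := ℂ) (M := V →L[ℂ] ℂ)).symm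
    rw [h4, Finset.sum_congr rfl fun i _ => by rw [h2 i]]
    have h7 : ∀ i, (b j q (bV i) - κ i q.1 j) • cr i =
        b j q (bV i) • cr i - κ i q.1 j • cr i := fun i => sub_smul (b j q (bV i)) (κ i q.1 j) (cr i)
    rw [Finset.sum_congr rfl fun i _ => h7 i, Finset.sum_sub_distrib, ← hcr]
  refine ⟨B, J, iJ, a, R, fun q => σ q - gV q, κV, hB, ⟨hy₁, hy₂⟩, hBT, hFB, ?_, ?_, ?_⟩
  · intro y hy x k
    simp only
    rw [hσp]
    congr 1
    refine Finset.sum_congr rfl fun i _ => ?_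
    have := hgp i y hy x k
    simp only at this ⊢
    rw [show (x + zr k) = (x + fun m => (k m : ℝ)) from rfl, this]
  · intro j
    refine DifferentiableOn.fun_sum fun i _ => ?_
    exact (hκh i j).smul_const (cr i)
  · intro q hq h hh
    obtain ⟨ρ, hρ1, hρ2⟩ := hσ q hq.2 h hh
    refine ⟨fun q => ρ q - gV q, hρ1.sub (by simp) (hgVn q hq), ?_, ?_⟩
    · filter_upwards [hρ2] with q' h1 hZ
      rw [h1 hZ]
      abel
    · have e1 : ∀ᶠ q' : P × (Fin n → ℝ) in 𝓝 q, q'.1 ∈ B :=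
        continuous_fst.continuousAt.eventually (hB.mem_nhds hq)
      filter_upwards [hbloc q hq _ _ hh hρ1 hρ2, hρ1, e1] with q' h1 h2 h3 j
      rw [dx_sub (ContDiffAt.diffOne h2.1 (by simp))
        (ContDiffAt.diffOne (hgVn q' h3).contDiffAt (by simp)), hgVL q' h3 j, ← h1 j]
      abel

end

end Vale.Agent.P281.H125.D
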